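import Vale.Agent.P092.H515.Lat
import Vale.Agent.P092.H899.Simple

/-!
P092 (helper515), block [LAT], second part: lattices from fundamental domains of finite measure;
slices of lattices in products; `SL_n(k)` is unimodular.
-/

set_option linter.all false

open MeasureTheory MeasureTheory.Measure Set Filter Topology
open scoped ENNReal NNReal Pointwise

namespace Vale.Agent.P092.H515

section prep

variable {E : Type} [Group E] [TopologicalSpace E]

/-- The data of the blocks from the literal definition of a lattice. -/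
theorem IsLattice.exists_prob {Λ : Subgroup E} (h : IsLattice Λ) [IsTopologicalGroup E]
    [m : MeasurableSpace (E ⧸ Λ)] [hm : BorelSpace (E ⧸ Λ)] :
    ∃ (ν : Measure (E ⧸ Λ)) (_ : IsProbabilityMeasure ν), ∀ g : E, ν.map (fun x => g • x) = ν := by
  obtain ⟨ν, hν0, hνf, hν⟩ := h.covol
  have hb : m = borel (E ⧸ Λ) := hm.measurable_eq
  subst hb
  letI : MeasurableSpace (E ⧸ Λ) := borel _
  haveI : BorelSpace (E ⧸ Λ) := ⟨rfl⟩
  have hν1 : ν Set.univ ≠ 0 := by
    intro h
    exact hν0 (Measure.measure_univ_eq_zero.mp h)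
  have hP : IsProbabilityMeasure ((ν Set.univ)⁻¹ • ν) := by
    constructor
    rw [Measure.smul_apply, smul_eq_mul]
    exact ENNReal.inv_mul_cancel hν1 hνf.ne
  refine ⟨(ν Set.univ)⁻¹ • ν, hP, fun g => ?_⟩
  have hgm : Measurable (fun x : E ⧸ Λ => g • x) := (continuous_const_smul g).measurable
  ext s hs
  rw [Measure.map_apply hgm hs, Measure.smul_apply, Measure.smul_apply, hν g s hs]

end prep

section conv

variable {E : Type} [Group E] [TopologicalSpace E] [IsTopologicalGroup E] [LocallyCompactSpace E]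
  [SecondCountableTopology E] [T2Space E] [MeasurableSpace E] [BorelSpace E]

section op
variable (Λ : Subgroup E)

instance measConst_op : MeasurableConstSMul Λ.op E := ⟨fun c => by
    have : (fun x : E => c • x) = fun x => x * c.1.unop := rfl
    rw [this]; exact measurable_mul_const _⟩

instance smulInv_op (μ : Measure E) [IsMulRightInvariant μ] : SMulInvariantMeasure Λ.op E μ :=
  ⟨fun c s hs => by
    have : (fun x : E => c • x) ⁻¹' s = (fun x => x * c.1.unop) ⁻¹' s := rfl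
    rw [this, measure_preimage_mul_right]⟩

theorem countable_op [DiscreteTopology Λ] : Countable Λ.op := by
  have hct : Countable Λ := H790.countable_of_discrete Λ
  have : Function.Injective fun v : Λ.op => (⟨v.1.unop, v.2⟩ : Λ) := by
    intro v w hvw
    apply Subtype.ext
    exact MulOpposite.unop_injective (congrArg (fun x : Λ => (x : E)) hvw)
  exact this.countable

end op

/-- A fundamental domain is not larger than a set meeting all cosets. -/
theorem fdom_le_of_cover (Λ : Subgroup E) [DiscreteTopology Λ] [MeasurableSpace (E ⧸ Λ)]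
    [BorelSpace (E ⧸ Λ)] (μ : Measure E)
    [IsHaarMeasure μ] [IsMulRightInvariant μ] {F : Set E} (hcov : ∀ x : E, ∃ v : Λ, x * v ∈ F) :
    μ (fdom Λ) ≤ μ F := by
  have hfd := isFundamentalDomain_op Λ μ
  have hcto := countable_op Λ
  calc μ (fdom Λ) ≤ ∑' c : Λ.op, μ (c • F ∩ fdom Λ) := by
        have hsub : fdom Λ ⊆ ⋃ c : Λ.op, c • F ∩ fdom Λ := by
          intro x hx
          obtain ⟨v, hv⟩ := hcov x
          refine mem_iUnion.2 ⟨⟨MulOpposite.op (v : E)⁻¹, Λ.inv_mem v.2⟩, ?_, hx⟩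
          rw [mem_smul_set]
          refine ⟨x * v, hv, ?_⟩
          show x * v * (v : E)⁻¹ = x
          group
        exact (measure_mono hsub).trans (measure_iUnion_le _)
    _ = μ F := (hfd.measure_eq_tsum F).symm

/-- A set meeting each coset at most once is not larger than a fundamental domain. -/
theorem le_fdom_of_unique (Λ : Subgroup E) [DiscreteTopology Λ] [MeasurableSpace (E ⧸ Λ)]
    [BorelSpace (E ⧸ Λ)] (ν : Measure (E ⧸ Λ)) [IsProbabilityMeasure ν]
    (hν : ∀ g : E, ν.map (fun x => g • x) = ν) (μ : Measure E)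
    [IsHaarMeasure μ] {F : Set E} (hF : MeasurableSet F) {N : ℕ}
    (huniq : ∀ x : E, ∃ S : Finset Λ, S.card ≤ N ∧ ∀ v : Λ, x * v ∈ F → v ∈ S) :
    μ F ≤ N * μ (fdom Λ) := by
  have := countable_lat Λ
  rw [← lintegral_indicator_one hF, unfold Λ ν hν μ (measurable_one.indicator hF)]
  have h : ∀ x : E ⧸ Λ, ∑' v : Λ, F.indicator (1 : E → ℝ≥0∞) (H85.sec Λ x * v) ≤ N := by
    intro x
    obtain ⟨S, hS, hv⟩ := huniq (H85.sec Λ x)
    rw [tsum_eq_sum (s := S)]
    · refine (Finset.sum_le_card_nsmul _ _ 1 fun v _ => ?_).trans ?_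
      · exact indicator_le' (fun _ _ => le_rfl) (fun _ _ => zero_le_one) _
      · simpa using hS
    · intro v hvS
      exact indicator_of_notMem (fun hm => hvS (hv v hm)) _
  calc μ (fdom Λ) * ∫⁻ x, ∑' v : Λ, F.indicator (1 : E → ℝ≥0∞) (H85.sec Λ x * v) ∂ν
      ≤ μ (fdom Λ) * ∫⁻ x : E ⧸ Λ, N ∂ν := by gcongr; exact h _
    _ = N * μ (fdom Λ) := by rw [lintegral_const, measure_univ, mul_one, mul_comm]

/-- A discrete subgroup of a unimodular group whose fundamental domain has finite measure is a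
lattice. -/
theorem isLattice_of_fdom (Λ : Subgroup E) [hd : DiscreteTopology Λ] [m : MeasurableSpace (E ⧸ Λ)]
    [hm : BorelSpace (E ⧸ Λ)] (μ : Measure E)
    [IsHaarMeasure μ] [IsMulRightInvariant μ] (h1 : μ (fdom Λ) < ∞) : IsLattice Λ := by
  have hct := countable_lat Λ
  have hcto := countable_op Λ
  have hfd := isFundamentalDomain_op Λ μ
  have hb : m = borel (E ⧸ Λ) := hm.measurable_eq
  subst hb
  letI : MeasurableSpace (E ⧸ Λ) := borel _
  haveI : BorelSpace (E ⧸ Λ) := ⟨rfl⟩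
  refine ⟨hd, (μ.restrict (fdom Λ)).map fun x : E => (x : E ⧸ Λ), ?_, ?_, ?_⟩
  · rw [← Measure.measure_univ_ne_zero, Measure.map_apply (mk_meas Λ) MeasurableSet.univ,
      preimage_univ, Measure.restrict_apply_univ]
    intro h0
    have h2 := hfd.measure_eq_tsum (univ : Set E)
    have h3 : ∑' c : Λ.op, μ (c • (univ : Set E) ∩ fdom Λ) = 0 := by
      rw [ENNReal.tsum_eq_zero]
      exact fun c => measure_mono_null inter_subset_right h0
    rw [h3] at h2
    exact (Measure.measure_univ_ne_zero.2 (NeZero.ne μ)) h2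
  · rw [Measure.map_apply (mk_meas Λ) MeasurableSet.univ, preimage_univ,
      Measure.restrict_apply_univ]
    exact h1
  · intro g s hs
    have hgs : MeasurableSet ((fun x : E ⧸ Λ => g • x) ⁻¹' s) := H85.smul_meas Λ g hs
    rw [Measure.map_apply (mk_meas Λ) hs, Measure.map_apply (mk_meas Λ) hgs,
      Measure.restrict_apply (mk_meas Λ hs), Measure.restrict_apply (mk_meas Λ hgs)]
    -- translate by `g`
    have hF2 : IsFundamentalDomain Λ.op ((g * ·) '' fdom Λ) μ := by
      refine IsFundamentalDomain.mk' ?_ fun x => ?_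
      · have e : (g * ·) '' fdom Λ = (g⁻¹ * ·) ⁻¹' fdom Λ := by
          ext x
          constructor
          · rintro ⟨y, hy, rfl⟩
            show g⁻¹ * (g * y) ∈ fdom Λ
            rwa [inv_mul_cancel_left]
          · intro hx
            exact ⟨g⁻¹ * x, hx, by simp⟩
        rw [e]
        exact (measurable_const_mul g⁻¹ (fdom_meas Λ)).nullMeasurableSet
      · obtain ⟨v, hv, hu⟩ := existsUnique_right Λ (g⁻¹ * x)
        refine ⟨⟨MulOpposite.op (v : E), v.2⟩, ⟨_, hv, ?_⟩, ?_⟩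
        · show g * (g⁻¹ * x * v) = x * v
          group
        · rintro ⟨w, hw⟩ ⟨y, hy, hyx⟩
          have hyx' : g * y = x * w.unop := hyx
          have h3 : g⁻¹ * x * w.unop ∈ fdom Λ := by
            have : g⁻¹ * x * w.unop = y := by
              rw [mul_assoc, ← hyx']; group
            rw [this]; exact hy
          have h1 := hu ⟨w.unop, hw⟩ h3
          apply Subtype.ext
          show w = MulOpposite.op (v : E)
          rw [← h1]
          rfl
    have hinv : ∀ c : Λ.op, (fun x => c • x) ⁻¹' ((fun x : E => (x : E ⧸ Λ)) ⁻¹' s) =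
        (fun x : E => (x : E ⧸ Λ)) ⁻¹' s := by
      intro c
      ext x
      have e : ((c • x : E) : E ⧸ Λ) = (x : E ⧸ Λ) := QuotientGroup.mk_mul_of_mem x c.2
      simp only [mem_preimage]
      rw [e]
    rw [hfd.measure_set_eq hF2 (mk_meas Λ hs) hinv]
    have e2 : (fun x : E => (x : E ⧸ Λ)) ⁻¹' ((fun x : E ⧸ Λ => g • x) ⁻¹' s) ∩ fdom Λ =
        (g * ·) ⁻¹' ((fun x : E => (x : E ⧸ Λ)) ⁻¹' s ∩ (g * ·) '' fdom Λ) := by
      ext x
      simp only [mem_inter_iff, mem_preimage, mem_image, mul_right_inj, exists_eq_right]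
      rfl
    rw [e2, measure_preimage_mul]

/-- A discrete subgroup of a unimodular group with a set of finite measure meeting all cosets is a
lattice. -/
theorem isLattice_of_cover (Λ : Subgroup E) [hd : DiscreteTopology Λ] (μ : Measure E)
    [IsHaarMeasure μ] [IsMulRightInvariant μ] {F : Set E} (hμF : μ F < ∞)
    (hcov : ∀ x : E, ∃ v : Λ, x * v ∈ F) : IsLattice Λ := by
  let _ : MeasurableSpace (E ⧸ Λ) := borel _
  have _ : BorelSpace (E ⧸ Λ) := ⟨rfl⟩
  exact isLattice_of_fdom Λ μ ((fdom_le_of_cover Λ μ hcov).trans_lt hμF)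

/-- A group all of whose homomorphisms to a commutative group are trivial is unimodular. -/
theorem modChar_of_perfect (h : ∀ f : E →* (ℝ≥0)ˣ, f = 1) (g : E) :
    modularCharacterFun g = 1 := by
  have h1 := h (modularCharacter (G := E)).toHomUnits
  have h2 := congrArg (fun f : E →* (ℝ≥0)ˣ => ((f g : (ℝ≥0)ˣ) : ℝ≥0)) h1
  exact h2

end conv

section sl

variable (k : Type) [NontriviallyNormedField k] [ProperSpace k] {n : Type} [Fintype n]
  [DecidableEq n]

/-- `SL_n(k)` is unimodular. -/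
theorem modChar_sl [Nontrivial n] [LocallyCompactSpace (Matrix.SpecialLinearGroup n k)]
    (g : Matrix.SpecialLinearGroup n k) : modularCharacterFun g = 1 := by
  have h2 : Infinite k := NontriviallyNormedField.infinite k
  have h3 : ∀ f : Matrix.SpecialLinearGroup n k →* (ℝ≥0)ˣ, f = 1 := fun f => H899.hom_eq_one f
  have h4 := h3 (modularCharacter (G := Matrix.SpecialLinearGroup n k)).toHomUnits
  exact congrArg (fun f : Matrix.SpecialLinearGroup n k →* (ℝ≥0)ˣ => ((f g : (ℝ≥0)ˣ) : ℝ≥0)) h4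

end sl

section slice

variable {G₁ G₂ : Type} [Group G₁] [TopologicalSpace G₁] [Group G₂] [TopologicalSpace G₂]

/-- The projection to the first factor of the elements of `Γ` with second component in `K`. -/
def slice₁ (Γ : Subgroup (G₁ × G₂)) (K : Subgroup G₂) : Subgroup G₁ :=
  (Γ ⊓ K.comap (MonoidHom.snd G₁ G₂)).map (MonoidHom.fst G₁ G₂)

theorem mem_slice₁ {Γ : Subgroup (G₁ × G₂)} {K : Subgroup G₂} {x : G₁} :
    x ∈ slice₁ Γ K ↔ ∃ g ∈ Γ, g.2 ∈ K ∧ g.1 = x := by
  constructor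
  · rintro ⟨g, ⟨h1, h2⟩, h3⟩
    exact ⟨g, h1, h2, h3⟩
  · rintro ⟨g, h1, h2, h3⟩
    exact ⟨g, ⟨h1, h2⟩, h3⟩

variable [IsTopologicalGroup G₁] [LocallyCompactSpace G₁] [T2Space G₁] [IsTopologicalGroup G₂]
  [LocallyCompactSpace G₂] [T2Space G₂]

theorem slice₁_finite (Γ : Subgroup (G₁ × G₂)) [DiscreteTopology Γ] (K : Subgroup G₂)
    (hKc : IsCompact (K : Set G₂)) {C : Set G₁} (hC : IsCompact C) :
    {x : G₁ | x ∈ slice₁ Γ K ∧ x ∈ C}.Finite := by
  have h1 := finite_of_compact Γ (hC.prod hKc)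
  refine (h1.image fun g : Γ => (g : G₁ × G₂).1).subset ?_
  rintro x ⟨hx, hxC⟩
  obtain ⟨g, hg, hgK, rfl⟩ := mem_slice₁.1 hx
  exact ⟨⟨g, hg⟩, ⟨hxC, hgK⟩, rfl⟩

theorem slice₁_discrete (Γ : Subgroup (G₁ × G₂)) [DiscreteTopology Γ] (K : Subgroup G₂)
    (hKc : IsCompact (K : Set G₂)) : DiscreteTopology (slice₁ Γ K) := by
  obtain ⟨C, hC, hC1⟩ := exists_compact_mem_nhds (1 : G₁)
  have hfin := slice₁_finite Γ K hKc hC
  refine discreteTopology_of_isOpen_singleton_one ?_
  have hfin' : (Subtype.val ⁻¹' C : Set (slice₁ Γ K)).Finite := by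
    refine Set.Finite.of_finite_image (f := Subtype.val) ?_ Subtype.val_injective.injOn
    exact hfin.subset (by rintro _ ⟨x, hx, rfl⟩; exact ⟨x.2, hx⟩)
  have hnh : (Subtype.val ⁻¹' C : Set (slice₁ Γ K)) ∈ 𝓝 (1 : slice₁ Γ K) :=
    continuous_subtype_val.continuousAt.preimage_mem_nhds (by simpa using hC1)
  have h2 : (Subtype.val ⁻¹' C \ {1} : Set (slice₁ Γ K)).Finite := hfin'.subset diff_subset
  have h3 : {(1 : slice₁ Γ K)} ∈ 𝓝 (1 : slice₁ Γ K) := by
    have h4 : (Subtype.val ⁻¹' C \ {1} : Set (slice₁ Γ K))ᶜ ∈ 𝓝 (1 : slice₁ Γ K) :=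
      h2.isClosed.isOpen_compl.mem_nhds (by simp)
    filter_upwards [hnh, h4] with x hx1 hx2
    by_contra hx3
    exact hx2 ⟨hx1, hx3⟩
  exact isOpen_singleton_iff_nhds_eq_pure _ |>.2 (le_antisymm (by
    intro s hs
    filter_upwards [h3] with x hx
    have : x = 1 := hx
    rw [this]; exact hs) (pure_le_nhds _))

variable [SecondCountableTopology G₁] [SecondCountableTopology G₂]
  [MeasurableSpace G₁] [BorelSpace G₁] [MeasurableSpace G₂] [BorelSpace G₂]

/-- The factors of a unimodular product are unimodular. -/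
theorem rightInv_fst (μ₁ : Measure G₁) [IsHaarMeasure μ₁] (μ₂ : Measure G₂) [IsHaarMeasure μ₂]
    [h : IsMulRightInvariant (μ₁.prod μ₂)] : IsMulRightInvariant μ₁ := by
  refine rightInv_of_modChar μ₁ fun g => ?_
  obtain ⟨K₁⟩ : Nonempty (TopologicalSpace.PositiveCompacts G₁) := inferInstance
  obtain ⟨K₂⟩ : Nonempty (TopologicalSpace.PositiveCompacts G₂) := inferInstance
  have h1 : map (· * ((g, 1) : G₁ × G₂)) (μ₁.prod μ₂) = μ₁.prod μ₂ := map_mul_right_eq_self _ _
  have h2 : map (· * ((g, 1) : G₁ × G₂)) (μ₁.prod μ₂) =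
      (map (· * g) μ₁).prod (map (· * (1 : G₂)) μ₂) := by
    rw [Measure.map_prod_map _ _ (measurable_mul_const g) (measurable_mul_const (1 : G₂))]
    rfl
  rw [h2, map_right_mul_eq_modularCharacterFun_smul μ₁ g] at h1
  have h3 : map (· * (1 : G₂)) μ₂ = μ₂ := by simp
  rw [h3] at h1
  have h4 := congrArg (fun m : Measure (G₁ × G₂) => m (K₁ ×ˢ K₂)) h1
  simp only [Measure.prod_prod, Measure.smul_apply] at h4
  have a1 : μ₁ K₁ ≠ 0 := (measure_pos_of_nonempty_interior _ K₁.interior_nonempty).ne'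
  have a2 : μ₁ K₁ ≠ ∞ := K₁.isCompact.measure_lt_top.ne
  have b1 : μ₂ K₂ ≠ 0 := (measure_pos_of_nonempty_interior _ K₂.interior_nonempty).ne'
  have b2 : μ₂ K₂ ≠ ∞ := K₂.isCompact.measure_lt_top.ne
  rw [ENNReal.mul_left_inj b1 b2, ENNReal.smul_def, smul_eq_mul] at h4
  have h5 : (modularCharacterFun g : ℝ≥0∞) * μ₁ K₁ = 1 * μ₁ K₁ := by rw [one_mul]; exact h4
  rw [ENNReal.mul_left_inj a1 a2] at h5
  exact_mod_cast h5

/-- **Slices**: `Γ` a lattice in `G₁ × G₂`, `K` a compact open subgroup of `G₂`. The slice of `Γ`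
over `K` is a lattice of `G₁`. -/
theorem slice₁_isLattice {Γ : Subgroup (G₁ × G₂)} (hΓ : IsLattice Γ) (K : Subgroup G₂)
    (hKo : IsOpen (K : Set G₂)) (hKc : IsCompact (K : Set G₂)) : IsLattice (slice₁ Γ K) := by
  classical
  have hd := hΓ.disc
  have hdS := slice₁_discrete Γ K hKc
  let _ : MeasurableSpace ((G₁ × G₂) ⧸ Γ) := borel _
  have _ : BorelSpace ((G₁ × G₂) ⧸ Γ) := ⟨rfl⟩
  let _ : MeasurableSpace (G₁ ⧸ slice₁ Γ K) := borel _
  have _ : BorelSpace (G₁ ⧸ slice₁ Γ K) := ⟨rfl⟩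
  obtain ⟨ν, hP, hν⟩ := hΓ.exists_prob
  obtain ⟨μ₁, hμ₁⟩ : ∃ μ : Measure G₁, μ = haar := ⟨_, rfl⟩
  have hH₁ : IsHaarMeasure μ₁ := by rw [hμ₁]; infer_instance
  obtain ⟨μ₂, hμ₂⟩ : ∃ μ : Measure G₂, μ = haar := ⟨_, rfl⟩
  have hH₂ : IsHaarMeasure μ₂ := by rw [hμ₂]; infer_instance
  have hr : IsMulRightInvariant (μ₁.prod μ₂) := right_invariant Γ ν hν (μ₁.prod μ₂)
  have hr₁ : IsMulRightInvariant μ₁ := rightInv_fst μ₁ μ₂
  refine isLattice_of_fdom (slice₁ Γ K) μ₁ ?_
  -- the kernel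
  have hfin : {v : Γ | (v : G₁ × G₂) ∈ ({1} : Set G₁) ×ˢ (K : Set G₂)}.Finite :=
    finite_of_compact Γ (isCompact_singleton.prod hKc)
  have h1 := le_fdom_of_unique Γ ν hν (μ₁.prod μ₂) (F := fdom (slice₁ Γ K) ×ˢ (K : Set G₂))
    (N := hfin.toFinset.card) ((fdom_meas _).prod hKo.measurableSet) ?_
  · rw [Measure.prod_prod] at h1
    have h2 : μ₁ (fdom (slice₁ Γ K)) * μ₂ K < ∞ :=
      h1.trans_lt (ENNReal.mul_lt_top (ENNReal.natCast_lt_top _)
        (fdom_lt_top Γ ν hν (μ₁.prod μ₂)))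
    have h3 : μ₂ (K : Set G₂) ≠ 0 := (hKo.measure_pos μ₂ ⟨1, K.one_mem⟩).ne'
    exact ENNReal.lt_top_of_mul_ne_top_left h2.ne h3
  · intro x
    by_cases hx : ∃ v0 : Γ, x * v0 ∈ fdom (slice₁ Γ K) ×ˢ (K : Set G₂)
    · obtain ⟨v0, hv0⟩ := hx
      refine ⟨hfin.toFinset.image fun v => v0 * v, Finset.card_image_le, fun v hv => ?_⟩
      rw [Finset.mem_image]
      refine ⟨v0⁻¹ * v, ?_, by group⟩
      rw [hfin.mem_toFinset]
      have hK : ((v0⁻¹ * v : Γ) : G₁ × G₂).2 ∈ K := by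
        have e : ((v0⁻¹ * v : Γ) : G₁ × G₂).2 = (x * v0).2⁻¹ * (x * v).2 := by
          simp only [Subgroup.coe_mul, Subgroup.coe_inv, Prod.snd_mul, Prod.snd_inv]
          group
        rw [e]
        exact K.mul_mem (K.inv_mem hv0.2) hv.2
      have hmem : ((v0⁻¹ * v : Γ) : G₁ × G₂).1 ∈ slice₁ Γ K :=
        mem_slice₁.2 ⟨_, (v0⁻¹ * v : Γ).2, hK, rfl⟩
      obtain ⟨u, hu1, hu2⟩ := existsUnique_right (slice₁ Γ K) (x * v0).1
      have e1 := hu2 1 (by simpa using hv0.1)
      have e2 := hu2 ⟨_, hmem⟩ (by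
        have e : (x * v0).1 * ((v0⁻¹ * v : Γ) : G₁ × G₂).1 = (x * v).1 := by
          simp only [Subgroup.coe_mul, Subgroup.coe_inv, Prod.fst_mul, Prod.fst_inv]
          group
        show (x * v0).1 * ((v0⁻¹ * v : Γ) : G₁ × G₂).1 ∈ fdom (slice₁ Γ K)
        rw [e]; exact hv.1)
      have e3 : ((v0⁻¹ * v : Γ) : G₁ × G₂).1 = 1 := by
        have := congrArg (fun u : slice₁ Γ K => (u : G₁)) (e2.trans e1.symm)
        exact this
      exact ⟨e3, hK⟩
    · push Not at hx
      exact ⟨∅, by simp, fun v hv => absurd hv (hx v)⟩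

end slice

/-! ### Transport -/

section transport

/-- Lattices are transported by topological isomorphisms. -/
theorem IsLattice.map_equiv {E E' : Type} [Group E] [TopologicalSpace E] [IsTopologicalGroup E]
    [LocallyCompactSpace E] [SecondCountableTopology E] [T2Space E] [Group E']
    [TopologicalSpace E'] [IsTopologicalGroup E'] [LocallyCompactSpace E']
    [SecondCountableTopology E'] [T2Space E'] (e : E ≃* E') (he : Continuous e)
    (he' : Continuous e.symm) {Λ : Subgroup E} (h : IsLattice Λ) :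
    IsLattice (Λ.map (e : E →* E')) := by
  have hd := h.disc
  borelize E
  borelize E'
  let _ : MeasurableSpace (E ⧸ Λ) := borel _
  have _ : BorelSpace (E ⧸ Λ) := ⟨rfl⟩
  obtain ⟨ν, hP, hν⟩ := h.exists_prob
  obtain ⟨μ, hμ⟩ : ∃ μ : Measure E, μ = haar := ⟨_, rfl⟩
  have hH : IsHaarMeasure μ := by rw [hμ]; infer_instance
  have hr := right_invariant Λ ν hν μ
  have hH' : IsHaarMeasure (μ.map e) := e.isHaarMeasure_map μ he he'
  have hr' : IsMulRightInvariant (μ.map e) := by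
    refine ⟨fun g => ?_⟩
    have e1 : (fun x => x * g) ∘ e = e ∘ fun x => x * e.symm g := by
      funext x; simp
    rw [Measure.map_map (measurable_mul_const g) he.measurable, e1,
      ← Measure.map_map he.measurable (measurable_mul_const _), map_mul_right_eq_self]
  have hdisc : DiscreteTopology (Λ.map (e : E →* E')) := by
    have hf : Continuous fun y : Λ.map (e : E →* E') =>
        (⟨e.symm y, by
          obtain ⟨x, hx, hxy⟩ := y.2
          have : e x = y := hxy
          rw [← this]; simpa using hx⟩ : Λ) :=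
      (he'.comp continuous_subtype_val).subtype_mk _
    refine DiscreteTopology.of_continuous_injective hf ?_
    intro y y' hyy
    have := congrArg (fun v : Λ => (v : E)) hyy
    exact Subtype.ext (e.symm.injective this)
  refine isLattice_of_cover _ (μ.map e) (F := e.symm ⁻¹' fdom Λ) ?_ fun x => ?_
  · rw [Measure.map_apply he.measurable (he'.measurable (fdom_meas Λ)), ← preimage_comp]
    have : (e.symm : E' → E) ∘ e = id := by funext x; simp
    rw [this, preimage_id]
    exact fdom_lt_top Λ ν hν μ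
  · obtain ⟨v, hv, -⟩ := existsUnique_right Λ (e.symm x)
    refine ⟨⟨e v, ⟨v, v.2, rfl⟩⟩, ?_⟩
    show e.symm (x * e v) ∈ fdom Λ
    rw [map_mul, MulEquiv.symm_apply_apply]
    exact hv

/-- The swapped lattice. -/
theorem IsLattice.swap {G₁ G₂ : Type} [Group G₁] [TopologicalSpace G₁] [Group G₂]
    [TopologicalSpace G₂] [IsTopologicalGroup G₁] [LocallyCompactSpace G₁] [T2Space G₁]
    [IsTopologicalGroup G₂] [LocallyCompactSpace G₂] [T2Space G₂] [SecondCountableTopology G₁]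
    [SecondCountableTopology G₂] {Γ : Subgroup (G₁ × G₂)} (h : IsLattice Γ) :
    IsLattice (Γ.map (MulEquiv.prodComm : G₁ × G₂ ≃* G₂ × G₁).toMonoidHom) :=
  h.map_equiv (MulEquiv.prodComm : G₁ × G₂ ≃* G₂ × G₁) (by exact continuous_swap)
    (by exact continuous_swap)

end transport

/-! ### Elementary forms of the first part -/

section forms

variable {E : Type} [Group E] [TopologicalSpace E] [IsTopologicalGroup E] [LocallyCompactSpace E]
  [SecondCountableTopology E] [T2Space E] [MeasurableSpace E] [BorelSpace E] {Λ : Subgroup E}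
  (μ : Measure E) [IsHaarMeasure μ]

theorem IsLattice.rightInv (h : IsLattice Λ) : IsMulRightInvariant μ := by
  have hd := h.disc
  let _ : MeasurableSpace (E ⧸ Λ) := borel _
  have _ : BorelSpace (E ⧸ Λ) := ⟨rfl⟩
  obtain ⟨ν, hP, hν⟩ := h.exists_prob
  exact right_invariant Λ ν hν μ

theorem IsLattice.invInv (h : IsLattice Λ) : IsInvInvariant μ := by
  have := h.rightInv μ
  exact invInv_of_right μ

theorem IsLattice.exists_fdom_right (h : IsLattice Λ) : ∃ F : Set E, MeasurableSet F ∧ μ F < ∞ ∧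
    0 < μ F ∧ (∀ x : E, ∃! v : Λ, x * v ∈ F) ∧ IsFundamentalDomain Λ.op F μ := by
  have hd := h.disc
  let _ : MeasurableSpace (E ⧸ Λ) := borel _
  have _ : BorelSpace (E ⧸ Λ) := ⟨rfl⟩
  obtain ⟨ν, hP, hν⟩ := h.exists_prob
  exact ⟨fdom Λ, fdom_meas Λ, fdom_lt_top Λ ν hν μ, fdom_pos Λ ν hν μ, existsUnique_right Λ,
    isFundamentalDomain_op Λ μ⟩

theorem IsLattice.exists_fdom_left (h : IsLattice Λ) : ∃ F : Set E, MeasurableSet F ∧ μ F < ∞ ∧
    0 < μ F ∧ (∀ x : E, ∃! v : Λ, v * x ∈ F) ∧ IsFundamentalDomain Λ F μ := by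
  have hd := h.disc
  let _ : MeasurableSpace (E ⧸ Λ) := borel _
  have _ : BorelSpace (E ⧸ Λ) := ⟨rfl⟩
  obtain ⟨ν, hP, hν⟩ := h.exists_prob
  have hi := h.invInv μ
  refine ⟨(fdom Λ)⁻¹, (fdom_meas Λ).inv, fdom_inv_lt_top Λ ν hν μ, ?_, existsUnique_left Λ,
    isFundamentalDomain_left Λ μ⟩
  rw [measure_inv]
  exact fdom_pos Λ ν hν μ

end forms

section slice2

variable {G₁ G₂ : Type} [Group G₁] [TopologicalSpace G₁] [Group G₂] [TopologicalSpace G₂]

/-- The projection to the second factor of the elements of `Γ` with first component in `K`. -/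
def slice₂ (Γ : Subgroup (G₁ × G₂)) (K : Subgroup G₁) : Subgroup G₂ :=
  (Γ ⊓ K.comap (MonoidHom.fst G₁ G₂)).map (MonoidHom.snd G₁ G₂)

theorem mem_slice₂ {Γ : Subgroup (G₁ × G₂)} {K : Subgroup G₁} {x : G₂} :
    x ∈ slice₂ Γ K ↔ ∃ g ∈ Γ, g.1 ∈ K ∧ g.2 = x := by
  constructor
  · rintro ⟨g, ⟨h1, h2⟩, h3⟩
    exact ⟨g, h1, h2, h3⟩
  · rintro ⟨g, h1, h2, h3⟩
    exact ⟨g, ⟨h1, h2⟩, h3⟩

/-- **Slices**, second factor. -/
theorem slice₂_isLattice [IsTopologicalGroup G₁] [LocallyCompactSpace G₁] [T2Space G₁]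
    [IsTopologicalGroup G₂] [LocallyCompactSpace G₂] [T2Space G₂] [SecondCountableTopology G₁]
    [SecondCountableTopology G₂] {Γ : Subgroup (G₁ × G₂)} (hΓ : IsLattice Γ) (K : Subgroup G₁)
    (hKo : IsOpen (K : Set G₁)) (hKc : IsCompact (K : Set G₁)) : IsLattice (slice₂ Γ K) := by
  borelize G₁
  borelize G₂
  have h := slice₁_isLattice hΓ.swap K hKo hKc
  have e : slice₁ (Γ.map (MulEquiv.prodComm : G₁ × G₂ ≃* G₂ × G₁).toMonoidHom) K =
      slice₂ Γ K := by
    ext x
    rw [mem_slice₁, mem_slice₂]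
    constructor
    · rintro ⟨g, ⟨g', hg', rfl⟩, h2, h3⟩
      exact ⟨g', hg', h2, h3⟩
    · rintro ⟨g, hg, h2, h3⟩
      exact ⟨_, ⟨g, hg, rfl⟩, h2, h3⟩
  rwa [e] at h

end slice2

end Vale.Agent.P092.H515
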