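import Vale.Agent.P092.H655.Stmt

/-!
P092 (helper515): the class of groups (with their rank) of the final statement.
-/

open MeasureTheory

namespace Vale.Agent.P092.H515.St

/-- The normed field `k` is `ℝ`, `ℂ` or non-archimedean. -/
inductive LocK (k : Type) [NontriviallyNormedField k] : Prop
  | real (φ : k ≃+* ℝ) (h : ∀ x, ‖φ x‖ = ‖x‖) : LocK k
  | cplx (φ : k ≃+* ℂ) (h : ∀ x, ‖φ x‖ = ‖x‖) : LocK k
  | ultra (h : IsUltrametricDist k) : LocK k

/-- The matrix of the form with `q` hyperbolic planes (of sign `ε`) and the form `J₀`. -/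
def form {k : Type} [Field k] {ι : Type} (q : ℕ) (ε : k) (J₀ : Matrix ι ι k) :
    Matrix ((Fin q ⊕ Fin q) ⊕ ι) ((Fin q ⊕ Fin q) ⊕ ι) k :=
  Matrix.fromBlocks (Matrix.fromBlocks 0 1 (ε • (1 : Matrix (Fin q) (Fin q) k)) 0) 0 0 J₀

/-- The smallest class of topological groups with a number (the rank) which contains, for every
local field `k`, the groups `SL_{n+1}(k)` of rank `n` and the special isometry groups of
`(ε, σ)`-hermitian forms which are the sum of `q` hyperbolic planes and an anisotropic form `J₀`, of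
rank `q`, if `P q`, and is closed under products. -/
inductive Rk (P : ℕ → Prop) : (G : Type) → [Group G] → [TopologicalSpace G] → ℕ → Prop
  | sl (k : Type) [NontriviallyNormedField k] [ProperSpace k] (hk : LocK k) (n : ℕ) :
      Rk P (Matrix.SpecialLinearGroup (Fin (n + 1)) k) n
  | isom (k : Type) [NontriviallyNormedField k] [ProperSpace k] (hk : LocK k)
      (σ : k →+* k) (hσ : ∀ x, σ (σ x) = x) (hn : ∀ x, ‖σ x‖ = ‖x‖)
      (ε : k) (hε : ε * ε = 1) (hσε : σ ε = ε)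
      (ι : Type) [Fintype ι] [DecidableEq ι] (J₀ : Matrix ι ι k)
      (hJ : ∀ v : ι → k, v ≠ 0 → v ⬝ᵥ (J₀.mulVec fun l => σ (v l)) ≠ 0)
      (q : ℕ) (hq : P q)
      (G : Subgroup (Matrix.SpecialLinearGroup ((Fin q ⊕ Fin q) ⊕ ι) k))
      (hG : ∀ g, g ∈ G ↔ g.1 * form q ε J₀ * (g.1.map σ).transpose = form q ε J₀) :
      Rk P G q
  | prod (G H : Type) [Group G] [TopologicalSpace G] [Group H] [TopologicalSpace H] (r s : ℕ)
      (hG : Rk P G r) (hH : Rk P H s) : Rk P (G × H) (r + s)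

/-- `Λ` is a lattice in the topological group `H`: it is discrete and `H/Λ` carries a nonzero finite
invariant Borel measure. -/
structure IsLattice {H : Type} [Group H] [TopologicalSpace H] (Λ : Subgroup H) : Prop where
  disc : DiscreteTopology Λ
  covol : ∃ ν : @Measure (H ⧸ Λ) (borel (H ⧸ Λ)), ν ≠ 0 ∧ ν Set.univ < ⊤ ∧
    ∀ g : H, ∀ s : Set (H ⧸ Λ), MeasurableSet[borel (H ⧸ Λ)] s →
      ν ((fun x => g • x) ⁻¹' s) = ν s

/-- `Γ` has a subgroup of finite index isomorphic to a discrete subgroup of `G`. -/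
def DiscIn (G : Type) [Group G] [TopologicalSpace G] (Γ : Type) [Group Γ] : Prop :=
  ∃ (Γ₀ : Subgroup G) (i : Γ₀ →* Γ), DiscreteTopology Γ₀ ∧ Function.Injective i ∧
    i.range.FiniteIndex

/-- `Λ` has a subgroup isomorphic to a lattice of `H`. -/
def LatIn (H : Type) [Group H] [TopologicalSpace H] (Λ : Type) [Group Λ] : Prop :=
  ∃ (Λ₀ : Subgroup H) (j : Λ₀ →* Λ), IsLattice Λ₀ ∧ Function.Injective j

open Vale.Agent.P092.H103.St Vale.Agent.P092.H655 in
/-- `L(Λ)` has no trace preserving embedding into an amplification of `L(Γ)`; if `Γ` or `Λ` is ICC,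
`L(Λ)` is not isomorphic to a corner of a matrix algebra over `L(Γ)`; if `Λ` is ICC, `L(Γ)` is not
isomorphic to a corner of a matrix algebra over `L(Λ)`. -/
def NoEmb (Γ Λ : Type) [Group Γ] [Group Λ] : Prop := ∀ k : ℕ,
  (∀ U : Λ → MOp k Γ, ¬ TraceRep Λ Γ k U) ∧
  ((∀ g : Γ, g ≠ 1 → Set.Infinite {y : Γ | ∃ h, y = h * g * h⁻¹}) ∨
    (∀ g : Λ, g ≠ 1 → Set.Infinite {y : Λ | ∃ h, y = h * g * h⁻¹}) →
    ∀ p : MOp k Γ, IsProj p → IsEmpty (CornerIso Λ Γ k p)) ∧
  ((∀ g : Λ, g ≠ 1 → Set.Infinite {y : Λ | ∃ h, y = h * g * h⁻¹}) →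
    ∀ p : MOp k Λ, IsProj p → IsEmpty (CornerIso Γ Λ k p))

end Vale.Agent.P092.H515.St
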