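import Vale.Agent.P092.H515.FormTgt
import Vale.Agent.P092.H303.Form

/-!
P092 (helper515): the Witt index of `hyp q ε J₀`, `J₀` anisotropic, is `q`; the form groups are target
groups of rank `q`.
-/

set_option linter.all false

namespace Vale.Agent.P092.H515

open Matrix
open Vale.Agent.P092.H933 (LocK BCart gsys_gl)
open Vale.Agent.P092.H303 (FormGroup hyp Idx)

section witt
variable {k : Type} [Field k] {ι : Type} [Fintype ι] [DecidableEq ι] {q : ℕ} {σ : k →+* k} {ε : k}
  {J₀ : Matrix ι ι k}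

/-- The value of the form. -/
lemma hyp_apply (x y : Idx q ι → k) :
    x ⬝ᵥ (hyp q ε J₀ *ᵥ y) = ∑ i, x (.inl (.inl i)) * y (.inl (.inr i)) +
      ε * ∑ i, x (.inl (.inr i)) * y (.inl (.inl i)) +
      (fun l => x (.inr l)) ⬝ᵥ (J₀ *ᵥ fun l => y (.inr l)) := by
  have h : ∀ a, (hyp q ε J₀ *ᵥ y) a = Sum.elim (Sum.elim (fun i => y (.inl (.inr i)))
      (fun i => ε * y (.inl (.inl i)))) (J₀ *ᵥ fun l => y (.inr l)) a := by
    rintro ((i | i) | l)
    · simp [hyp, mulVec, dotProduct, Matrix.one_apply]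
    · simp [hyp, mulVec, dotProduct, Matrix.one_apply]
    · simp [hyp, mulVec, dotProduct]
  simp only [dotProduct, h, Fintype.sum_sum_type, Sum.elim_inl, Sum.elim_inr, Finset.mul_sum]
  congr 2
  exact Finset.sum_congr rfl fun i _ => by ring

/-- Dimension count. -/
theorem rank_aux {V : Type} [AddCommGroup V] [Module k V] [Module.Finite k V]
    (hσ : ∀ x, σ (σ x) = x) (πF πE : V →ₗ[k] (Fin q → k))
    (h1 : ∀ w, πF w = 0 → πE w = 0 → w = 0)
    (h2 : ∀ x w, πF w = 0 → ∑ i, πF x i * σ (πE w i) = 0) : Module.finrank k V ≤ q := by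
  have hrk := LinearMap.finrank_range_add_finrank_ker πF
  let b := Module.finBasis k (LinearMap.ker πF)
  obtain ⟨S, hS⟩ : ∃ S : Matrix (Fin (Module.finrank k (LinearMap.ker πF))) (Fin q) k,
    ∀ j i, S j i = σ (πE (b j) i) := ⟨Matrix.of fun j i => σ (πE (b j) i), fun _ _ => rfl⟩
  have hSr : S.rank = Module.finrank k (LinearMap.ker πF) := by
    have h3 : LinearIndependent k S.row := by
      rw [Fintype.linearIndependent_iff]
      intro c hc
      have h4 : ∑ j, σ (c j) • b j = 0 := by
        apply Subtype.ext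
        refine h1 _ (LinearMap.mem_ker.1 (∑ j, σ (c j) • b j).2) ?_
        rw [Submodule.coe_sum, map_sum]
        funext i
        rw [Finset.sum_apply]
        have h5 := congrArg σ (congrFun hc i)
        rw [Finset.sum_apply, map_sum] at h5
        refine Eq.trans (Finset.sum_congr rfl fun j _ => ?_) (h5.trans (map_zero σ))
        rw [Pi.smul_apply, Matrix.row_apply, hS, smul_eq_mul, map_mul, hσ, Submodule.coe_smul,
          map_smul, Pi.smul_apply, smul_eq_mul]
      have h5 := Fintype.linearIndependent_iff.1 b.linearIndependent _ h4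
      intro j
      have := h5 j
      rw [← hσ (c j), this, map_zero]
    rw [LinearIndependent.rank_matrix h3, Fintype.card_fin]
  have hle : LinearMap.range πF ≤ LinearMap.ker S.mulVecLin := by
    rintro _ ⟨x, rfl⟩
    rw [LinearMap.mem_ker]
    funext j
    rw [mulVecLin_apply]
    change ∑ i, S j i * πF x i = 0
    rw [← h2 x (b j) (LinearMap.mem_ker.1 (b j).2)]
    exact Finset.sum_congr rfl fun i _ => by rw [hS, mul_comm]
  have h5 := Submodule.finrank_mono hle
  have h6 := LinearMap.finrank_range_add_finrank_ker S.mulVecLin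
  have h7 : Module.finrank k (LinearMap.range S.mulVecLin) = S.rank := rfl
  rw [h7, hSr, Module.finrank_fin_fun] at h6
  omega

/-- There is no totally isotropic subspace of dimension `q + 1`. -/
theorem witt (hσ : ∀ x, σ (σ x) = x) (hε : ε ≠ 0)
    (hJ : ∀ v : ι → k, v ≠ 0 → v ⬝ᵥ (J₀ *ᵥ fun l => σ (v l)) ≠ 0)
    (v : Fin (q + 1) → Idx q ι → k) (hv : LinearIndependent k v) :
    ∃ i j, v i ⬝ᵥ (hyp q ε J₀ *ᵥ fun l => σ (v j l)) ≠ 0 := by
  by_contra hcon
  push Not at hcon
  obtain ⟨W, hW⟩ : ∃ W : Submodule k (Idx q ι → k), W = Submodule.span k (Set.range v) := ⟨_, rfl⟩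
  have hWd : Module.finrank k W = q + 1 := by
    rw [hW, finrank_span_eq_card hv, Fintype.card_fin]
  -- the form vanishes on `W`
  have hB : ∀ x ∈ W, ∀ y ∈ W, x ⬝ᵥ (hyp q ε J₀ *ᵥ fun l => σ (y l)) = 0 := by
    intro x hx y hy
    rw [hW] at hx hy
    induction hx using Submodule.span_induction with
    | mem x hx =>
      obtain ⟨i, rfl⟩ := hx
      induction hy using Submodule.span_induction with
      | mem y hy =>
        obtain ⟨j, rfl⟩ := hy
        exact hcon i j
      | zero =>
        have : (fun l => σ ((0 : Idx q ι → k) l)) = 0 := by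
          funext l; simp
        rw [this, mulVec_zero, dotProduct_zero]
      | add y z _ _ h1 h2 =>
        have : (fun l => σ ((y + z) l)) = (fun l => σ (y l)) + fun l => σ (z l) := by
          funext l; simp
        rw [this, mulVec_add, dotProduct_add, h1, h2, add_zero]
      | smul c y _ h1 =>
        have : (fun l => σ ((c • y) l)) = σ c • fun l => σ (y l) := by
          funext l; simp
        rw [this, mulVec_smul, dotProduct_smul, h1, smul_zero]
    | zero => rw [zero_dotProduct]
    | add x z _ _ h1 h2 => rw [add_dotProduct, h1, h2, add_zero]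
    | smul c x _ h1 => rw [smul_dotProduct, h1, smul_zero]
  -- the projections
  obtain ⟨πF, hF⟩ : ∃ π : W →ₗ[k] (Fin q → k), ∀ x i, π x i = (x : Idx q ι → k) (.inl (.inr i)) :=
    ⟨(LinearMap.funLeft k k (fun i : Fin q => (.inl (.inr i) : Idx q ι))).comp W.subtype,
      fun x i => rfl⟩
  obtain ⟨πE, hE⟩ : ∃ π : W →ₗ[k] (Fin q → k), ∀ x i, π x i = (x : Idx q ι → k) (.inl (.inl i)) :=
    ⟨(LinearMap.funLeft k k (fun i : Fin q => (.inl (.inl i) : Idx q ι))).comp W.subtype,
      fun x i => rfl⟩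
  have hker0 : ∀ w, πF w = 0 → ∀ i, (w : Idx q ι → k) (.inl (.inr i)) = 0 := fun w hw i => by
    rw [← hF, hw]; rfl
  have hker1 : ∀ w, πF w = 0 → ∀ l, (w : Idx q ι → k) (.inr l) = 0 := by
    intro w hw
    have h1 := hB w w.2 w w.2
    rw [hyp_apply] at h1
    simp only [hker0 w hw, map_zero, mul_zero, zero_mul, Finset.sum_const_zero, zero_add] at h1
    by_contra hne
    push Not at hne
    obtain ⟨l, hl⟩ := hne
    exact hJ (fun l => (w : Idx q ι → k) (.inr l)) (fun h => hl (congrFun h l)) h1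
  have h := rank_aux hσ πF πE (fun w hw hw' => ?_) fun x w hw => ?_
  · omega
  · apply Subtype.ext
    funext a
    rcases a with (i | i) | l
    · have := congrFun hw' i
      rw [hE] at this
      exact this
    · exact hker0 w hw i
    · exact hker1 w hw l
  · have h1 := hB x x.2 w w.2
    rw [hyp_apply] at h1
    simp only [hker0 _ hw, hker1 _ hw, map_zero, mul_zero, Finset.sum_const_zero,
      zero_add] at h1
    have h2 : (J₀ *ᵥ fun _ : ι => (0 : k)) = 0 := mulVec_zero J₀
    rw [h2, dotProduct_zero, add_zero] at h1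
    have h3 := (mul_eq_zero.1 h1).resolve_left hε
    rw [← h3]
    exact Finset.sum_congr rfl fun i _ => by rw [hE, hF]

/-- The form is nondegenerate. -/
theorem hyp_det (hσ : ∀ x, σ (σ x) = x) (hε : ε ≠ 0)
    (hJ : ∀ v : ι → k, v ≠ 0 → v ⬝ᵥ (J₀ *ᵥ fun l => σ (v l)) ≠ 0) : (hyp q ε J₀).det ≠ 0 := by
  intro h0
  obtain ⟨y, hy0, hy⟩ := Matrix.exists_mulVec_eq_zero_iff.2 h0
  apply hy0
  have hx : ∀ x : Idx q ι → k, x ⬝ᵥ (hyp q ε J₀ *ᵥ y) = 0 := fun x => by
    rw [hy, dotProduct_zero]
  have hr : ∀ l, y (.inr l) = 0 := by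
    have h1 := hx (Sum.elim (fun _ => 0) fun l => σ (y (.inr l)))
    rw [hyp_apply] at h1
    simp only [Sum.elim_inl, zero_mul, Finset.sum_const_zero, mul_zero, zero_add,
      Sum.elim_inr] at h1
    by_contra hne
    push Not at hne
    obtain ⟨l, hl⟩ := hne
    refine hJ (fun l => σ (y (.inr l))) (fun h => hl ?_) ?_
    · rw [← hσ (y (.inr l)), congrFun h l]
      exact map_zero σ
    · simp only [hσ]
      exact h1
  funext a
  rcases a with (i | i) | l
  · have h1 := hx (Sum.elim (Sum.elim (fun _ => 0) (Pi.single i 1)) fun _ => 0)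
    rw [hyp_apply] at h1
    simp only [Sum.elim_inl, Sum.elim_inr, zero_mul, Finset.sum_const_zero, zero_add,
      Pi.single_apply, ite_mul, one_mul, Finset.sum_ite_eq', Finset.mem_univ, if_true] at h1
    have h2 : (fun _ : ι => (0 : k)) ⬝ᵥ (J₀ *ᵥ fun l => y (.inr l)) = 0 := zero_dotProduct _
    rw [h2, add_zero] at h1
    exact (mul_eq_zero.1 h1).resolve_left hε
  · have h1 := hx (Sum.elim (Sum.elim (Pi.single i 1) (fun _ => 0)) fun _ => 0)
    rw [hyp_apply] at h1
    simp only [Sum.elim_inl, Sum.elim_inr, zero_mul, Finset.sum_const_zero, mul_zero, add_zero,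
      Pi.single_apply, ite_mul, one_mul, Finset.sum_ite_eq', Finset.mem_univ, if_true] at h1
    have h2 : (fun _ : ι => (0 : k)) ⬝ᵥ (J₀ *ᵥ fun l => y (.inr l)) = 0 := zero_dotProduct _
    rw [h2, add_zero] at h1
    exact h1
  · exact hr l

end witt

section group
variable {k : Type} [NontriviallyNormedField k] [ProperSpace k] {ι : Type} [Fintype ι]
  [DecidableEq ι] {q : ℕ} {σ : k →+* k} {ε : k} {J₀ : Matrix ι ι k}

/-- Bounded sets of matrix groups are relatively compact. -/
theorem compact_of_bounded {n : Type} [Fintype n] [DecidableEq n] {H : Type}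
    [TopologicalSpace H] {φ : H → Matrix n n k} (hφ : Topology.IsClosedEmbedding φ) (R : ℝ) :
    ∃ K : Set H, IsCompact K ∧ ∀ g, (∀ i j, ‖φ g i j‖ ≤ R) → g ∈ K := by
  have hc : IsCompact (Set.univ.pi fun _ : n => Set.univ.pi fun _ : n =>
      Metric.closedBall (0 : k) R) :=
    isCompact_univ_pi fun _ => isCompact_univ_pi fun _ => isCompact_closedBall _ _
  refine ⟨_, hφ.isCompact_preimage hc, fun g hg i _ j _ => ?_⟩
  rw [mem_closedBall_zero_iff]
  exact hg i j

/-- **The group of a form of Witt index `q` is a target group of rank `q`.** -/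
theorem tgt_formGroup (hk : LocK k) (hσ : ∀ x, ‖σ x‖ = ‖x‖) (hσ2 : ∀ x, σ (σ x) = x)
    (hε : ε ≠ 0) (hJ : ∀ v : ι → k, v ≠ 0 → v ⬝ᵥ (J₀ *ᵥ fun l => σ (v l)) ≠ 0) :
    Tgt (FormGroup σ (hyp q ε J₀)) q := by
  have hσc : Continuous σ := by
    have : Isometry σ := by
      refine Isometry.of_dist_eq fun x y => ?_
      rw [dist_eq_norm, dist_eq_norm, ← map_sub, hσ]
    exact this.continuous
  have hcl : Topology.IsClosedEmbedding
      (fun g : FormGroup σ (hyp q ε J₀) => (g.1.1 : Matrix (Idx q ι) (Idx q ι) k)) :=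
    H303.isClosedEmbedding_val.comp (H303.isClosed_formGroup hσc _).isClosedEmbedding_subtypeVal
  let e : Idx q ι ≃ Fin (Fintype.card (Idx q ι)) := Fintype.equivFin _
  rcases Nat.eq_zero_or_pos (Fintype.card (Idx q ι)) with h0 | hN
  · -- trivial group
    have hE : IsEmpty (Idx q ι) := Fintype.card_eq_zero_iff.1 h0
    have hsub : Subsingleton (FormGroup σ (hyp q ε J₀)) := by
      refine ⟨fun a b => Subtype.ext (Subtype.ext ?_)⟩
      ext i
      exact (hE.false i).elim
    have : CompactSpace (FormGroup σ (hyp q ε J₀)) :=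
      ⟨(Set.subsingleton_of_subsingleton).finite.isCompact⟩
    exact Tgt.of_compactSpace q
  refine tgt_form (m := fun g => (g.1.1).submatrix e.symm e.symm) hk hN (fun g h => ?_)
    (fun R => ?_) (σ := σ) hσ (J := (hyp q ε J₀).submatrix e.symm e.symm) ?_ (fun g => ?_)
    fun v hv => ?_
  · change (g.1.1 * h.1.1).submatrix e.symm e.symm = _
    rw [Matrix.submatrix_mul_equiv]
  · obtain ⟨K, hK, h1⟩ := compact_of_bounded hcl R
    refine ⟨K, hK, fun g hg => h1 g fun i j => ?_⟩
    have := hg (e i) (e j)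
    rwa [submatrix_apply, e.symm_apply_apply, e.symm_apply_apply] at this
  · rw [Matrix.det_submatrix_equiv_self]
    exact hyp_det hσ2 hε hJ
  · have h1 : g.1.1 * hyp q ε J₀ * (g.1.1.map σ)ᵀ = hyp q ε J₀ := g.2
    conv_rhs => rw [← h1]
    rw [← Matrix.submatrix_mul_equiv _ _ _ e.symm, ← Matrix.submatrix_mul_equiv _ _ _ e.symm]
    rfl
  · have hv' : LinearIndependent k (fun i : Fin (q + 1) => fun a : Idx q ι => v i (e a)) := by
      have h1 := hv.map' (LinearMap.funLeft k k e) (LinearMap.ker_eq_bot.2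
        (LinearMap.funLeft_injective_of_surjective _ _ _ e.surjective))
      exact h1
    obtain ⟨i, j, hij⟩ := witt hσ2 hε hJ _ hv'
    refine ⟨i, j, fun h2 => hij ?_⟩
    rw [← h2, Matrix.submatrix_mulVec_equiv, dotProduct_comp_equiv_symm]
    rfl

end group

end Vale.Agent.P092.H515
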