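import Vale.Agent.P092.H515.ProdGeo

/-!
P092 (helper515): target groups of the rank theorem. `Tgt G r`: the topological group `G` has a proper
system of gauges with `r` classes of gaps (`r` is the rank of `G`).
-/

set_option linter.all false

namespace Vale.Agent.P092.H515

open Vale.Agent.P092.H761 (Geo Gaps)
open Vale.Agent.P092.H944 (hs gap)

section comap
variable {Γ G J P : Type} [Group Γ] [Group G] [Fintype P] {gp : J → G → ℝ} {w : G → ℝ}

theorem IsGauge.comap {θ : Finset J} {f f0 : (P → ℝ) → G → G → ℝ} {A : ℝ}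
    (h : IsGauge gp w θ f f0 A) (φ : Γ →* G) :
    IsGauge (fun j g => gp j (φ g)) (fun b => w (φ b)) θ (fun t g b => f t (φ g) (φ b))
      (fun t g b => f0 t (φ g) (φ b)) A where
  lo t g := by
    obtain ⟨c, hc, h1⟩ := h.lo t (φ g)
    exact ⟨c, hc, fun b => h1 _⟩
  lo0 t g := by
    obtain ⟨c, hc, h1⟩ := h.lo0 t (φ g)
    exact ⟨c, hc, fun b => h1 _⟩
  bd R T := by
    obtain ⟨c, hc, C, h1⟩ := h.bd R T
    exact ⟨c, hc, C, fun g hg t ht b => h1 _ hg t ht _⟩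
  bd0 T := by
    obtain ⟨c, hc, C, h1⟩ := h.bd0 T
    exact ⟨c, hc, C, fun g t ht b => h1 _ t ht _⟩
  lip t d g b := h.lip t d _ _
  left s R1 := by
    obtain ⟨C, hC⟩ := h.left (φ s) R1
    refine ⟨C, fun ρ hρ => ?_⟩
    obtain ⟨L, hL⟩ := hC ρ hρ
    refine ⟨L, fun T => ?_⟩
    obtain ⟨R, hR⟩ := hL T
    refine ⟨R, fun g h1 h2 => ?_⟩
    obtain ⟨p, hp, σ, hσ, h3⟩ := hR (φ g) h1 h2
    exact ⟨p, hp, σ, hσ, fun t ht b => by rw [map_mul, map_mul]; exact h3 t ht (φ b)⟩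
  right u T η hη := by
    obtain ⟨R, hR⟩ := h.right (φ u) T η hη
    exact ⟨R, fun g h1 t ht b => by rw [map_mul]; exact hR (φ g) h1 t ht (φ b)⟩
  ov R := by
    obtain ⟨C, hC1, hC⟩ := h.ov R
    refine ⟨C, hC1, fun T => ?_⟩
    obtain ⟨D, hD⟩ := hC T
    exact ⟨D, fun g h1 h2 t ht b => hD (φ g) h1 h2 t ht (φ b)⟩

theorem GSys.comap (h : GSys gp w) (φ : Γ →* G) :
    GSys (fun j g => gp j (φ g)) (fun b => w (φ b)) where
  pos b := h.pos _
  quasi s t := by
    obtain ⟨C, hC⟩ := h.quasi (φ s) (φ t)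
    exact ⟨C, fun j g => by rw [map_mul, map_mul]; exact hC j (φ g)⟩
  bdd R := by
    obtain ⟨R', hR⟩ := h.bdd R
    exact ⟨R', fun g hg => hR _ hg⟩
  pack := by
    obtain ⟨C0, C, hC, M, hM⟩ := h.pack
    refine ⟨C0, C, hC, M, fun k => ?_⟩
    obtain ⟨X, hX, code, h1, h2⟩ := hM k
    exact ⟨X, hX, fun g => code (φ g), h1, fun b b' hb hb' hc => by
      rw [map_mul, map_inv]; exact h2 _ _ hb hb' hc⟩
  gauge θ := by
    obtain ⟨P, hP, f, f0, A, hf⟩ := h.gauge θ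
    exact ⟨P, hP, _, _, A, hf.comap φ⟩

end comap

/-- A proper system of gauges with `r` classes of gaps on a topological group. -/
structure TSys (G : Type) [Group G] [TopologicalSpace G] {J : Type} {r : ℕ} (gp : J → G → ℝ)
    (w : G → ℝ) (cl : J → Fin r) : Prop where
  sys : GSys gp w
  comp : ∀ R : ℝ, ∃ R' : ℝ, ∀ i j, cl i = cl j → ∀ g, gp i g ≤ R → gp j g ≤ R'
  proper : ∀ R : ℝ, ∃ K : Set G, IsCompact K ∧ ∀ g, w g ≤ R → g ∈ K

/-- The topological group `G` is a target group of rank (at most) `r`. -/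
def Tgt (G : Type) [Group G] [TopologicalSpace G] (r : ℕ) : Prop :=
  ∃ (J : Type) (_ : Fintype J) (gp : J → G → ℝ) (w : G → ℝ) (cl : J → Fin r), TSys G gp w cl

section ops
variable {G H : Type} [Group G] [TopologicalSpace G] [Group H] [TopologicalSpace H] {r s : ℕ}

/-- Pullback by a homomorphism such that preimages of compact sets are relatively compact. -/
theorem Tgt.comap (h : Tgt G r) (φ : H →* G)
    (hφ : ∀ K : Set G, IsCompact K → ∃ K' : Set H, IsCompact K' ∧ ∀ x, φ x ∈ K → x ∈ K') :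
    Tgt H r := by
  obtain ⟨J, hJ, gp, w, cl, hs⟩ := h
  refine ⟨J, hJ, fun j g => gp j (φ g), fun b => w (φ b), cl, hs.sys.comap φ, fun R => ?_,
    fun R => ?_⟩
  · obtain ⟨R', hR⟩ := hs.comp R
    exact ⟨R', fun i j hij g hg => hR i j hij _ hg⟩
  · obtain ⟨K, hK, h1⟩ := hs.proper R
    obtain ⟨K', hK', h2⟩ := hφ K hK
    exact ⟨K', hK', fun g hg => h2 g (h1 _ hg)⟩

/-- Pullback by a homomorphism which is a closed embedding. -/
theorem Tgt.of_isClosedEmbedding (h : Tgt G r) (φ : H →* G) (hφ : Topology.IsClosedEmbedding φ) :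
    Tgt H r :=
  h.comap φ fun K hK => ⟨φ ⁻¹' K, hφ.isCompact_preimage hK, fun _ hx => hx⟩

/-- The empty system. -/
theorem gsys_empty {G : Type} [Group G] :
    GSys (fun (j : Empty) (_ : G) => (j.elim : ℝ)) (fun _ => 1) := by
  refine ⟨fun _ => one_pos, fun _ _ => ⟨0, fun j => j.elim⟩, fun R => ⟨1, fun _ _ => le_rfl⟩,
    ⟨1, 1, one_pos, 0, fun k => ⟨Unit, inferInstance, fun _ => (), by simp,
      fun _ _ _ _ _ => le_rfl⟩⟩, fun θ => ⟨Empty, inferInstance, fun _ _ _ => 1,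
      fun _ _ _ => 1, 0, ?_⟩⟩
  exact ⟨fun _ _ => ⟨1, one_pos, fun _ => by norm_num⟩,
    fun _ _ => ⟨1, one_pos, fun _ => by norm_num⟩,
    fun _ _ => ⟨1, one_pos, 1, fun _ _ _ _ _ => by norm_num⟩,
    fun _ => ⟨1, one_pos, 1, fun _ _ _ _ => by norm_num⟩, fun _ _ _ _ => by simp,
    fun s R1 => ⟨0, fun ρ hρ => ⟨0, fun T => ⟨0, fun g _ _ => ⟨0, by simp, 0, by simp,
      fun t _ b => by simp [hρ.le]⟩⟩⟩⟩, fun u T η hη => ⟨0, fun g _ t _ b => by simp [hη.le]⟩,
    fun R => ⟨1, le_rfl, fun T => ⟨0, fun g _ _ t _ b => by norm_num⟩⟩⟩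

/-- Compact groups have rank `0`. -/
theorem Tgt.of_compactSpace {G : Type} [Group G] [TopologicalSpace G] [CompactSpace G] (r : ℕ) :
    Tgt G r :=
  ⟨Empty, inferInstance, fun j _ => j.elim, fun _ => 1, fun j => j.elim, gsys_empty,
    fun R => ⟨0, fun j => j.elim⟩, fun R => ⟨Set.univ, isCompact_univ, fun _ _ => trivial⟩⟩

/-- Jointly proper families. -/
theorem Tgt.family {I : Type} [Fintype I] {r : I → ℕ} (P : I → Set G → Prop)
    (hP : ∀ A : I → Set G, (∀ i, P i (A i)) → ∃ K, IsCompact K ∧ ∀ g, (∀ i, g ∈ A i) → g ∈ K)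
    (h : ∀ i, ∃ (J : Type) (_ : Fintype J) (gp : J → G → ℝ) (w : G → ℝ) (cl : J → Fin (r i)),
      GSys gp w ∧ (∀ R : ℝ, ∃ R' : ℝ, ∀ i j, cl i = cl j → ∀ g, gp i g ≤ R → gp j g ≤ R') ∧
      ∀ R : ℝ, ∃ A : Set G, P i A ∧ ∀ g, w g ≤ R → g ∈ A) :
    Tgt G (∑ i, r i) := by
  classical
  rcases isEmpty_or_nonempty I with hI | hI
  · obtain ⟨K, hK, h1⟩ := hP (fun i => isEmptyElim i) (fun i => isEmptyElim i)
    have : CompactSpace G := ⟨hK.of_isClosed_subset isClosed_univ fun g _ =>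
      h1 g fun i => isEmptyElim i⟩
    exact Tgt.of_compactSpace _
  · choose J hJ gp w cl hs hc hp using h
    have e : (Σ i, Fin (r i)) ≃ Fin (∑ i, r i) := Fintype.equivFinOfCardEq (by simp)
    refine ⟨Σ i, J i, inferInstance, fun j g => gp j.1 j.2 g, fun g => ∑ i, w i g,
      fun j => e ⟨j.1, cl j.1 j.2⟩, GSys.pi hs, fun R => ?_, fun R => ?_⟩
    · choose R' hR using fun i => hc i R
      obtain ⟨R'', _, h2⟩ := exists_le_all R'
      refine ⟨R'', ?_⟩
      rintro ⟨i, j⟩ ⟨i', j'⟩ hcl g hg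
      have h3 := e.injective hcl
      obtain ⟨rfl, h4⟩ := Sigma.mk.inj_iff.1 h3
      exact (hR i j j' (eq_of_heq h4) _ hg).trans (h2 i)
    · choose A hA hw using fun i => hp i R
      obtain ⟨K, hK, h1⟩ := hP A hA
      refine ⟨K, hK, fun g hg => h1 g fun i => hw i g ?_⟩
      exact (Finset.single_le_sum (f := fun i => w i g)
        (fun i _ => ((hs i).pos g).le) (Finset.mem_univ i)).trans hg

/-- Finite products. -/
theorem Tgt.pi {I : Type} [Fintype I] {G : I → Type} [∀ i, Group (G i)]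
    [∀ i, TopologicalSpace (G i)] {r : I → ℕ} (h : ∀ i, Tgt (G i) (r i)) :
    Tgt (∀ i, G i) (∑ i, r i) := by
  refine Tgt.family (fun i A => ∃ K : Set (G i), IsCompact K ∧ ∀ g ∈ A, g i ∈ K)
    (fun A hA => ?_) fun i => ?_
  · choose K hK h1 using hA
    exact ⟨Set.univ.pi K, isCompact_univ_pi hK, fun g hg => Set.mem_univ_pi.2 fun i =>
      h1 i g (hg i)⟩
  · obtain ⟨J, hJ, gp, w, cl, hs⟩ := h i
    refine ⟨J, hJ, fun j g => gp j (g i), fun g => w (g i), cl,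
      hs.sys.comap (Pi.evalMonoidHom G i), fun R => ?_, fun R => ?_⟩
    · obtain ⟨R', hR⟩ := hs.comp R
      exact ⟨R', fun i j hij g hg => hR i j hij _ hg⟩
    · obtain ⟨K, hK, h1⟩ := hs.proper R
      exact ⟨{g | w (g i) ≤ R}, ⟨K, hK, fun g hg => h1 _ hg⟩, fun g hg => hg⟩

/-- Products of two groups. -/
theorem Tgt.prod (h : Tgt G r) (h' : Tgt H s) : Tgt (G × H) (r + s) := by
  have h1 : Tgt (G × H) (∑ b : Bool, cond b r s) := by
    refine Tgt.family (fun b A => cond b (∃ K : Set G, IsCompact K ∧ ∀ g ∈ A, g.1 ∈ K)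
      (∃ K : Set H, IsCompact K ∧ ∀ g ∈ A, g.2 ∈ K)) (fun A hA => ?_) fun b => ?_
    · obtain ⟨K, hK, h1⟩ := hA true
      obtain ⟨K', hK', h2⟩ := hA false
      exact ⟨K ×ˢ K', hK.prod hK', fun g hg => ⟨h1 g (hg true), h2 g (hg false)⟩⟩
    · cases b
      · obtain ⟨J, hJ, gp, w, cl, hs⟩ := h'
        refine ⟨J, hJ, fun j g => gp j g.2, fun g => w g.2, cl,
          hs.sys.comap (MonoidHom.snd G H), fun R => ?_, fun R => ?_⟩
        · obtain ⟨R', hR⟩ := hs.comp R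
          exact ⟨R', fun i j hij g hg => hR i j hij _ hg⟩
        · obtain ⟨K, hK, h1⟩ := hs.proper R
          exact ⟨{g | w g.2 ≤ R}, ⟨K, hK, fun g hg => h1 _ hg⟩, fun g hg => hg⟩
      · obtain ⟨J, hJ, gp, w, cl, hs⟩ := h
        refine ⟨J, hJ, fun j g => gp j g.1, fun g => w g.1, cl,
          hs.sys.comap (MonoidHom.fst G H), fun R => ?_, fun R => ?_⟩
        · obtain ⟨R', hR⟩ := hs.comp R
          exact ⟨R', fun i j hij g hg => hR i j hij _ hg⟩
        · obtain ⟨K, hK, h1⟩ := hs.proper R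
          exact ⟨{g | w g.1 ≤ R}, ⟨K, hK, fun g hg => h1 _ hg⟩, fun g hg => hg⟩
  rwa [Fintype.sum_bool] at h1

/-- Weaker bounds. -/
theorem Tgt.mono (h : Tgt G r) (hrs : r ≤ s) : Tgt G s := by
  obtain ⟨J, hJ, gp, w, cl, hs⟩ := h
  refine ⟨J, hJ, gp, w, fun j => Fin.castLE hrs (cl j), hs.sys, fun R => ?_, hs.proper⟩
  obtain ⟨R', hR⟩ := hs.comp R
  exact ⟨R', fun i j hij g hg => hR i j (Fin.castLE_injective hrs hij) g hg⟩

end ops

/-- Discrete groups mapping to a target group with finite preimages of compact sets. -/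
theorem Tgt.discrete {G Γ : Type} [Group G] [TopologicalSpace G] [Group Γ] {r : ℕ} (h : Tgt G r)
    (φ : Γ →* G) (hφ : ∀ K : Set G, IsCompact K → {x | φ x ∈ K}.Finite) :
    ∃ (J : Type) (_ : Fintype J) (gp : J → Γ → ℝ) (cl : J → Fin r), Gaps gp cl ∧
      ∀ (_ : DecidableEq Γ) (θ : Finset J), Geo gp θ := by
  obtain ⟨J, hJ, gp, w, cl, hs⟩ := h
  have fin : ∀ R : ℝ, {g | w (φ g) ≤ R}.Finite := fun R => by
    obtain ⟨K, hK, h1⟩ := hs.proper R
    exact (hφ K hK).subset fun g hg => h1 _ hg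
  have h1 := hs.sys.comap φ
  refine ⟨J, hJ, fun j g => gp j (φ g), cl, h1.gaps fin cl fun R => ?_,
    fun _ θ => h1.geo' fin θ⟩
  obtain ⟨R', hR⟩ := hs.comp R
  exact ⟨R', fun i j hij g hg => hR i j hij _ hg⟩

/-- Compact sets meet a discrete subgroup in a finite set. -/
theorem finite_of_compact {G : Type} [Group G] [TopologicalSpace G] [IsTopologicalGroup G]
    [T2Space G] (Γ : Subgroup G) [DiscreteTopology Γ] {K : Set G} (hK : IsCompact K) :
    {x : Γ | (x : G) ∈ K}.Finite := by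
  have h1 : IsClosed (Γ : Set G) := Subgroup.isClosed_of_discrete
  have h2 : Topology.IsClosedEmbedding (fun g : Γ => (g : G)) := h1.isClosedEmbedding_subtypeVal
  exact (h2.isCompact_preimage hK).finite_of_discrete

/-! ### Real matrix groups -/

section mat
variable {G : Type} [Group G] [TopologicalSpace G] {n r : ℕ} {m : G → Matrix (Fin n) (Fin n) ℝ}

/-- Matrix groups whose gaps form `r` classes, up to bounded gaps. -/
theorem tgt_mat (hn : 0 < n) (h : EmbW m)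
    (proper : ∀ R : ℝ, ∃ K : Set G, IsCompact K ∧ ∀ g, hs (m g) ≤ R → g ∈ K)
    {J : Type} [Fintype J] (e : J ↪ ℕ) {R0 : ℝ}
    (h0 : ∀ l, l + 1 < n → (∀ j, e j ≠ l) → ∀ g, gap l (m g) ≤ R0) (cl : J → Fin r)
    (comp : ∀ R : ℝ, ∃ R' : ℝ, ∀ i j, cl i = cl j → ∀ g, gap (e i) (m g) ≤ R →
      gap (e j) (m g) ≤ R') : Tgt G r :=
  ⟨J, inferInstance, _, _, cl, h.gsys hn e h0, comp, proper⟩

end mat

theorem isCompact_hs_le {n : ℕ} (R : ℝ) :
    IsCompact {A : Matrix (Fin n) (Fin n) ℝ | hs A ≤ R} := by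
  have hc : Continuous (fun A : Fin n → Fin n → ℝ => ∑ i, ∑ j, A i j ^ 2) := by fun_prop
  have h1 : IsCompact {A : Fin n → Fin n → ℝ | ∑ i, ∑ j, A i j ^ 2 ≤ R} := by
    refine (isCompact_univ_pi (fun _ : Fin n => isCompact_univ_pi
      (fun _ : Fin n => isCompact_Icc (a := -(|R| + 1)) (b := |R| + 1)))).of_isClosed_subset
      (isClosed_le hc continuous_const) ?_
    intro A hA
    rw [Set.mem_univ_pi]
    intro i
    rw [Set.mem_univ_pi]
    intro j
    have hA' : ∑ i, ∑ j, A i j ^ 2 ≤ R := hA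
    have h2 : A i j ^ 2 ≤ R :=
      ((Finset.single_le_sum (f := fun j => A i j ^ 2) (fun _ _ => sq_nonneg _)
        (Finset.mem_univ j)).trans (Finset.single_le_sum (f := fun i => ∑ j, A i j ^ 2)
        (fun _ _ => Finset.sum_nonneg fun _ _ => sq_nonneg _) (Finset.mem_univ i))).trans hA'
    have h3 : |A i j| ≤ |R| + 1 := by
      have h4 := le_abs_self R
      have h5 : |A i j| ^ 2 ≤ |R| := by rw [sq_abs]; linarith
      by_contra h
      push Not at h
      nlinarith [abs_nonneg R, abs_nonneg (A i j)]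
    exact abs_le.mp h3
  exact h1

/-- `SL_{n+1}(ℝ)` is a target group of rank `n`. -/
theorem tgt_sl (n : ℕ) : Tgt (Matrix.SpecialLinearGroup (Fin (n + 1)) ℝ) n := by
  have hE : EmbW (fun g : Matrix.SpecialLinearGroup (Fin (n + 1)) ℝ =>
      (g : Matrix (Fin (n + 1)) (Fin (n + 1)) ℝ)) :=
    ⟨fun g h => Or.inl (Matrix.SpecialLinearGroup.coe_mul g h), fun g => by
      rw [g.det_coe]; norm_num⟩
  have h3 : Topology.IsClosedEmbedding (fun g : Matrix.SpecialLinearGroup (Fin (n + 1)) ℝ =>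
      (g : Matrix (Fin (n + 1)) (Fin (n + 1)) ℝ)) :=
    Matrix.SpecialLinearGroup.isClosedEmbedding_val
  exact ⟨Fin (n + 1 - 1), inferInstance, _, _, fun j => j, gsys_all (Nat.succ_pos n) hE,
    fun R => ⟨R, fun i j hij g hg => by rw [← hij]; exact hg⟩,
    fun R => ⟨_, h3.isCompact_preimage (isCompact_hs_le R), fun g hg => hg⟩⟩

end Vale.Agent.P092.H515
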