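import Vale.Agent.P092.H515.Tgt
import Vale.Agent.P092.H261.SharpFinal
import Vale.Agent.P092.H761.SharpInst
import Vale.Agent.P092.H303.Form
import Vale.Agent.P092.H19.ShF

/-!
P092 (helper515): the sharp rank theorem for lattices in a group `E` with a chain of length `m` and
discrete subgroups of a target group `G` of rank `r < m`; products of groups `SL_n(ℝ)`.
-/

set_option linter.all false

open MeasureTheory

namespace Vale.Agent.P092.H515

open Vale.Agent.P092.H160 Vale.Agent.P092.H553 Vale.Agent.P092.H432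
open Vale.Agent.P092.H761 (Geo Gaps)
open Vale.Agent.P092.H701 (HChain)

/-- `Λ` is a lattice in `E`: it is discrete and `E/Λ` carries a nonzero finite invariant Borel
measure. -/
structure IsLattice {E : Type} [Group E] [TopologicalSpace E] (Λ : Subgroup E) : Prop where
  disc : DiscreteTopology Λ
  covol : ∃ ν : @Measure (E ⧸ Λ) (borel (E ⧸ Λ)), ν ≠ 0 ∧ ν Set.univ < ⊤ ∧
    ∀ g : E, ∀ s : Set (E ⧸ Λ), MeasurableSet[borel (E ⧸ Λ)] s →
      ν ((fun x => g • x) ⁻¹' s) = ν s

/-- Source groups of rank (at least) `m`. -/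
structure Src (E : Type) [Group E] [TopologicalSpace E] (m : ℕ) : Prop where
  top : IsTopologicalGroup E
  lc : LocallyCompactSpace E
  sc : SecondCountableTopology E
  t2 : T2Space E
  chain : Nonempty (@HChain E _ _ (borel E) m)

/-- The trivial group, or any group, has a chain of length `0`. -/
theorem Src.zero {E : Type} [Group E] [TopologicalSpace E] [h1 : IsTopologicalGroup E]
    [h2 : LocallyCompactSpace E] [h3 : SecondCountableTopology E] [h4 : T2Space E] : Src E 0 where
  top := h1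
  lc := h2
  sc := h3
  t2 := h4
  chain := by
    let _ : MeasurableSpace E := borel E
    exact ⟨{ b := fun j => j.elim0
             K := fun j => j.elim0
             compact := fun j => j.elim0
             comm_b := fun j => j.elim0
             comm_K := fun j => j.elim0
             pp := fun j => j.elim0 }⟩

theorem Src.prod {E F : Type} [Group E] [TopologicalSpace E] [Group F] [TopologicalSpace F]
    {m n : ℕ} (hE : Src E m) (hF : Src F n) : Src (E × F) (m + n) := by
  have a1 := hE.top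
  have a2 := hE.lc
  have a3 := hE.sc
  have a4 := hE.t2
  have b1 := hF.top
  have b2 := hF.lc
  have b3 := hF.sc
  have b4 := hF.t2
  refine ⟨inferInstance, inferInstance, inferInstance, inferInstance, ?_⟩
  let _ : MeasurableSpace E := borel E
  have _ : BorelSpace E := ⟨rfl⟩
  let _ : MeasurableSpace F := borel F
  have _ : BorelSpace F := ⟨rfl⟩
  obtain ⟨C⟩ := hE.chain
  obtain ⟨D⟩ := hF.chain
  have h : (Prod.instMeasurableSpace : MeasurableSpace (E × F)) = borel (E × F) :=
    BorelSpace.measurable_eq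
  rw [← h]
  exact ⟨C.prod D⟩

/-- **The sharp rank theorem.** -/
theorem not_arep_gen {E G : Type} [Group E] [TopologicalSpace E] [Group G] [TopologicalSpace G]
    {m r : ℕ} (hE : Src E m) (hG : Tgt G r) (hrm : r < m) {Λ : Subgroup E} (hΛ : IsLattice Λ)
    {Γ ι : Type} [Group Γ] [Fintype ι] (φ : Γ →* G)
    (hφ : ∀ K : Set G, IsCompact K → {x | φ x ∈ K}.Finite)
    {t : ℝ} {R : Λ → (Ell2 (Γ × ι) →L[ℂ] Ell2 (Γ × ι))} (hR : ARep t R) : False := by
  classical
  have a1 := hE.top
  have a2 := hE.lc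
  have a3 := hE.sc
  have a4 := hE.t2
  have hd := hΛ.disc
  let _ : MeasurableSpace (E ⧸ Λ) := borel _
  have _ : BorelSpace (E ⧸ Λ) := ⟨rfl⟩
  let _ : MeasurableSpace E := borel _
  have _ : BorelSpace E := ⟨rfl⟩
  obtain ⟨C⟩ := hE.chain
  obtain ⟨J, hJ, gp, cl, hg, hgeo⟩ := hG.discrete φ hφ
  have hcount : Countable Γ := by
    have h1 : (Set.univ : Set Γ) ⊆ ⋃ n : ℕ, {g : Γ | ∀ j, gp j g ≤ n} := by
      intro g _
      obtain ⟨C, -, hC⟩ := exists_le_all fun j => gp j g
      obtain ⟨n, hn⟩ := exists_nat_ge C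
      exact Set.mem_iUnion.2 ⟨n, fun j => (hC j).trans hn⟩
    exact Set.countable_univ_iff.1 ((Set.countable_iUnion fun n : ℕ =>
      (hg.fin n).countable).mono h1)
  obtain ⟨ν, hν0, hνf, hν⟩ := hΛ.covol
  have hν1 : ν Set.univ ≠ 0 := by
    intro h
    exact hν0 (Measure.measure_univ_eq_zero.mp h)
  have hP : IsProbabilityMeasure ((ν Set.univ)⁻¹ • ν) := by
    constructor
    rw [Measure.smul_apply, smul_eq_mul]
    exact ENNReal.inv_mul_cancel hν1 hνf.ne
  refine H261.not_arep H761.sharpInst Λ ((ν Set.univ)⁻¹ • ν) (fun g => ?_) hg hgeo C hrm hR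
  have hgm : Measurable (fun x : E ⧸ Λ => g • x) := H85.smul_meas Λ g
  ext s hs
  rw [Measure.map_apply hgm hs, Measure.smul_apply, Measure.smul_apply, hν g s hs]

/-- `SL_{n+1}(k)` is a source group of rank `n`. -/
theorem src_sl (k : Type) [NontriviallyNormedField k] [ProperSpace k] (n : ℕ) :
    Src (Matrix.SpecialLinearGroup (Fin (n + 1)) k) n := by
  refine ⟨inferInstance, H303.locallyCompact_SL, H303.secondCountable_SL, inferInstance, ?_⟩
  let _ : MeasurableSpace (Matrix.SpecialLinearGroup (Fin (n + 1)) k) := borel _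
  have _ : BorelSpace (Matrix.SpecialLinearGroup (Fin (n + 1)) k) := ⟨rfl⟩
  exact ⟨H701.slChain k n⟩

/-! ### The elementary statements -/

section elem
open Vale.Agent.P092.H655 (TraceRep)
open Vale.Agent.P092.H19 (Icc' arep_of_traceRep aframe_of_iso)
open Vale.Agent.P092.H377 (arep_finiteIndex arep_comp)
open Vale.Agent.P092.H670

variable {E G : Type} [Group E] [TopologicalSpace E] [Group G] [TopologicalSpace G]
    [IsTopologicalGroup G] [T2Space G] {m r : ℕ} {Γ Λ : Type} [Group Γ] [Group Λ]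
    {Γ₀ : Subgroup G} {Λ₀ : Subgroup E}

theorem no_arep (hE : Src E m) (hG : Tgt G r) (hrm : r < m) (hΓ : DiscreteTopology Γ₀)
    (hΛ : IsLattice Λ₀) (i : Γ₀ →* Γ) (j : Λ₀ →* Λ) (hi : Function.Injective i)
    (hfi : i.range.FiniteIndex) (hj : Function.Injective j)
    (ι : Type) [Fintype ι] (t : ℝ) (R : Λ → (Ell2 (Γ × ι) →L[ℂ] Ell2 (Γ × ι))) : ¬ ARep t R := by
  intro hR
  obtain ⟨κ, _, t₁, R₁, h2⟩ := arep_finiteIndex i (arep_comp hR j hj) hi
  exact not_arep_gen hE hG hrm hΛ Γ₀.subtype (fun K hK => finite_of_compact Γ₀ hK) h2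

/-- **No embedding.** -/
theorem no_emb (hE : Src E m) (hG : Tgt G r) (hrm : r < m) (hΓ : DiscreteTopology Γ₀)
    (hΛ : IsLattice Λ₀) (i : Γ₀ →* Γ) (j : Λ₀ →* Λ) (hi : Function.Injective i)
    (hfi : i.range.FiniteIndex) (hj : Function.Injective j) (k : ℕ)
    (U : Λ → H103.St.MOp k Γ) : ¬ TraceRep Λ Γ k U := by
  intro e
  obtain ⟨t, R, hR⟩ := arep_of_traceRep e
  exact no_arep hE hG hrm hΓ hΛ i j hi hfi hj _ _ _ hR

/-- **No isomorphism with a corner of an amplification.** -/
theorem no_iso (hE : Src E m) (hG : Tgt G r) (hrm : r < m) (hΓ : DiscreteTopology Γ₀)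
    (hΛ : IsLattice Λ₀) (i : Γ₀ →* Γ) (j : Λ₀ →* Λ) (hi : Function.Injective i)
    (hfi : i.range.FiniteIndex) (hj : Function.Injective j) (hI : Icc' Γ ∨ Icc' Λ)
    (k : ℕ) (p : H103.St.MOp k Γ) (hp : H103.St.IsProj p) :
    IsEmpty (H103.St.CornerIso Λ Γ k p) := by
  refine ⟨fun c => ?_⟩
  obtain ⟨t, R, hR⟩ := aframe_of_iso hp c hI
  exact no_arep hE hG hrm hΓ hΛ i j hi hfi hj _ _ _ hR.toARep

end elem

end Vale.Agent.P092.H515
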