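import Vale.Agent.P092.H515.RkDef
import Vale.Agent.P092.H515.Witt
import Vale.Agent.P092.H515.SharpProd
import Vale.Agent.P092.H124.RankTgt
import Vale.Agent.P092.H261.Upg

/-!
P092 (helper515): the rank theorems for the class `Rk`.
-/

set_option linter.all false

open MeasureTheory

namespace Vale.Agent.P092.H515

open Matrix
open Vale.Agent.P092.H303 (FormGroup hyp Idx)
open Vale.Agent.P092.H515.St

lemma locK {k : Type} [NontriviallyNormedField k] (h : St.LocK k) : H933.LocK k := by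
  rcases h with ⟨φ, h⟩ | ⟨φ, h⟩ | h
  · exact .real φ h
  · exact .cplx φ h
  · exact .ultra h

section form
variable {k : Type} [NontriviallyNormedField k] [ProperSpace k] {σ : k →+* k} {ε : k}
  {ι : Type} [Fintype ι] [DecidableEq ι] {J₀ : Matrix ι ι k} {q : ℕ}

lemma isometry_cont (hn : ∀ x, ‖σ x‖ = ‖x‖) : Continuous σ := by
  have : Isometry σ := by
    refine Isometry.of_dist_eq fun x y => ?_
    rw [dist_eq_norm, dist_eq_norm, ← map_sub, hn]
  exact this.continuous

/-- The group of a form of Witt index `q ≠ 1` is a source group of rank `q`. -/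
theorem src_formGroup (hσ : ∀ x, σ (σ x) = x) (hn : ∀ x, ‖σ x‖ = ‖x‖) (hε : ε * ε = 1)
    (hσε : σ ε = ε) (hq : q ≠ 1) : Src (FormGroup σ (hyp q ε J₀)) q := by
  have h1 : LocallyCompactSpace (FormGroup σ (hyp q ε J₀)) :=
    H303.locallyCompact_formGroup (isometry_cont hn) _
  have h2 : SecondCountableTopology (FormGroup σ (hyp q ε J₀)) := H303.secondCountable_formGroup _
  rcases q with - | - | q
  · exact Src.zero
  · exact absurd rfl hq
  · refine ⟨inferInstance, h1, h2, inferInstance, ?_⟩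
    obtain ⟨x, hx⟩ := NormedField.exists_one_lt_norm k
    let _ : MeasurableSpace (FormGroup σ (hyp (q + 2) ε J₀)) := borel _
    have _ : BorelSpace (FormGroup σ (hyp (q + 2) ε J₀)) := ⟨rfl⟩
    refine ⟨H303.formChain (w := x * σ x) q J₀ (isometry_cont hn) hσ hε hσε ?_ ?_⟩
    · rw [norm_mul, hn]
      nlinarith
    · rw [map_mul, hσ, mul_comm]

end form

/-- Groups of the class are target groups. -/
theorem rk_tgt {P : ℕ → Prop} {G : Type} [hG : Group G] [hT : TopologicalSpace G] {r : ℕ}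
    (h : Rk P G r) : Tgt G r ∧ IsTopologicalGroup G ∧ T2Space G := by
  induction h with
  | sl k hk n => exact ⟨H933.tgt_sl_loc (locK hk) n, inferInstance, inferInstance⟩
  | isom k hk σ hσ hn ε hε hσε ι J₀ hJ q hq G hG =>
    obtain rfl : G = FormGroup σ (hyp q ε J₀) := by
      ext g
      rw [hG]
      rfl
    have hε0 : ε ≠ 0 := fun h => by rw [h, mul_zero] at hε; exact zero_ne_one hε
    exact ⟨tgt_formGroup (locK hk) hn hσ hε0 hJ, inferInstance, inferInstance⟩
  | prod G H r s _ _ h1 h2 =>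
    obtain ⟨a1, a2, a3⟩ := h1
    obtain ⟨b1, b2, b3⟩ := h2
    exact ⟨a1.prod b1, inferInstance, inferInstance⟩

/-- Groups of the class without rank one isometry groups are source groups. -/
theorem rk_src {P : ℕ → Prop} (hP : ∀ q, P q → q ≠ 1) {G : Type} [hG : Group G]
    [hT : TopologicalSpace G] {r : ℕ} (h : Rk P G r) : Src G r := by
  induction h with
  | sl k hk n => exact src_sl k n
  | isom k hk σ hσ hn ε hε hσε ι J₀ hJ q hq G hG =>
    obtain rfl : G = FormGroup σ (hyp q ε J₀) := by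
      ext g
      rw [hG]
      rfl
    exact src_formGroup hσ hn hε hσε (hP q hq)
  | prod G H r s _ _ h1 h2 => exact h1.prod h2

/-! ### The elementary statements -/

section elem
open Vale.Agent.P092.H160 Vale.Agent.P092.H553 Vale.Agent.P092.H432
open Vale.Agent.P092.H103.St
open Vale.Agent.P092.H655 (TraceRep)

theorem noEmb_of {Γ Λ : Type} [Group Γ] [Group Λ]
    (h : ∀ (ι : Type) [Fintype ι] (t : ℝ) (R : Λ → (Ell2 (Γ × ι) →L[ℂ] Ell2 (Γ × ι))),
      ¬ ARep t R) : NoEmb Γ Λ := by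
  intro k
  refine ⟨fun U e => ?_, fun hI p hp => ⟨fun c => ?_⟩, fun hI p hp => ⟨fun c => ?_⟩⟩
  · obtain ⟨t, R, hR⟩ := H19.arep_of_traceRep e
    exact h _ _ _ hR
  · obtain ⟨t, R, hR⟩ := H19.aframe_of_iso hp c hI
    exact h _ _ _ hR.toARep
  · obtain ⟨t, R, hR⟩ := H19.aframe_of_iso hp c (Or.inl hI)
    obtain ⟨l, t', R', hR'⟩ := H261.inv Λ Γ hI _ _ _ hR
    exact h _ _ _ hR'

/-- **SHARP.** -/
theorem sharp {G H : Type} [Group G] [TopologicalSpace G] [Group H] [TopologicalSpace H]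
    {r s : ℕ} (hG : Rk (fun _ => True) G r) (hH : Rk (fun q => q ≠ 1) H s) (hrs : r < s)
    {Γ₀ : Subgroup G} (hΓ : DiscreteTopology Γ₀) {Λ₀ : Subgroup H} (hΛ : St.IsLattice Λ₀)
    {Γ Λ : Type} [Group Γ] [Group Λ] (i : Γ₀ →* Γ) (j : Λ₀ →* Λ) (hi : Function.Injective i)
    (hfi : i.range.FiniteIndex) (hj : Function.Injective j) : NoEmb Γ Λ := by
  obtain ⟨h1, h2, h3⟩ := rk_tgt hG
  have h4 : IsLattice Λ₀ := ⟨hΛ.disc, hΛ.covol⟩
  exact noEmb_of fun ι _ t R =>
    no_arep (rk_src (fun q hq => hq) hH) h1 hrs hΓ h4 i j hi hfi hj ι t R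

/-- **RANK.** -/
theorem rank {G : Type} [Group G] [TopologicalSpace G] {r : ℕ} (hG : Rk (fun _ => True) G r)
    {Γ₀ : Subgroup G} (hΓ : DiscreteTopology Γ₀) {Γ Λ : Type} [Group Γ] [Group Λ]
    (i : Γ₀ →* Γ) (hi : Function.Injective i) (hfi : i.range.FiniteIndex)
    (hΛ : H124.St.CommNA r Λ) : NoEmb Γ Λ := by
  obtain ⟨h1, h2, h3⟩ := rk_tgt hG
  exact noEmb_of fun ι _ t R =>
    H124.no_arep_tgt h1 Γ₀.subtype (H124.disc_tgt Γ₀ hΓ) i hi hfi hΛ ι t R

end elem

end Vale.Agent.P092.H515
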