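import Vale.Agent.P092.H515.Start
import Vale.Agent.P092.H515.SharpProd

/-!
P092 (helper515), Engine E, step (S1) of the theorem on irreducible lattices: NON-ESCAPE. Along the
first direction of a chain of full length, the coefficients of `V_v` stay, up to mass `ε`, bounded
in all factors but one.
-/

set_option linter.all false

open Filter Topology MeasureTheory

namespace Vale.Agent.P092.H515

open Vale.Agent.P092.H200 Vale.Agent.P092.H761
open Vale.Agent.P092.H538 (ind ind_pos ind_neg ind_nonneg abs_ind_le)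
open Vale.Agent.P092.H160 Vale.Agent.P092.H432 Vale.Agent.P092.H132
open Vale.Agent.P092.H701 (HChain)

section abs

variable {Γ 𝔾 : Type} [Group Γ] [DecidableEq Γ] [Group 𝔾] {t : ℝ}
  {mass : 𝔾 → (Γ → ℝ) → ℝ} {Cpt : Set 𝔾 → Prop} {Ping : (p : ℕ) → (Fin p → 𝔾) → Prop}
  {m : ℕ} {b : Fin m → ℕ → 𝔾} {𝒦 : Fin m → Set 𝔾}

/-- The mass of the complement. -/
theorem mass_compl (h : SharpData t mass Cpt Ping) (z : 𝔾) (A B : Γ → Prop)
    (hAB : ∀ g, ¬ A g → B g) : t ≤ mass z (ind A) + mass z (ind B) := by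
  have h1 : ∀ g, |ind A g| ≤ 1 := fun g => abs_ind_le _ g
  have h2 : ∀ g, |ind B g| ≤ 1 := fun g => abs_ind_le _ g
  rw [← h.add z (ind A) (ind B) 1 h1 h2, ← h.one z]
  refine h.mono z _ _ 2 (fun g => by norm_num) (fun g => ?_) fun g => ?_
  · refine (abs_add_le _ _).trans ?_
    linarith [h1 g, h2 g]
  · by_cases hA : A g
    · rw [ind_pos (P := A) hA]
      linarith [ind_nonneg B g]
    · rw [ind_pos (P := B) (hAB g hA)]
      linarith [ind_nonneg A g]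

/-- **Non-escape**: along the first direction of a chain, the mass stays in the union over the
factors `i` of the sets where all other factors are bounded. -/
theorem all_but_one (h : SharpData t mass Cpt Ping) (hch : GChain Cpt Ping m b 𝒦) (hm : 0 < m)
    {I : Type} [Fintype I] {r : I → ℕ} (hrm : ∑ i, r i ≤ m) (P : I → Set Γ → Prop)
    (hP : ∀ A : I → Set Γ, (∀ i, P i (A i)) → {g | ∀ i, g ∈ A i}.Finite) [hI : Nonempty I]
    (hs : ∀ i, ∃ (J : Type) (_ : Fintype J) (gp : J → Γ → ℝ) (w : Γ → ℝ) (cl : J → Fin (r i)),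
      GSys gp w ∧ (∀ R : ℝ, ∃ R' : ℝ, ∀ i j, cl i = cl j → ∀ g, gp i g ≤ R → gp j g ≤ R') ∧
      ∀ R : ℝ, ∃ A : Set Γ, P i A ∧ ∀ g, w g ≤ R → g ∈ A) {ε : ℝ} (hε : 0 < ε) :
    ∃ A : I → Set Γ, (∀ i, P i (A i)) ∧ ∀ N,
      t - ε ≤ mass (b ⟨0, hm⟩ N) (ind fun g => ∃ i, ∀ i', i' ≠ i → g ∈ A i') := by
  classical
  choose J hJ gp w cl hs hc hp using hs
  have e : (Σ i, Fin (r i)) ≃ Fin (∑ i, r i) := Fintype.equivFinOfCardEq (by simp)
  have hsys := GSys.pi hs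
  have fin : ∀ R : ℝ, {g : Γ | ∑ i, w i g ≤ R}.Finite := by
    intro R
    choose A hA hw using fun i => hp i R
    refine (hP A hA).subset fun g hg i => hw i g ?_
    exact (Finset.single_le_sum (f := fun i => w i g)
      (fun i _ => ((hs i).pos g).le) (Finset.mem_univ i)).trans hg
  have hcomp : ∀ R : ℝ, ∃ R' : ℝ, ∀ i j : (Σ i, J i), e ⟨i.1, cl i.1 i.2⟩ = e ⟨j.1, cl j.1 j.2⟩ →
      ∀ g, gp i.1 i.2 g ≤ R → gp j.1 j.2 g ≤ R' := by
    intro R
    choose R' hR using fun i => hc i R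
    obtain ⟨R'', _, h2⟩ := exists_le_all R'
    refine ⟨R'', ?_⟩
    rintro ⟨i, j⟩ ⟨i', j'⟩ hcl g hg
    have h3 := e.injective hcl
    obtain ⟨rfl, h4⟩ := Sigma.mk.inj_iff.1 h3
    exact (hR i j j' (eq_of_heq h4) _ hg).trans (h2 i)
  have hg := hsys.gaps fin (fun j => e ⟨j.1, cl j.1 j.2⟩) hcomp
  have hgeo := fun θ => hsys.geo' fin θ
  obtain ⟨R0, hR0⟩ := start2 h hg (fun θ _ _ => hgeo θ) hch hrm hm hε
  choose R1 hR1 using fun i => (hs i).bdd R0
  obtain ⟨R2, _, hR2⟩ := exists_le_all R1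
  choose A hA hw using fun i => hp i R2
  refine ⟨A, hA, fun N => ?_⟩
  have h1 := mass_compl h (b ⟨0, hm⟩ N) (fun g => ∃ i, ∀ i', i' ≠ i → g ∈ A i')
    (fun g => 2 ≤ (big (fun (j : Σ i, J i) g => gp j.1 j.2 g)
      (fun j => e ⟨j.1, cl j.1 j.2⟩) R0 g).card) ?_
  · have h2 := hR0 N
    linarith
  · intro g hno
    by_contra hcard
    apply hno
    push Not at hcard
    have hle : (big (fun (j : Σ i, J i) g => gp j.1 j.2 g)
      (fun j => e ⟨j.1, cl j.1 j.2⟩) R0 g).card ≤ 1 := by omega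
    rw [Finset.card_le_one] at hle
    have hex : ∃ i : I, ∀ (i' : I) (j : J i'), R0 < gp i' j g → i' = i := by
      by_cases hb : ∃ (i : I) (j : J i), R0 < gp i j g
      · obtain ⟨i, j, hij⟩ := hb
        refine ⟨i, fun i' j' hij' => ?_⟩
        have m1 : e ⟨i, cl i j⟩ ∈ big (fun (j : Σ i, J i) g => gp j.1 j.2 g)
            (fun j => e ⟨j.1, cl j.1 j.2⟩) R0 g := mem_big.mpr ⟨⟨i, j⟩, rfl, hij.le⟩
        have m2 : e ⟨i', cl i' j'⟩ ∈ big (fun (j : Σ i, J i) g => gp j.1 j.2 g)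
            (fun j => e ⟨j.1, cl j.1 j.2⟩) R0 g := mem_big.mpr ⟨⟨i', j'⟩, rfl, hij'.le⟩
        have h3 := e.injective (hle _ m2 _ m1)
        exact congrArg Sigma.fst h3
      · push Not at hb
        refine ⟨hI.some, fun i' j hij => ?_⟩
        have := hb i' j
        linarith
    obtain ⟨i, hi⟩ := hex
    refine ⟨i, fun i' hi' => hw i' g ?_⟩
    refine (hR1 i' g fun j => ?_).trans (hR2 i')
    by_contra hc
    push Not at hc
    exact hi' (hi i' j hc)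

end abs

section top

/-- The chain of a product which starts with the second factor. -/
def HChain.prodSnd {H H' : Type*} [Group H] [TopologicalSpace H] [MeasurableSpace H] [Group H']
    [TopologicalSpace H'] [MeasurableSpace H'] {r r' : ℕ} (C : HChain H r) (C' : HChain H' r') :
    HChain (H × H') (r' + r) where
  b := fun j N => ((C'.prod C).b j N).swap
  K := fun j => Prod.swap '' (C'.prod C).K j
  compact := fun j => ((C'.prod C).compact j).image continuous_swap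
  comm_b := fun i j hij N M => by
    have h := congrArg Prod.swap ((C'.prod C).comm_b i j hij N M)
    exact h
  comm_K := by
    rintro i j hij N _ ⟨x, hx, rfl⟩
    exact congrArg Prod.swap ((C'.prod C).comm_K i j hij N x hx)
  pp := by
    intro j p
    obtain ⟨N₀, h⟩ := (C'.prod C).pp j p
    refine ⟨N₀, fun N hN => ?_⟩
    obtain ⟨κ, κ', Bm, Bp, h1, h2, h3, h4, h5, h6, h7⟩ := h N hN
    refine ⟨fun l => (κ l).swap, fun l => (κ' l).swap, fun l => Prod.swap ⁻¹' Bm l,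
      fun l => Prod.swap ⁻¹' Bp l, fun l => ⟨_, h1 l, rfl⟩, fun l => ⟨_, h2 l, rfl⟩,
      fun l => measurable_swap (h3 l), fun l => measurable_swap (h4 l),
      fun l l' hl => (h5 l l' hl).preimage _, fun l l' hl => (h6 l l' hl).preimage _,
      fun l x hx => h7 l x.swap hx⟩

theorem HChain.prod_zero {H H' : Type*} [Group H] [TopologicalSpace H] [MeasurableSpace H]
    [Group H'] [TopologicalSpace H'] [MeasurableSpace H'] {r r' : ℕ} (C : HChain H r)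
    (C' : HChain H' r') (hr : 0 < r) (N : ℕ) :
    (C.prod C').b ⟨0, by omega⟩ N = (C.b ⟨0, hr⟩ N, 1) := by
  have e : (⟨0, by omega⟩ : Fin (r + r')) = Fin.castAdd r' ⟨0, hr⟩ := rfl
  rw [e]
  show Fin.addCases (motive := fun x => ℕ → H × H') (fun i N => (C.b i N, 1))
    (fun i N => (1, C'.b i N)) (Fin.castAdd r' ⟨0, hr⟩) N = _
  rw [Fin.addCases_left]

theorem HChain.prodSnd_zero {H H' : Type*} [Group H] [TopologicalSpace H] [MeasurableSpace H]
    [Group H'] [TopologicalSpace H'] [MeasurableSpace H'] {r r' : ℕ} (C : HChain H r)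
    (C' : HChain H' r') (hr : 0 < r') (N : ℕ) :
    (HChain.prodSnd C C').b ⟨0, by omega⟩ N = (1, C'.b ⟨0, hr⟩ N) := by
  show ((C'.prod C).b ⟨0, by omega⟩ N).swap = _
  rw [HChain.prod_zero C' C hr]
  rfl

/-- **NON-ESCAPE**, abstract form: for any mass functions satisfying `SharpData` (scalar or with
coefficients). -/
theorem non_escape_abs {E : Type} [Group E] [TopologicalSpace E] [MeasurableSpace E]
    {Γ : Type} [Group Γ] [DecidableEq Γ] {t : ℝ} {mass : E → (Γ → ℝ) → ℝ}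
    {G₁ G₂ : Type} [Group G₁] [TopologicalSpace G₁] [Group G₂] [TopologicalSpace G₂] {r₁ r₂ m : ℕ}
    (hd : SharpData t mass (fun K : Set E => IsCompact K) (H261.PingT E)) (C : HChain E m)
    (hm : 0 < m) (h₁ : Tgt G₁ r₁)
    (h₂ : Tgt G₂ r₂) (hrm : r₁ + r₂ ≤ m) (φ : Γ →* G₁ × G₂)
    (hφ : ∀ K : Set (G₁ × G₂), IsCompact K → {x | φ x ∈ K}.Finite) {ε : ℝ} (hε : 0 < ε) :
    ∃ (K₁ : Set G₁) (K₂ : Set G₂), IsCompact K₁ ∧ IsCompact K₂ ∧ ∀ N,
      t - ε ≤ mass (C.b ⟨0, hm⟩ N) (ind fun g => (φ g).1 ∈ K₁) +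
        mass (C.b ⟨0, hm⟩ N) (ind fun g => (φ g).2 ∈ K₂) := by
  classical
  obtain ⟨A, hA, hN⟩ := all_but_one hd (H261.gchain_of_hchain C) hm (I := Bool)
    (r := fun b => cond b r₁ r₂) (by rw [Fintype.sum_bool]; exact hrm)
    (fun b A => cond b (∃ K : Set G₁, IsCompact K ∧ ∀ g ∈ A, (φ g).1 ∈ K)
      (∃ K : Set G₂, IsCompact K ∧ ∀ g ∈ A, (φ g).2 ∈ K)) (fun A hA => by
        obtain ⟨K, hK, h1⟩ := hA true
        obtain ⟨K', hK', h2⟩ := hA false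
        exact (hφ _ (hK.prod hK')).subset fun g hg => ⟨h1 g (hg true), h2 g (hg false)⟩)
    (fun b => by
      cases b
      · obtain ⟨J, hJ, gp, w, cl, hs⟩ := h₂
        refine ⟨J, hJ, fun j g => gp j (φ g).2, fun g => w (φ g).2, cl,
          hs.sys.comap ((MonoidHom.snd G₁ G₂).comp φ), fun R => ?_, fun R => ?_⟩
        · obtain ⟨R', hR⟩ := hs.comp R
          exact ⟨R', fun i j hij g hg => hR i j hij _ hg⟩
        · obtain ⟨K, hK, h1⟩ := hs.proper R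
          exact ⟨{g | w (φ g).2 ≤ R}, ⟨K, hK, fun g hg => h1 _ hg⟩, fun g hg => hg⟩
      · obtain ⟨J, hJ, gp, w, cl, hs⟩ := h₁
        refine ⟨J, hJ, fun j g => gp j (φ g).1, fun g => w (φ g).1, cl,
          hs.sys.comap ((MonoidHom.fst G₁ G₂).comp φ), fun R => ?_, fun R => ?_⟩
        · obtain ⟨R', hR⟩ := hs.comp R
          exact ⟨R', fun i j hij g hg => hR i j hij _ hg⟩
        · obtain ⟨K, hK, h1⟩ := hs.proper R
          exact ⟨{g | w (φ g).1 ≤ R}, ⟨K, hK, fun g hg => h1 _ hg⟩, fun g hg => hg⟩) hε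
  obtain ⟨K₁, hK₁, hA₁⟩ := hA true
  obtain ⟨K₂, hK₂, hA₂⟩ := hA false
  refine ⟨K₁, K₂, hK₁, hK₂, fun N => (hN N).trans ?_⟩
  rw [← hd.add _ _ _ 1 (fun g => abs_ind_le _ g) (fun g => abs_ind_le _ g)]
  refine hd.mono _ _ _ 2 (fun g => (abs_ind_le _ g).trans (by norm_num)) (fun g => ?_) fun g => ?_
  · refine (abs_add_le _ _).trans ?_
    have h1 := abs_ind_le (fun g : Γ => (φ g).1 ∈ K₁) g
    have h2 := abs_ind_le (fun g : Γ => (φ g).2 ∈ K₂) g
    linarith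
  · by_cases hg : ∃ i : Bool, ∀ i', i' ≠ i → g ∈ A i'
    · rw [ind_pos (P := fun g => ∃ i : Bool, ∀ i', i' ≠ i → g ∈ A i') hg]
      obtain ⟨i, hi⟩ := hg
      cases i
      · rw [ind_pos (P := fun g => (φ g).1 ∈ K₁) (hA₁ g (hi true (by simp)))]
        linarith [ind_nonneg (fun g : Γ => (φ g).2 ∈ K₂) g]
      · rw [ind_pos (P := fun g => (φ g).2 ∈ K₂) (hA₂ g (hi false (by simp)))]
        linarith [ind_nonneg (fun g : Γ => (φ g).1 ∈ K₁) g]
    · rw [ind_neg (P := fun g => ∃ i : Bool, ∀ i', i' ≠ i → g ∈ A i') hg]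
      linarith [ind_nonneg (fun g : Γ => (φ g).1 ∈ K₁) g, ind_nonneg (fun g : Γ => (φ g).2 ∈ K₂) g]

/-- Sequence form: along a subsequence, one factor stays bounded with mass `≥ t / 3`. -/
theorem non_escape_seq_abs {E : Type} [Group E] [TopologicalSpace E] [MeasurableSpace E]
    {Γ : Type} [Group Γ] [DecidableEq Γ] {t : ℝ} {mass : E → (Γ → ℝ) → ℝ}
    {G₁ G₂ : Type} [Group G₁] [TopologicalSpace G₁] [Group G₂] [TopologicalSpace G₂] {r₁ r₂ m : ℕ}
    (hd : SharpData t mass (fun K : Set E => IsCompact K) (H261.PingT E)) (C : HChain E m)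
    (hm : 0 < m) (h₁ : Tgt G₁ r₁)
    (h₂ : Tgt G₂ r₂) (hrm : r₁ + r₂ ≤ m) (φ : Γ →* G₁ × G₂)
    (hφ : ∀ K : Set (G₁ × G₂), IsCompact K → {x | φ x ∈ K}.Finite) :
    ∃ s : ℕ → ℕ, StrictMono s ∧
      ((∃ K₁ : Set G₁, IsCompact K₁ ∧ ∀ N, t / 3 ≤
        mass (C.b ⟨0, hm⟩ (s N)) (ind fun g => (φ g).1 ∈ K₁)) ∨
      (∃ K₂ : Set G₂, IsCompact K₂ ∧ ∀ N, t / 3 ≤
        mass (C.b ⟨0, hm⟩ (s N)) (ind fun g => (φ g).2 ∈ K₂))) := by
  obtain ⟨K₁, K₂, h1, h2, h3⟩ := non_escape_abs hd C hm h₁ h₂ hrm φ hφ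
    (ε := t / 3) (by linarith [hd.pos])
  have h4 : (∃ᶠ N in atTop, t / 3 ≤ mass (C.b ⟨0, hm⟩ N) (ind fun g => (φ g).1 ∈ K₁)) ∨
      (∃ᶠ N in atTop, t / 3 ≤ mass (C.b ⟨0, hm⟩ N) (ind fun g => (φ g).2 ∈ K₂)) := by
    rw [← frequently_or_distrib]
    refine Eventually.frequently (Eventually.of_forall fun N => ?_)
    by_contra hc
    push Not at hc
    have := h3 N
    have := hd.pos
    linarith [hc.1, hc.2]
  rcases h4 with h4 | h4
  · obtain ⟨s, hs, h5⟩ := extraction_of_frequently_atTop h4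
    exact ⟨s, hs, Or.inl ⟨K₁, h1, h5⟩⟩
  · obtain ⟨s, hs, h5⟩ := extraction_of_frequently_atTop h4
    exact ⟨s, hs, Or.inr ⟨K₂, h2, h5⟩⟩

variable {E : Type} [Group E] [TopologicalSpace E] [IsTopologicalGroup E] [LocallyCompactSpace E]
  [SecondCountableTopology E] [T2Space E] [MeasurableSpace E] [BorelSpace E]
  (Λ : Subgroup E) [DiscreteTopology Λ] [MeasurableSpace (E ⧸ Λ)] [BorelSpace (E ⧸ Λ)]
  (ν : Measure (E ⧸ Λ)) [IsProbabilityMeasure ν] (hν : ∀ g : E, ν.map (fun x => g • x) = ν)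
  {Γ ι : Type} [Group Γ] [Countable Γ] [Fintype ι] {t : ℝ}
  {R : Λ → (Ell2 (Γ × ι) →L[ℂ] Ell2 (Γ × ι))}
  {G₁ G₂ : Type} [Group G₁] [TopologicalSpace G₁] [Group G₂] [TopologicalSpace G₂] {r₁ r₂ m : ℕ}

include hν in
/-- **(S1) NON-ESCAPE.** `Λ` a lattice in `E` with a chain of length `m ≥ r₁ + r₂`, represented in
an amplification of `L(Γ)`, `Γ` a discrete subgroup of `G₁ × G₂` of rank `r₁ + r₂`. Along the first
direction of the chain the mass of `{|g₁| ≤ R}` plus the mass of `{|g₂| ≤ R}` is `≥ t - ε`. -/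
theorem non_escape (hR : ARep t R) (C : HChain E m) (hm : 0 < m) (h₁ : Tgt G₁ r₁)
    (h₂ : Tgt G₂ r₂) (hrm : r₁ + r₂ ≤ m) (φ : Γ →* G₁ × G₂)
    (hφ : ∀ K : Set (G₁ × G₂), IsCompact K → {x | φ x ∈ K}.Finite) {ε : ℝ} (hε : 0 < ε) :
    ∃ (K₁ : Set G₁) (K₂ : Set G₂), IsCompact K₁ ∧ IsCompact K₂ ∧ ∀ N,
      t - ε ≤ (∫ x, massR R (H85.coc Λ (C.b ⟨0, hm⟩ N) x) (ind fun g => (φ g).1 ∈ K₁) ∂ν) +
        ∫ x, massR R (H85.coc Λ (C.b ⟨0, hm⟩ N) x) (ind fun g => (φ g).2 ∈ K₂) ∂ν := by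
  classical
  have : Countable Λ := H790.countable_of_discrete Λ
  have hint : ∀ (g : E) (F : Γ → ℝ),
      massX (H790.baseL (H85.cdat ν hν).μ Γ ι) (H790.Ri (H85.cdat ν hν) R) g F =
        ∫ x, massR R (H85.coc Λ g x) F ∂ν := fun g F =>
    H156.mass_int (H85.cdat ν hν) hR g F (fun i => H790.ept (H85.cdat ν hν).μ i)
      (fun i => H790.ept_ae i)
  obtain ⟨K₁, K₂, h1, h2, h3⟩ := non_escape_abs (sharpData Λ ν hν hR) C hm h₁ h₂ hrm φ hφ hε
  refine ⟨K₁, K₂, h1, h2, fun N => ?_⟩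
  rw [← hint, ← hint]
  exact h3 N

include hν in
/-- **(S1)**, sequence form: along a subsequence the mass of one of the sets `{|g_j| ≤ R}` is
`≥ t / 3`. -/
theorem non_escape_seq (hR : ARep t R) (C : HChain E m) (hm : 0 < m) (h₁ : Tgt G₁ r₁)
    (h₂ : Tgt G₂ r₂) (hrm : r₁ + r₂ ≤ m) (φ : Γ →* G₁ × G₂)
    (hφ : ∀ K : Set (G₁ × G₂), IsCompact K → {x | φ x ∈ K}.Finite) :
    ∃ s : ℕ → ℕ, StrictMono s ∧
      ((∃ K₁ : Set G₁, IsCompact K₁ ∧ ∀ N, t / 3 ≤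
        ∫ x, massR R (H85.coc Λ (C.b ⟨0, hm⟩ (s N)) x) (ind fun g => (φ g).1 ∈ K₁) ∂ν) ∨
      (∃ K₂ : Set G₂, IsCompact K₂ ∧ ∀ N, t / 3 ≤
        ∫ x, massR R (H85.coc Λ (C.b ⟨0, hm⟩ (s N)) x) (ind fun g => (φ g).2 ∈ K₂) ∂ν)) := by
  classical
  have : Countable Λ := H790.countable_of_discrete Λ
  have hint : ∀ (g : E) (F : Γ → ℝ),
      massX (H790.baseL (H85.cdat ν hν).μ Γ ι) (H790.Ri (H85.cdat ν hν) R) g F =
        ∫ x, massR R (H85.coc Λ g x) F ∂ν := fun g F =>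
    H156.mass_int (H85.cdat ν hν) hR g F (fun i => H790.ept (H85.cdat ν hν).μ i)
      (fun i => H790.ept_ae i)
  obtain ⟨s, hs, h⟩ := non_escape_seq_abs (sharpData Λ ν hν hR) C hm h₁ h₂ hrm φ hφ
  refine ⟨s, hs, ?_⟩
  rcases h with ⟨K, h1, h2⟩ | ⟨K, h1, h2⟩
  · exact Or.inl ⟨K, h1, fun N => by rw [← hint]; exact h2 N⟩
  · exact Or.inr ⟨K, h1, fun N => by rw [← hint]; exact h2 N⟩

end top

end Vale.Agent.P092.H515
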