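import Vale.Agent.P092.H515.ProdR
import Vale.Agent.P092.H761.RankDefs

/-!
P092 (helper515), block [R7]: the geometric input of the rank theorems for groups with finitely many
systems of gauges which are jointly proper (lattices in products, e.g. irreducible ones).
-/

namespace Vale.Agent.P092.H515

open Vale.Agent.P092.H761 (Geo Gaps)
open Vale.Agent.P092.H944 (hs gap)

section
variable {Γ : Type} [Group Γ]

/-- The geometric functions of one proper system of gauges. -/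
theorem GSys.geo' [DecidableEq Γ] {J : Type} {gap : J → Γ → ℝ} {w : Γ → ℝ} (h : GSys gap w)
    (fin : ∀ R : ℝ, {g | w g ≤ R}.Finite) (θ : Finset J) : Geo gap θ := h.geo fin θ

/-- The gaps of one proper system of gauges. -/
theorem GSys.gaps {J : Type} {gap : J → Γ → ℝ} {w : Γ → ℝ} (h : GSys gap w)
    (fin : ∀ R : ℝ, {g | w g ≤ R}.Finite) {r : ℕ} (cl : J → Fin r)
    (comp : ∀ R : ℝ, ∃ R' : ℝ, ∀ i j, cl i = cl j → ∀ g, gap i g ≤ R → gap j g ≤ R') :
    Gaps gap cl where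
  quasi := h.quasi
  fin := h.gap_finite fin
  comp := comp

variable {I : Type} [Fintype I] [Nonempty I] {J : I → Type} {gp : ∀ i, J i → Γ → ℝ}
  {w : I → Γ → ℝ}

omit [Group Γ] [Nonempty I] in
/-- Joint properness. -/
lemma fin_sum (hw : ∀ i b, 0 < w i b) (fin : ∀ R : ℝ, {g | ∀ i, w i g ≤ R}.Finite) (R : ℝ) :
    {g | ∑ i, w i g ≤ R}.Finite :=
  (fin R).subset fun g hg i => (Finset.single_le_sum (f := fun i => w i g)
    (fun i _ => (hw i g).le) (Finset.mem_univ i)).trans hg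

/-- **Geometric functions for several jointly proper factors.** -/
theorem geo_pi [DecidableEq Γ] (h : ∀ i, GSys (gp i) (w i))
    (fin : ∀ R : ℝ, {g | ∀ i, w i g ≤ R}.Finite) (θ : Finset (Σ i, J i)) :
    Geo (fun (j : Σ i, J i) g => gp j.1 j.2 g) θ :=
  (GSys.pi h).geo' (fin_sum (fun i => (h i).pos) fin) θ

/-- **Gaps for several jointly proper factors.** -/
theorem gaps_pi (h : ∀ i, GSys (gp i) (w i)) (fin : ∀ R : ℝ, {g | ∀ i, w i g ≤ R}.Finite)
    {r : I → ℕ} (cl : ∀ i, J i → Fin (r i))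
    (comp : ∀ i, ∀ R : ℝ, ∃ R' : ℝ, ∀ j j', cl i j = cl i j' → ∀ g, gp i j g ≤ R →
      gp i j' g ≤ R') {N : ℕ} (e : (Σ i, Fin (r i)) ≃ Fin N) :
    Gaps (fun (j : Σ i, J i) g => gp j.1 j.2 g) (fun j => e ⟨j.1, cl j.1 j.2⟩) := by
  refine (GSys.pi h).gaps (fin_sum (fun i => (h i).pos) fin) _ fun R => ?_
  choose R' hR using fun i => comp i R
  obtain ⟨R'', _, h2⟩ := exists_le_all R'
  refine ⟨R'', ?_⟩
  rintro ⟨i, j⟩ ⟨i', j'⟩ hcl g hg
  have h3 := e.injective hcl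
  obtain ⟨rfl, h4⟩ := Sigma.mk.inj_iff.1 h3
  exact (hR i j j' (eq_of_heq h4) g hg).trans (h2 i)

end

/-- The gaps of a real factor, all of them. -/
def finEmb (n : ℕ) : Fin (n - 1) ↪ ℕ := ⟨fun j => j, fun _ _ h => Fin.ext h⟩

section real
variable {Γ I : Type} [Group Γ] [Fintype I] [Nonempty I] {n : I → ℕ}
  {m : ∀ i, Γ → Matrix (Fin (n i)) (Fin (n i)) ℝ}

lemma gsys_all {n : ℕ} (hn : 0 < n) {m : Γ → Matrix (Fin n) (Fin n) ℝ} (h : EmbW m) :
    GSys (fun (j : Fin (n - 1)) g => gap (j : ℕ) (m g)) (fun b => hs (m b)) :=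
  h.gsys hn (finEmb n) (R0 := 0) fun l hl hj => absurd rfl (hj ⟨l, by omega⟩)

/-- **Real products**: `Γ → ∏ SL_{n_i}^±(ℝ)/±1`, jointly proper. -/
theorem geo_real [DecidableEq Γ] (hn : ∀ i, 0 < n i) (h : ∀ i, EmbW (m i))
    (fin : ∀ R : ℝ, {g | ∀ i, hs (m i g) ≤ R}.Finite) (θ : Finset (Σ i, Fin (n i - 1))) :
    Geo (fun (j : Σ i, Fin (n i - 1)) g => gap (j.2 : ℕ) (m j.1 g)) θ :=
  geo_pi (fun i => gsys_all (hn i) (h i)) fin θ

theorem gaps_real (hn : ∀ i, 0 < n i) (h : ∀ i, EmbW (m i))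
    (fin : ∀ R : ℝ, {g | ∀ i, hs (m i g) ≤ R}.Finite) {N : ℕ}
    (e : (Σ i, Fin (n i - 1)) ≃ Fin N) :
    Gaps (fun (j : Σ i, Fin (n i - 1)) g => gap (j.2 : ℕ) (m j.1 g)) (fun j => e j) :=
  gaps_pi (fun i => gsys_all (hn i) (h i)) fin (fun _ j => j)
    (fun i R => ⟨R, fun j j' hj g hg => by rw [← hj]; exact hg⟩) e

end real

end Vale.Agent.P092.H515
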