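import Vale.Agent.P092.H221.GapsF
import Vale.Agent.P092.H337.NGf
import Vale.Agent.P092.H218.NEndA
import Vale.Agent.P092.H515.ProdGeo

/-!
P092 (helper515), Team N, [N-GAPB] for products, part 1: labels of the gaps of a product, the set of
the gaps of one coordinate, bounded elements have bounded gaps, tight coordinates.
-/

set_option linter.all false

open Matrix Filter Topology

namespace Vale.Agent.P092.H515.HP

open Vale.Agent.P092.H515 (GSys)
open Vale.Agent.P092.H933 (LocK)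
open Vale.Agent.P092.H534.GK (Crt entry_le')
open Vale.Agent.P092.H221.GapsC (lg)
open Vale.Agent.P092.H200 Vale.Agent.P092.H538 Vale.Agent.P092.H553 Vale.Agent.P092.H761

/-! ### Labels -/

section lab

variable {I : Type} [Fintype I]

/-- the number of labels -/
noncomputable def nlab (m : I → ℕ) : ℕ :=
  ∑ a : Fin (Fintype.card I), m ((Fintype.equivFin I).symm a)

/-- the labels of a disjoint union, monotone on every part -/
noncomputable def lab (m : I → ℕ) (x : Σ i, Fin (m i)) : Fin (nlab m) :=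
  finSigmaFinEquiv ⟨Fintype.equivFin I x.1, Fin.cast (by rw [Equiv.symm_apply_apply]) x.2⟩

theorem lab_val (m : I → ℕ) (x : Σ i, Fin (m i)) : (lab m x : ℕ) =
    ∑ a : Fin (Fintype.equivFin I x.1), m ((Fintype.equivFin I).symm
      (Fin.castLE (Fintype.equivFin I x.1).2.le a)) + x.2 := by
  rw [lab]
  exact finSigmaFinEquiv_apply _

theorem lab_lt (m : I → ℕ) {i : I} {l l' : Fin (m i)} : lab m ⟨i, l⟩ < lab m ⟨i, l'⟩ ↔ l < l' := by
  rw [Fin.lt_def, lab_val, lab_val, Fin.lt_def]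
  simp only
  omega

theorem lab_inj (m : I → ℕ) : Function.Injective (lab m) := by
  rintro ⟨i, l⟩ ⟨i', l'⟩ h
  rw [lab, lab] at h
  have h1 := finSigmaFinEquiv.injective h
  have h2 : Fintype.equivFin I i = Fintype.equivFin I i' := congrArg Sigma.fst h1
  obtain rfl := (Fintype.equivFin I).injective h2
  have h3 : l = l' := by
    have h4 := eq_of_heq (Sigma.mk.inj_iff.1 h1).2
    exact Fin.ext (by
      have := congrArg Fin.val h4
      simpa using this)
  rw [h3]

variable [DecidableEq I]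

/-- the labels of one part -/
noncomputable def part (m : I → ℕ) (i : I) : Finset (Fin (nlab m)) :=
  Finset.univ.image fun l : Fin (m i) => lab m ⟨i, l⟩

theorem mem_part {m : I → ℕ} {i : I} {x : Fin (nlab m)} :
    x ∈ part m i ↔ ∃ l, lab m ⟨i, l⟩ = x := by
  rw [part, Finset.mem_image]; simp

theorem lab_mem_part {m : I → ℕ} {i j : I} {l : Fin (m j)} : lab m ⟨j, l⟩ ∈ part m i ↔ j = i := by
  rw [mem_part]
  constructor
  · rintro ⟨l', h⟩
    exact (Sigma.mk.inj_iff.1 (lab_inj m h)).1.symm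
  · rintro rfl
    exact ⟨l, rfl⟩

theorem card_part (m : I → ℕ) (i : I) : (part m i).card = m i := by
  rw [part, Finset.card_image_of_injective, Finset.card_univ, Fintype.card_fin]
  intro l l' h
  exact eq_of_heq (Sigma.mk.inj_iff.1 (lab_inj m h)).2

end lab

/-! ### Bounded elements have bounded gaps -/

section bdd

variable {k : Type} [NontriviallyNormedField k] {n : ℕ}

theorem lg_le {h : SpecialLinearGroup (Fin n) k} {a : Fin n → k}
    {U U' V V' : Matrix (Fin n) (Fin n) k} (H : Crt h.1 a U U' V V') {R : ℝ} (hR : 1 ≤ R)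
    (hh : ∀ i j, ‖h.1 i j‖ ≤ R) (i : Fin (n - 1)) :
    lg a i ≤ Real.log (n * (n * R)) + Real.log (n * (n * (n.factorial * R ^ (n - 1)))) := by
  have hn : 0 < n := by have := i.2; omega
  have hn' : (1 : ℝ) ≤ n := by exact_mod_cast hn
  have hd : h.1.det ≠ 0 := by rw [h.2]; exact one_ne_zero
  have hf : (1 : ℝ) ≤ n.factorial := by exact_mod_cast n.factorial_pos
  have hinv : ∀ i j, ‖(h⁻¹).1 i j‖ ≤ n.factorial * R ^ (n - 1) := by
    intro i j
    have h1 := H337.NG.en_le_inv (n := n) h⁻¹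
    rw [inv_inv] at h1
    refine (H337.NG.entry_le (h⁻¹).1 i j).trans (h1.trans ?_)
    have h2 : H337.NG.en h.1 ≤ R := H337.NG.en_le_of (by linarith) hh
    have h3 := H337.NG.en_nonneg h.1
    gcongr
  have up : ∀ i, ‖a i‖ ≤ n * (n * R) := by
    intro i
    have h1 := entry_le' H.hU' H.hV' hh i i
    rwa [← H.diag, diagonal_apply_eq] at h1
  have lo : ∀ i, ‖(a i)⁻¹‖ ≤ n * (n * (n.factorial * R ^ (n - 1))) := by
    intro i
    have hh' : (h⁻¹).1 * h.1 = 1 := congrArg Subtype.val (inv_mul_cancel h)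
    have e := H.inv hd hh'
    have e2 : diagonal (fun i => (a i)⁻¹) = V * (h⁻¹).1 * U := by
      rw [e]
      calc diagonal (fun i => (a i)⁻¹) = (V * V') * diagonal (fun i => (a i)⁻¹) * (U' * U) := by
            rw [H.vv, H.uu', Matrix.one_mul, Matrix.mul_one]
        _ = _ := by simp only [Matrix.mul_assoc]
    have h1 := entry_le' H.hV H.hU hinv i i
    rwa [← e2, diagonal_apply_eq] at h1
  have hpos := fun i => H.pos hd i
  unfold lg
  have h1 : Real.log ‖a ⟨i, by have := i.2; omega⟩‖ ≤ Real.log (n * (n * R)) :=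
    Real.log_le_log (hpos _) (up _)
  have h2 : -Real.log ‖a ⟨(i : ℕ) + 1, by have := i.2; omega⟩‖ ≤
      Real.log (n * (n * (n.factorial * R ^ (n - 1)))) := by
    rw [← Real.log_inv, ← norm_inv]
    exact Real.log_le_log (norm_pos_iff.mpr (inv_ne_zero (H.ne hd _))) (lo _)
  linarith

/-- Elements with bounded entries have bounded gaps. -/
theorem gap_le {Γ : Type} {q : Γ → SpecialLinearGroup (Fin n) k} {gap : Fin (n - 1) → Γ → ℝ}
    {c C : ℝ} (hc : 0 < c)
    (h : ∀ γ, ∃ a U U' V V', Crt (q γ).1 a U U' V V' ∧ ∀ j, |gap j γ - c * lg a j| ≤ C) (R : ℝ) :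
    ∃ R' : ℝ, ∀ γ, (∀ i j, ‖(q γ).1 i j‖ ≤ R) → ∀ j, gap j γ < R' := by
  refine ⟨C + c * (Real.log (n * (n * max R 1)) +
    Real.log (n * (n * (n.factorial * max R 1 ^ (n - 1))))) + 1, fun γ hγ j => ?_⟩
  obtain ⟨a, U, U', V, V', H, hj⟩ := h γ
  have h1 := lg_le H (le_max_right R 1) (fun i j => (hγ i j).trans (le_max_left _ _)) j
  have h2 := (abs_le.mp (hj j)).2
  have h3 := mul_le_mul_of_nonneg_left h1 hc.le
  linarith

end bdd

/-! ### Tight coordinates -/

section tight

variable {Γ I : Type} [Group Γ] [DecidableEq Γ] [Fintype I] [DecidableEq I] {n : I → ℕ}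
  {k : I → Type} [∀ i, NontriviallyNormedField (k i)]
  {q : ∀ i, Γ → SpecialLinearGroup (Fin (n i)) (k i)}
  {gap : (Σ i, Fin (n i - 1)) → Γ → ℝ}

/-- If a label off the part `i` is large, another coordinate is large. -/
theorem other_large (h : ∀ i, ∃ c C : ℝ, 0 < c ∧ ∀ γ, ∃ a U U' V V', Crt (q i γ).1 a U U' V V' ∧
      ∀ j, |gap ⟨i, j⟩ γ - c * lg a j| ≤ C) (i : I) (r : ℝ) :
    ∃ R : ℝ, ∀ γ, (∃ x, x ∉ part (fun i => n i - 1) i ∧
      x ∈ big gap (lab fun i => n i - 1) R γ) → ∃ j, j ≠ i ∧ ∃ a b, r < ‖(q j γ).1 a b‖ := by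
  choose c C hc hC using h
  choose R hR using fun j => gap_le (q := q j) (gap := fun l γ => gap ⟨j, l⟩ γ) (hc j) (hC j) r
  refine ⟨∑ j, |R j|, fun γ hγ => ?_⟩
  obtain ⟨x, hx, hx2⟩ := hγ
  obtain ⟨⟨j, l⟩, rfl, hl⟩ := mem_big.mp hx2
  have hj : j ≠ i := fun e => hx (lab_mem_part.mpr e)
  refine ⟨j, hj, ?_⟩
  by_contra hcon
  push Not at hcon
  have h1 := hR j γ hcon l
  have h2 : R j ≤ ∑ j, |R j| := (le_abs_self _).trans
    (Finset.single_le_sum (f := fun j => |R j|) (fun j _ => abs_nonneg _) (Finset.mem_univ j))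
  exact absurd hl (not_le.mpr (h1.trans_le h2))

end tight

end Vale.Agent.P092.H515.HP
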