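import Vale.Agent.P092.H515.ProdGeo
import Vale.Agent.P092.H933.Place

/-!
P092 (helper515): helper933's interface `Place` gives a system of gauges, and `GeoPlaces`.
-/

namespace Vale.Agent.P092.H515

open Vale.Agent.P092.H933 (Place GeoPlaces)

section
variable {Γ J : Type} [Group Γ] [Fintype J] {gap : J → Γ → ℝ} {w : Γ → ℝ}
  {f f0 : Finset J → (J → ℝ) → Γ → Γ → ℝ} {A : ℝ}

omit [Fintype J] in
lemma place_pos (h : Place gap w f f0 A) (θ : Finset J) (t : J → ℝ) (g b : Γ) :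
    0 < f θ t g b := by
  obtain ⟨c, hc, h1⟩ := h.lo θ t g
  exact (mul_pos hc (h.wpos b)).trans_le (h1 b)

theorem place_gauge (h : Place gap w f f0 A) (θ : Finset J) :
    IsGauge gap w θ (f θ) (f0 θ) |A| where
  lo t g := by
    obtain ⟨c, hc, h1⟩ := h.lo θ t g
    exact ⟨c, hc, h1⟩
  lo0 t g := by
    obtain ⟨c, hc, h1⟩ := h.lo0 θ t g
    exact ⟨c, hc, h1⟩
  bd R T := by
    obtain ⟨c, hc, C, h1⟩ := h.bd θ R T
    exact ⟨c, hc, C, fun g hg t ht b => h1 g hg t (fun j _ => ht j) b⟩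
  bd0 T := by
    obtain ⟨c, hc, C, h1⟩ := h.bd0 θ T
    exact ⟨c, hc, C, fun g t ht b => h1 g t (fun j _ => ht j) b⟩
  lip t d g b := by
    refine (h.lip θ t d g b).trans
      (mul_le_mul_of_nonneg_right (Real.exp_le_exp.2 ?_) (place_pos h θ t g b).le)
    have h1 : 0 ≤ ∑ j ∈ θ, |d j| := Finset.sum_nonneg fun _ _ => abs_nonneg _
    have h2 : ∑ j ∈ θ, |d j| ≤ ∑ j, |d j| :=
      Finset.sum_le_sum_of_subset_of_nonneg (Finset.subset_univ θ) fun _ _ _ => abs_nonneg _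
    calc A * ∑ j ∈ θ, |d j| ≤ |A| * ∑ j ∈ θ, |d j| :=
          mul_le_mul_of_nonneg_right (le_abs_self A) h1
      _ ≤ |A| * ∑ j, |d j| := mul_le_mul_of_nonneg_left h2 (abs_nonneg A)
  left s R1 := by
    obtain ⟨C, hC⟩ := h.left θ s
    refine ⟨C, fun ρ hρ => ?_⟩
    obtain ⟨L, hL⟩ := hC ρ hρ
    refine ⟨L, fun T => ?_⟩
    obtain ⟨D, hD⟩ := hL T
    refine ⟨D, fun g hg _ => ?_⟩
    obtain ⟨p, σ, hp, hσ, h1⟩ := hD g hg
    exact ⟨p, hp, σ, hσ, fun t ht b => h1 t (fun j _ => ht j) b⟩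
  right u T η hη := by
    obtain ⟨D, hD⟩ := h.right θ u T η hη
    exact ⟨D, fun g hg t ht b => hD g hg t (fun j _ => ht j) b⟩
  ov R := by
    obtain ⟨C, hC, h1⟩ := h.ov θ R
    exact ⟨C, hC, fun T => ⟨0, fun g _ hg t _ b => h1 g hg t b⟩⟩

theorem place_gsys (h : Place gap w f f0 A) : GSys gap w where
  pos := h.wpos
  quasi := h.quasi
  bdd := h.gw
  pack := by
    obtain ⟨N, C, C0, hp⟩ := h.pack
    refine ⟨C0, |C| + 1, by positivity, N, fun k => ?_⟩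
    have hk : (0 : ℝ) ≤ k := Nat.cast_nonneg k
    obtain ⟨c, h1, h2⟩ := hp ((k : ℝ) + 1) (by linarith)
    obtain ⟨Z, hZ⟩ : ∃ Z : ℕ, Z = ⌊|C| * ((k : ℝ) + 1) ^ N⌋₊ := ⟨_, rfl⟩
    have hle : ∀ b, w b ≤ k → c b ≤ Z := fun b hb => by
      rw [hZ]
      refine Nat.le_floor ((h1 b (by linarith)).trans ?_)
      exact mul_le_mul_of_nonneg_right (le_abs_self C) (by positivity)
    refine ⟨Fin (Z + 1), inferInstance, fun b => Fin.ofNat (Z + 1) (c b), ?_,
      fun b b' hb hb' hcode => ?_⟩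
    · rw [Fintype.card_fin]
      push_cast
      have h3 : (Z : ℝ) ≤ |C| * ((k : ℝ) + 1) ^ N := by
        rw [hZ]; exact Nat.floor_le (by positivity)
      have h4 : (1 : ℝ) ≤ ((k : ℝ) + 1) ^ N := one_le_pow₀ (by linarith)
      linarith
    · refine h2 b b' (by linarith) (by linarith) ?_
      have h3 := congrArg Fin.val hcode
      simp only [Fin.ofNat] at h3
      rwa [Nat.mod_eq_of_lt (Nat.lt_succ_of_le (hle b hb)),
        Nat.mod_eq_of_lt (Nat.lt_succ_of_le (hle b' hb'))] at h3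
  gauge θ := ⟨J, inferInstance, f θ, f0 θ, |A|, place_gauge h θ⟩

end

/-- **[LOC-P]** of helper933. -/
theorem geoPlaces : GeoPlaces := by
  intro Γ V _ _ _ _ _ J _ _ gap w f f0 A h fin
  have hs : ∀ v, GSys (gap v) (w v) := fun v => place_gsys (h v)
  have hf : ∀ R : ℝ, {g | ∑ v, w v g ≤ R}.Finite := fin_sum (fun v => (hs v).pos) fin
  exact ⟨(GSys.pi hs).quasi, (GSys.pi hs).gap_finite hf, fun θ => geo_pi hs fin θ⟩

end Vale.Agent.P092.H515
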