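import Vale.Agent.P092.H368.SN.SrcE

/-!
P092 (helper515), Team N, [P-TAU] (T1): one wall, one factor. The target has several coordinates
with sizes `G j`. Two coordinates are never large together along the powers of a wall element `b`;
then one coordinate `j` takes all the mass and all the others stay bounded: this is the engine of
`H859.CN` for the geometry with one base point for each coordinate.
-/

set_option linter.all false

open scoped InnerProductSpace Pointwise
open Filter Topology ContinuousLinearMap TopologicalSpace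

namespace Vale.Agent.P092.H515.Tau

open Vale.Agent.P092.H859.CL (Fn st Prj Rep Leg Slow LU1 Esc BB FF BB_mono P P_ap PC mc mc_ap cfc pw
  tendsto_pw pw_mem Neg Full EngOut IsLim cn)
open Vale.Agent.P092.H859.CN (Sys SysF GeoF SepP engine tail_small esc2)
open Vale.Agent.P092.H43 (Loc2)
open Vale.Agent.P092.H368.SN (Ctr Cen SrcE)
open Vale.Agent.P092.RC (Pic Moore)
open Vale.Agent.P092.H553 (ind ind_nonneg ind_le_one abs_ind_le ind_pos ind_neg)

/-- The index set of the coordinates as a discrete space with the trivial action. -/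
@[ext] structure Idx (J : Type) : Type where
  /-- the point of an index -/
  mk ::
  /-- the index -/
  ix : J

instance (J : Type) : TopologicalSpace (Idx J) := ⊥
instance (J : Type) : DiscreteTopology (Idx J) := ⟨rfl⟩
instance (J : Type) [Finite J] : Finite (Idx J) :=
  Finite.of_injective (fun j => j.ix) fun _ _ h => Idx.ext h
instance (J Γ : Type) [Group Γ] : MulAction Γ (Idx J) where
  smul _ j := j
  one_smul _ := rfl
  mul_smul _ _ _ := rfl

theorem idx_smul {J Γ : Type} [Group Γ] (γ : Γ) (j : Idx J) : γ • j = j := rfl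

section coords

variable {Γ J : Type} [Group Γ] [Fintype J] [DecidableEq J] [Nonempty J]

/-- Sizes of the coordinates of the target. -/
structure Coords (Br : ℝ → Set Γ) (G : J → Γ → ℝ) : Prop where
  nonneg : ∀ j γ, 0 ≤ G j γ
  fin : ∀ r, {γ | ∀ j, G j γ ≤ r}.Finite
  inv : ∃ C : ℝ, 0 < C ∧ ∀ j γ, G j γ⁻¹ ≤ C * (G j γ + 1)
  mul : ∃ C : ℝ, ∀ j x y, G j (x * y) ≤ G j x + G j y + C
  mix : ∀ r, ∃ r', {γ | ∃ j j', j ≠ j' ∧ r' < G j γ ∧ r' < G j' γ} ⊆ Br r

/-- the largest coordinate -/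
noncomputable def arg (G : J → Γ → ℝ) (γ : Γ) : J :=
  (Finite.exists_max fun j => G j γ).choose

/-- the same as a point of the discrete space -/
noncomputable def argI (G : J → Γ → ℝ) (γ : Γ) : Idx J := ⟨arg G γ⟩

theorem arg_spec (G : J → Γ → ℝ) (γ : Γ) (i : J) : G i γ ≤ G (arg G γ) γ :=
  (Finite.exists_max fun j => G j γ).choose_spec i

/-- the largest size -/
noncomputable def T1 (G : J → Γ → ℝ) (γ : Γ) : ℝ := G (arg G γ) γ

/-- the size of the other coordinates -/
noncomputable def T2 (G : J → Γ → ℝ) (γ : Γ) : ℝ := min (T1 G γ) (∑ i, G i γ - T1 G γ)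

variable {Br : ℝ → Set Γ} {G : J → Γ → ℝ}

theorem T2_le (γ : Γ) : T2 G γ ≤ T1 G γ := min_le_left _ _

theorem le_T1 (i : J) (γ : Γ) : G i γ ≤ T1 G γ := arg_spec G γ i

theorem sum_sub (γ : Γ) : ∑ i, G i γ - T1 G γ = ∑ i ∈ Finset.univ.erase (arg G γ), G i γ := by
  rw [← Finset.add_sum_erase _ (fun i => G i γ) (Finset.mem_univ (arg G γ)), T1]
  ring

theorem le_T2 (h : Coords Br G) {i : J} {γ : Γ} (hi : i ≠ arg G γ) : G i γ ≤ T2 G γ := by
  refine le_min (le_T1 i γ) ?_
  rw [sum_sub]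
  exact Finset.single_le_sum (f := fun i => G i γ) (fun i _ => h.nonneg i γ)
    (Finset.mem_erase.mpr ⟨hi, Finset.mem_univ i⟩)

/-- Two large coordinates. -/
theorem two_of_T2 (h : Coords Br G) {γ : Γ} {r : ℝ} (hr : 0 ≤ r)
    (h2 : Fintype.card J * r < T2 G γ) : ∃ i, i ≠ arg G γ ∧ r < G i γ ∧ r < G (arg G γ) γ := by
  have h3 : ∃ i, i ≠ arg G γ ∧ r < G i γ := by
    by_contra hcon
    push Not at hcon
    have h4 : T2 G γ ≤ Fintype.card J * r := by
      refine (min_le_right _ _).trans ?_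
      rw [sum_sub]
      refine (Finset.sum_le_card_nsmul _ _ r fun i hi => hcon i (Finset.mem_erase.mp hi).1).trans ?_
      rw [nsmul_eq_mul]
      have : ((Finset.univ.erase (arg G γ)).card : ℝ) ≤ Fintype.card J := by
        exact_mod_cast Finset.card_le_univ _
      gcongr
    exact absurd h2 (not_lt.mpr h4)
  obtain ⟨i, hi, hi2⟩ := h3
  exact ⟨i, hi, hi2, hi2.trans_le (arg_spec G γ i)⟩

theorem BB_sub (h : Coords Br G) (r : ℝ) : ∃ r', BB (T1 G) (T2 G) r' ⊆ Br r := by
  obtain ⟨r1, hr1⟩ := h.mix r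
  refine ⟨Fintype.card J * max r1 0, fun γ hγ => hr1 ?_⟩
  obtain ⟨i, hi, h1, h2⟩ := two_of_T2 h (le_max_right r1 0) hγ.2
  exact ⟨i, arg G γ, hi, (le_max_left _ _).trans_lt h1, (le_max_left _ _).trans_lt h2⟩

theorem FF_fin (h : Coords Br G) (r : ℝ) : (FF (T1 G) (T2 G) r).Finite :=
  (h.fin r).subset fun γ hγ i => (le_T1 i γ).trans hγ.1

theorem quasi (h : Coords Br G) (s u : Γ) :
    ∃ C : ℝ, 0 ≤ C ∧ ∀ j x, |G j (s * x * u) - G j x| ≤ C := by
  obtain ⟨C, hC⟩ := h.mul
  obtain ⟨D, hD⟩ : ∃ D : ℝ, ∀ j, G j s ≤ D ∧ G j u ≤ D ∧ G j s⁻¹ ≤ D ∧ G j u⁻¹ ≤ D := by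
    refine ⟨∑ j, (G j s + G j u + G j s⁻¹ + G j u⁻¹), fun j => ?_⟩
    have h1 := Finset.single_le_sum (f := fun j => G j s + G j u + G j s⁻¹ + G j u⁻¹)
      (fun i _ => by
        have := h.nonneg i s; have := h.nonneg i u
        have := h.nonneg i s⁻¹; have := h.nonneg i u⁻¹
        positivity) (Finset.mem_univ j)
    have a1 := h.nonneg j s
    have a2 := h.nonneg j u
    have a3 := h.nonneg j s⁻¹
    have a4 := h.nonneg j u⁻¹
    refine ⟨by linarith, by linarith, by linarith, by linarith⟩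
  refine ⟨|2 * D + 2 * C|, abs_nonneg _, fun j x => ?_⟩
  have h1 := hC j (s * x) u
  have h2 := hC j s x
  have h3 := hC j (s⁻¹ * (s * x * u)) u⁻¹
  have h4 := hC j s⁻¹ (s * x * u)
  have e : s⁻¹ * (s * x * u) * u⁻¹ = x := by group
  rw [e] at h3
  obtain ⟨d1, d2, d3, d4⟩ := hD j
  rw [abs_le]
  have h5 := le_abs_self (2 * D + 2 * C)
  constructor <;> linarith

/-- the largest size varies little -/
theorem T1_gap {C : ℝ} {x y : Γ} (hC : ∀ j, |G j x - G j y| ≤ C) : |T1 G x - T1 G y| ≤ C := by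
  have h1 : T1 G x ≤ T1 G y + C := by
    have h2 := (abs_le.mp (hC (arg G x))).2
    have h3 := le_T1 (G := G) (arg G x) y
    change G (arg G x) x ≤ _
    linarith
  have h4 : T1 G y ≤ T1 G x + C := by
    have h2 := (abs_le.mp (hC (arg G y))).1
    have h3 := le_T1 (G := G) (arg G y) x
    change G (arg G y) y ≤ _
    linarith
  rw [abs_le]
  constructor <;> linarith

theorem T2_gap {C : ℝ} (hC0 : 0 ≤ C) {x y : Γ} (hC : ∀ j, |G j x - G j y| ≤ C) :
    |T2 G x - T2 G y| ≤ (Fintype.card J + 1) * C := by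
  have h1 := T1_gap hC
  have h2 : |∑ i, G i x - ∑ i, G i y| ≤ Fintype.card J * C := by
    rw [← Finset.sum_sub_distrib]
    refine (Finset.abs_sum_le_sum_abs _ _).trans ?_
    refine (Finset.sum_le_card_nsmul _ _ C fun i _ => hC i).trans ?_
    rw [nsmul_eq_mul, Finset.card_univ]
  refine (abs_min_sub_min_le_max _ _ _ _).trans (max_le (h1.trans ?_) ?_)
  · have : (0 : ℝ) ≤ (Fintype.card J : ℝ) * C := by positivity
    linarith
  · have h3 : ∑ i, G i x - T1 G x - (∑ i, G i y - T1 G y) =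
        (∑ i, G i x - ∑ i, G i y) - (T1 G x - T1 G y) := by ring
    rw [h3]
    refine (abs_sub _ _).trans ?_
    linarith

/-- The other coordinates are small. -/
theorem small_of {C R : ℝ} (h : Coords Br G) {γ : Γ} (h2 : T2 G γ ≤ R) {i : J}
    (hi : i ≠ arg G γ) : G i γ ≤ R := (le_T2 h hi).trans h2

/-- The geometry with one base point for each coordinate. -/
theorem geoF_arg (h : Coords Br G) : GeoF (Y := Idx J) Br (T1 G) (T2 G) (argI G) where
  cact s := continuous_of_discreteTopology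
  fin r := FF_fin h r
  gap s u := by
    obtain ⟨C, hC0, hC⟩ := quasi h s u
    refine ⟨(Fintype.card J + 1) * C, fun x => ⟨(T1_gap fun j => hC j x).trans ?_,
      T2_gap hC0 fun j => hC j x⟩⟩
    have : (0 : ℝ) ≤ (Fintype.card J : ℝ) * C := by positivity
    linarith
  stab s u f ε hε r := by
    obtain ⟨C, hC0, hC⟩ := quasi h s u
    refine ⟨r + 2 * C + 1, fun x h1 h2 => ?_⟩
    have key : argI G (s * x * u) = argI G x := by
      refine Idx.ext ?_
      change arg G (s * x * u) = arg G x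
      by_contra hne
      have h3 : G (arg G (s * x * u)) x ≤ r := (le_T2 h hne).trans h2
      have h4 := (abs_le.mp (hC (arg G (s * x * u)) x)).2
      have h5 := arg_spec G (s * x * u) (arg G x)
      have h6 := (abs_le.mp (hC (arg G x) x)).1
      have h7 : r + 2 * C + 1 ≤ G (arg G x) x := h1
      linarith
    rw [key, idx_smul, sub_self, abs_zero]
    exact hε.le
  sep A A' _ _ hd := by
    obtain ⟨C, hC⟩ := h.mul
    obtain ⟨D, hD0, hD⟩ := h.inv
    have hne : ∀ x y : Γ, argI G x ∈ A → argI G y ∈ A' → arg G x ≠ arg G y := by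
      intro x y h1 h2 h3
      have h4 : argI G x = argI G y := Idx.ext h3
      exact Set.disjoint_left.mp hd h1 (h4 ▸ h2)
    intro R
    obtain ⟨B, hB⟩ : ∃ B : ℝ, B = R + D * (R + 1) + C := ⟨_, rfl⟩
    refine ⟨(h.fin B).toFinset, fun r => ?_⟩
    obtain ⟨r', hr'⟩ := h.mix r
    refine ⟨max (R + D * (r' + 2) + C) (R + r' + 1 + C) + 1, fun x y hx hy x1 y1 x2 y2 => hr' ?_,
      fun x₁ y₁ x₂ y₂ a1 b1 a2 b2 c1 d1 c2 d2 e1 f1 e2 f2 hxy => ?_⟩
    · have hxy := hne x y hx hy
      refine ⟨arg G x, arg G y, hxy, ?_, ?_⟩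
      · -- the coordinate of `x`
        have h1 := hC (arg G x) y (x⁻¹ * y)⁻¹
        have e : y * (x⁻¹ * y)⁻¹ = x := by group
        rw [e] at h1
        have h2 := hD (arg G x) (x⁻¹ * y)
        have h3 : G (arg G x) y ≤ R := (le_T2 h hxy).trans y2
        have h4 : max (R + D * (r' + 2) + C) (R + r' + 1 + C) + 1 ≤ G (arg G x) x := x1
        have h5 := le_max_left (R + D * (r' + 2) + C) (R + r' + 1 + C)
        by_contra hcon
        push Not at hcon
        have h6 : D * (G (arg G x) (x⁻¹ * y) + 1) ≤ D * (r' + 2) :=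
          mul_le_mul_of_nonneg_left (by linarith) hD0.le
        linarith
      · have h1 := hC (arg G y) x (x⁻¹ * y)
        have e : x * (x⁻¹ * y) = y := by group
        rw [e] at h1
        have h3 : G (arg G y) x ≤ R := (le_T2 h hxy.symm).trans x2
        have h4 : max (R + D * (r' + 2) + C) (R + r' + 1 + C) + 1 ≤ G (arg G y) y := y1
        have h5 := le_max_right (R + D * (r' + 2) + C) (R + r' + 1 + C)
        linarith
    · rw [Set.Finite.mem_toFinset]
      intro j
      have hbd : ∀ a b : Γ, G j a ≤ R → G j b ≤ R → G j (a * b⁻¹) ≤ B := by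
        intro a b ha hb
        have h1 := hC j a b⁻¹
        have h2 := hD j b
        have h3 : D * (G j b + 1) ≤ D * (R + 1) := mul_le_mul_of_nonneg_left (by linarith) hD0.le
        rw [hB]
        linarith
      by_cases hj : (⟨j⟩ : Idx J) ∈ A
      · have e : x₂ * x₁⁻¹ = y₂ * y₁⁻¹ := by
          have h1 : x₂ = y₂ * (x₂⁻¹ * y₂)⁻¹ := by group
          have h2 : x₁⁻¹ = (x₁⁻¹ * y₁) * y₁⁻¹ := by group
          rw [h1, h2, hxy]
          group
        rw [e]
        have k1 : j ≠ arg G y₁ := fun h3 => Set.disjoint_left.mp hd hj (by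
          rw [h3]; exact b1)
        have k2 : j ≠ arg G y₂ := fun h3 => Set.disjoint_left.mp hd hj (by
          rw [h3]; exact b2)
        exact hbd y₂ y₁ ((le_T2 h k2).trans f2) ((le_T2 h k1).trans f1)
      · have k1 : j ≠ arg G x₁ := fun h3 => hj (by rw [h3]; exact a1)
        have k2 : j ≠ arg G x₂ := fun h3 => hj (by rw [h3]; exact a2)
        exact hbd x₂ x₁ ((le_T2 h k2).trans e2) ((le_T2 h k1).trans e1)

end coords

section wall

variable {Γ D K J : Type} [Group Γ] [Fintype J] [DecidableEq J] [Nonempty J] [Group D]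
  [TopologicalSpace D] [NormedAddCommGroup K] [InnerProductSpace ℂ K] [CompleteSpace K]
  {mp : (Γ → ℝ) → (K →L[ℂ] K)} {Bd Bf : Set K} {ms : D → Set Γ → ℝ} {Br : ℝ → Set Γ}
  {G : J → Γ → ℝ} {W : Set (K →L[ℂ] K)} {Ω : K} {π : D →* (K →L[ℂ] K)}
  {lam : Γ →* (K →L[ℂ] K)} {b : D}

/-- the function `1` at one index -/
noncomputable def dl (j : J) : C(Idx J, ℂ) :=
  ⟨fun y => if y.ix = j then 1 else 0, continuous_of_discreteTopology⟩

theorem dl_apply (j : J) (y : Idx J) : dl j y = if y.ix = j then 1 else 0 := rfl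

theorem dl_mul (j : J) : dl j * dl j = (dl j : C(Idx J, ℂ)) := by
  ext y
  rw [ContinuousMap.mul_apply, dl_apply]
  split_ifs <;> simp

theorem dl_sum : ∑ j, dl j = (1 : C(Idx J, ℂ)) := by
  ext y
  rw [ContinuousMap.sum_apply, Finset.sum_eq_single y.ix]
  · rw [dl_apply, if_pos rfl]; rfl
  · intro j _ hj
    rw [dl_apply, if_neg (Ne.symm hj)]
  · intro h
    exact absurd (Finset.mem_univ _) h

theorem st_univ (h : Fn mp) : st mp Set.univ = 1 := h.prj.univ

/-- Fullness is automatic. -/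
theorem full_T {A : Subgroup D} (h : SysF mp (fun g => π g) Bd ms A Br (T1 G) (T2 G)) (l : Filter D) :
    Full (st mp) (fun g => π g) (T1 G) (T2 G) l := by
  intro ξ
  have e : {g : Γ | T2 G g ≤ T1 G g} = Set.univ := Set.eq_univ_of_forall fun g => T2_le g
  simp only [e, H859.CL.P_univ h.sys.prj h.sys.rep]
  exact tendsto_const_nhds

/-- The calculus at the idempotent of one coordinate. -/
theorem PC_dl (h : Fn mp) (w : D) (j : J) :
    PC mp (fun g => π g) w (cfc (T1 G) (T2 G) (argI G) (dl j)) =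
      P (st mp) (fun g => π g) w {γ | arg G γ = j} := by
  have e : cfc (T1 G) (T2 G) (argI G) (dl j) =
      fun g => ((ind (fun g => g ∈ {γ | arg G γ = j}) g : ℝ) : ℂ) := by
    funext g
    change (ind (fun g => T2 G g ≤ T1 G g) g : ℂ) * dl j (argI G g) = _
    rw [ind_pos (P := fun g => T2 G g ≤ T1 G g) (T2_le g), dl_apply]
    by_cases hg : arg G g = j
    · rw [if_pos (show (argI G g).ix = j from hg),
        ind_pos (P := fun g => g ∈ {γ | arg G γ = j}) hg]
      simp
    · rw [if_neg (show ¬ (argI G g).ix = j from hg),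
        ind_neg (P := fun g => g ∈ {γ | arg G γ = j}) hg]
      simp
  rw [e, H859.CL.PC_real h]
  rfl

/-- **One direction**: along the powers of `b` one coordinate takes all the mass. -/
theorem one_dir (hP : Pic π lam W Ω) (hG : Coords Br G)
    (h : SysF mp (fun g => π g) Bd ms (Subgroup.zpowers b) Br (T1 G) (T2 G))
    (hL : Leg mp (fun g => π g) (fun γ => lam γ) W) (hS : Slow mp (fun g => π g) Bd)
    (hloc : Loc2 mp (fun g => π g) Bd Bf)
    (he : Esc (st mp) (fun g => π g) Bd (Subgroup.zpowers b) (pw b))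
    (hM : Moore (Ctr b ∪ Cen b)) :
    ∃ j : J, ∀ ξ, Tendsto (fun w => P (st mp) (fun g => π g) w {γ | arg G γ = j} ξ) (pw b) (𝓝 ξ) := by
  obtain ⟨β, hβ⟩ := engine h hL (geoF_arg hG) hS (fun g ξ hξ => tendsto_pw.1 (he.esc g ξ hξ))
    (H43.N.lu1_cn h hloc (FF_fin hG) he) (full_T h _)
  have hlam : ∀ γ : Γ, lam γ⁻¹ * lam γ = 1 := fun γ => by
    rw [← map_mul, inv_mul_cancel, map_one]
  have hscal : ∀ j : J, ∃ z : ℂ, β (dl j) = z • (1 : K →L[ℂ] K) := by
    intro j
    refine hP.erg _ hM _ (fun w hw => (hβ.cm w hw _).symm) (fun γ => ?_) fun g hg => ?_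
    · have h1 := hβ.cov γ (dl j) (dl j) fun y => rfl
      calc β (dl j) * lam γ = (lam γ * β (dl j) * lam γ⁻¹) * lam γ := by rw [h1]
        _ = lam γ * β (dl j) * (lam γ⁻¹ * lam γ) := by simp only [mul_assoc]
        _ = _ := by rw [hlam, mul_one]
    · rcases hg with hg | hg
      · exact (hβ.contr g hg _).symm
      · exact (hβ.cent g (show Commute b g from hg) _).symm
  choose z hz using hscal
  have hΩ : Ω ≠ 0 := by
    intro h0
    have := hP.nΩ
    rw [h0, norm_zero] at this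
    exact zero_ne_one this
  have hz01 : ∀ j, z j = 0 ∨ z j = 1 := by
    intro j
    have h1 : β (dl j) * β (dl j) = β (dl j) := by rw [← map_mul, dl_mul]
    rw [hz] at h1
    have h2 := congrArg (fun T : K →L[ℂ] K => T Ω) h1
    simp only [smul_mul_smul_comm, mul_one, ContinuousLinearMap.smul_apply,
      ContinuousLinearMap.one_apply] at h2
    have h3 : (z j * z j - z j) • Ω = 0 := by rw [sub_smul, h2, sub_self]
    rcases smul_eq_zero.mp h3 with h4 | h4
    · have h5 : z j * (z j - 1) = 0 := by linear_combination h4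
      rcases mul_eq_zero.mp h5 with h6 | h6
      · exact Or.inl h6
      · exact Or.inr (sub_eq_zero.mp h6)
    · exact absurd h4 hΩ
  have hex : ∃ j, z j = 1 := by
    by_contra hcon
    push Not at hcon
    have h0 : ∀ j, z j = 0 := fun j => (hz01 j).resolve_right (hcon j)
    have h1 : β (∑ j, dl j) = 0 := by
      rw [map_sum]
      exact Finset.sum_eq_zero fun j _ => by rw [hz, h0, zero_smul]
    rw [dl_sum, map_one] at h1
    have h2 := congrArg (fun T : K →L[ℂ] K => T Ω) h1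
    exact hΩ h2
  obtain ⟨j, hj⟩ := hex
  refine ⟨j, fun ξ => ?_⟩
  have h1 := hβ.lim (dl j) ξ
  rw [hz, hj, one_smul] at h1
  refine h1.congr fun w => ?_
  rw [PC_dl h.fn]

/-- The two directions choose the same coordinate. -/
theorem same_dir (hΩ : Ω ≠ 0) (hG : Coords Br G)
    (h : SysF mp (fun g => π g) Bd ms (Subgroup.zpowers b) Br (T1 G) (T2 G)) {l l' : Filter D}
    [l.NeBot] [l'.NeBot]
    (he : Esc (st mp) (fun g => π g) Bd (Subgroup.zpowers b) l)
    (he' : Esc (st mp) (fun g => π g) Bd (Subgroup.zpowers b) l') {j j' : J}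
    (hj : Tendsto (fun w => P (st mp) (fun g => π g) w {γ | arg G γ = j} Ω) l (𝓝 Ω))
    (hj' : Tendsto (fun w => P (st mp) (fun g => π g) w {γ | arg G γ = j'} Ω) l' (𝓝 Ω)) :
    j = j' := by
  by_contra hne
  have hd : Disjoint (tsupport (dl j : C(Idx J, ℂ))) (tsupport (dl j' : C(Idx J, ℂ))) := by
    have e : ∀ i : J, tsupport (dl i : C(Idx J, ℂ)) ⊆ {y | y.ix = i} := by
      intro i
      refine closure_minimal (fun y hy => ?_) (isClosed_discrete _)
      by_contra hc
      exact hy (if_neg hc)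
    exact Set.disjoint_of_subset (e j) (e j') (Set.disjoint_left.mpr fun y h1 h2 => hne (by
      rw [← show y.ix = j from h1, ← show y.ix = j' from h2]))
  have h1 := H859.CN.sep_cplx h (geoF_arg hG) he he' (dl j) (dl j') hd Ω Ω
  have h2 := (hj.comp (tendsto_fst (f := l) (g := l'))).inner (𝕜 := ℂ)
    (hj'.comp (tendsto_snd (f := l) (g := l')))
  have h3 := tendsto_nhds_unique (h2.congr fun p => by
    simp only [Function.comp_apply]
    rw [← PC_dl h.fn, ← PC_dl h.fn]
    rfl) h1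
  exact hΩ (inner_self_eq_zero.mp h3)

/-- **(T1) One wall, one coordinate**: all the other coordinates stay bounded, uniformly. -/
theorem one_wall (S : SrcE b π lam W Ω mp Bd Bf) (hG : Coords Br G)
    (h : SysF mp (fun g => π g) Bd ms (Subgroup.zpowers b) Br (T1 G) (T2 G))
    (hM : Moore (Ctr b ∪ Cen b)) (hM' : Moore (Ctr b⁻¹ ∪ Cen b))
    (hfin : ∀ ξ, ∀ ε : ℝ, 0 < ε → ∃ F : Finset Γ, ‖st mp ((F : Set Γ))ᶜ ξ‖ ≤ ε) :
    ∃ j : J, ∀ ξ, ∀ ε : ℝ, 0 < ε → ∃ r : ℝ, ∀ w ∈ Subgroup.zpowers b,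
      ‖st mp {γ | ∃ i, i ≠ j ∧ r < G i γ} (π w ξ)‖ ≤ ε := by
  classical
  have hΩ : Ω ≠ 0 := by
    intro h0
    have := S.pic.nΩ
    rw [h0, norm_zero] at this
    exact zero_ne_one this
  have hz : Subgroup.zpowers b⁻¹ = Subgroup.zpowers b := Subgroup.zpowers_inv
  have hCen : Cen b⁻¹ = Cen b := by
    ext v
    exact ⟨fun hv => by
      have := (show Commute b⁻¹ v from hv).inv_left
      rwa [inv_inv] at this, fun hv => (show Commute b v from hv).inv_left⟩
  obtain ⟨j, hj⟩ := one_dir S.pic hG h S.leg S.slow S.loc S.esc1 hM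
  obtain ⟨j', hj'⟩ := one_dir (b := b⁻¹) S.pic hG (h.mono hz.le) S.leg S.slow S.loc
    (by rw [hz]; exact S.esc2) (by rw [hCen]; exact hM')
  obtain rfl := same_dir hΩ hG h S.esc1 S.esc2 (hj Ω) (hj' Ω)
  refine ⟨j, fun ξ ε hε => ?_⟩
  have hprj : Prj (st mp) := h.sys.prj
  have h1 : (fun g => π g : D → (K →L[ℂ] K)) 1 = 1 := map_one π
  -- one direction
  have key : ∀ l : Filter D, Esc (st mp) (fun g => π g) Bd (Subgroup.zpowers b) l →
      (∀ ξ, Tendsto (fun w => P (st mp) (fun g => π g) w {γ | arg G γ = j} ξ) l (𝓝 ξ)) →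
      ∃ r : ℝ, ∀ᶠ w in l, ‖st mp {γ | ∃ i, i ≠ j ∧ r < G i γ} (π w ξ)‖ ≤ ε := by
    intro l he hl
    obtain ⟨r, hr⟩ := tail_small h h1 he (full_T h l) ξ (ε := ε / 2) (by positivity)
    refine ⟨r, ?_⟩
    have h2 : Tendsto (fun w => ‖st mp {γ | arg G γ = j}ᶜ (π w ξ)‖) l (𝓝 0) := by
      have h4 := (tendsto_iff_norm_sub_tendsto_zero.mp (hl ξ))
      refine (h4.congr fun w => ?_)
      have e1 : P (st mp) (fun g => π g) w {γ | arg G γ = j} ξ - ξ =
          - π w⁻¹ (st mp {γ | arg G γ = j}ᶜ (π w ξ)) := by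
        rw [hprj.compl, P_ap, sub_apply, map_sub]
        have e2 : π w⁻¹ ((1 : K →L[ℂ] K) (π w ξ)) = ξ := by
          change (π w⁻¹ * π w) ξ = ξ
          rw [← map_mul, inv_mul_cancel, map_one]; rfl
        rw [e2]; abel
      have e3 : ∀ x, ‖π w⁻¹ x‖ = ‖x‖ := fun x => by
        have := h.sys.rep.norm_eq w⁻¹ x
        change ‖π w⁻¹ x‖ = ‖π 1 x‖ at this
        rw [this, map_one]; rfl
      rw [e1, norm_neg, e3]
    filter_upwards [hr, (Metric.tendsto_nhds.mp h2) (ε / 2) (half_pos hε)] with w hw hw2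
    rw [dist_zero_right, norm_norm] at hw2
    have h4 : {γ : Γ | ∃ i, i ≠ j ∧ r < G i γ} ⊆ {g | r < T2 G g} ∪ {γ | arg G γ = j}ᶜ := by
      rintro γ ⟨i, hi, hi2⟩
      by_cases hg : arg G γ = j
      · left
        exact hi2.trans_le (le_T2 hG (by rw [hg]; exact hi))
      · right; exact hg
    have h5 := hprj.mono h4 (π w ξ)
    have h6 := hprj.norm_union_le {g | r < T2 G g} {γ | arg G γ = j}ᶜ (π w ξ)
    linarith
  obtain ⟨r1, hr1⟩ := key _ S.esc1 hj
  obtain ⟨r2, hr2⟩ := key _ S.esc2 hj'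
  rw [pw, eventually_map, eventually_atTop] at hr1 hr2
  obtain ⟨N1, hN1⟩ := hr1
  obtain ⟨N2, hN2⟩ := hr2
  -- the finitely many remaining powers
  choose F hF using fun w : D => hfin (π w ξ) ε hε
  obtain ⟨r3, hr3⟩ : ∃ r3 : ℝ, ∀ w ∈ (Finset.range N1).image (fun n : ℕ => b ^ n) ∪
      (Finset.range N2).image (fun n : ℕ => b⁻¹ ^ n), ∀ γ ∈ F w, ∀ i, G i γ ≤ r3 := by
    refine ⟨∑ w ∈ (Finset.range N1).image (fun n : ℕ => b ^ n) ∪
      (Finset.range N2).image (fun n : ℕ => b⁻¹ ^ n), ∑ γ ∈ F w, ∑ i, G i γ,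
      fun w hw γ hγ i => ?_⟩
    refine le_trans ?_ (Finset.single_le_sum (f := fun w => ∑ γ ∈ F w, ∑ i, G i γ)
      (fun w _ => Finset.sum_nonneg fun γ _ => Finset.sum_nonneg fun i _ => hG.nonneg i γ) hw)
    refine le_trans ?_ (Finset.single_le_sum (f := fun γ => ∑ i, G i γ)
      (fun γ _ => Finset.sum_nonneg fun i _ => hG.nonneg i γ) hγ)
    exact Finset.single_le_sum (f := fun i => G i γ) (fun i _ => hG.nonneg i γ)
      (Finset.mem_univ i)
  refine ⟨max r3 (max r1 r2), fun w hw => ?_⟩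
  have mono : ∀ r, r ≤ max r3 (max r1 r2) → {γ : Γ | ∃ i, i ≠ j ∧ max r3 (max r1 r2) < G i γ} ⊆
      {γ | ∃ i, i ≠ j ∧ r < G i γ} := fun r hr γ ⟨i, hi, hi2⟩ => ⟨i, hi, hr.trans_lt hi2⟩
  have fin1 : w ∈ (Finset.range N1).image (fun n : ℕ => b ^ n) ∪
      (Finset.range N2).image (fun n : ℕ => b⁻¹ ^ n) →
      ‖st mp {γ | ∃ i, i ≠ j ∧ max r3 (max r1 r2) < G i γ} (π w ξ)‖ ≤ ε := by
    intro hw
    refine (hprj.mono ?_ _).trans (hF w)
    rintro γ ⟨i, hi, hi2⟩ hγ
    have := hr3 w hw γ hγ i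
    exact absurd ((le_max_left r3 _).trans_lt hi2) (not_lt.mpr this)
  obtain ⟨n, rfl⟩ := Subgroup.mem_zpowers_iff.mp hw
  rcases Int.eq_nat_or_neg n with ⟨m, rfl | rfl⟩
  · by_cases hm : m < N1
    · refine fin1 (Finset.mem_union_left _ (Finset.mem_image.mpr ⟨m, Finset.mem_range.mpr hm, ?_⟩))
      simp
    · push Not at hm
      have h2 := hN1 m hm
      rw [zpow_natCast]
      exact (hprj.mono (mono r1 ((le_max_left _ _).trans (le_max_right _ _))) _).trans h2
  · by_cases hm : m < N2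
    · refine fin1 (Finset.mem_union_right _ (Finset.mem_image.mpr ⟨m, Finset.mem_range.mpr hm, ?_⟩))
      simp
    · push Not at hm
      have h2 := hN2 m hm
      rw [zpow_neg, zpow_natCast, ← inv_pow]
      exact (hprj.mono (mono r2 ((le_max_right _ _).trans (le_max_right _ _))) _).trans h2

end wall

end Vale.Agent.P092.H515.Tau
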