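import Vale.Agent.P092.H515.TauS
import Vale.Agent.P092.H515.TauF
import Vale.Agent.P092.H337.NGh
import Vale.Agent.P092.H303.Form
import Vale.Agent.P092.H35.Spg

/-!
P092 (helper515), Team N, [P-TAU]: the whole factor is tight. If the powers of the wall element of
the source factor `i` are tight off the target coordinate `j`, the whole factor `ι_i(SL_n(k))` is
tight off `j`, and so is the product of all factors with the same `j`.
-/

set_option linter.all false

open scoped InnerProductSpace ENNReal Pointwise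
open Filter Topology ContinuousLinearMap MeasureTheory TopologicalSpace

namespace Vale.Agent.P092.H515.Tau

open Vale.Agent.P092.RC (Cm TRN Moore GG PG YY y0 ct Pic)
open Vale.Agent.P092.SD (Ms)
open Vale.Agent.P092.SN (PH nm bw)
open Vale.Agent.P092.H337.NG (en Lg Lg_inv Lg_mul Lg_ge Lg_le log_le_Lg cst Eqv en_pos)

/-! ### More calculus of tight sets -/

section calcu

variable {E Γ K H : Type} [Group E] [TopologicalSpace E] [Group Γ] [NormedAddCommGroup K]
  [InnerProductSpace ℂ K] [CompleteSpace K] {π : E →* (K →L[ℂ] K)} {lam : Γ →* (K →L[ℂ] K)}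
  {W : Set (K →L[ℂ] K)} {Ω : K} {m : Set Γ → (K →L[ℂ] K)} [Group H] [TopologicalSpace H]
  {κ : Γ →* H} [Countable Γ] [IsTopologicalGroup H] [LocallyCompactSpace H] [T2Space H]
  [SecondCountableTopology H]

theorem tgt_one (hP : Pic π lam W Ω) (hM : Ms lam W Ω m) : Tgt π m Ω κ (1 : Set E) :=
  tgt_finite hP hM κ Set.finite_one

/-- finite products -/
theorem tgt_list (hP : Pic π lam W Ω) (hM : Ms lam W Ω m) :
    ∀ l : List (Set E), (∀ 𝒰 ∈ l, Tgt π m Ω κ 𝒰) → Tgt π m Ω κ l.prod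
  | [], _ => tgt_one hP hM
  | 𝒰 :: l, h => by
    rw [List.prod_cons]
    exact (h 𝒰 (List.mem_cons_self ..)).mul hP hM
      (tgt_list hP hM l fun 𝒱 h𝒱 => h 𝒱 (List.mem_cons_of_mem _ h𝒱))

/-- translates of a tight set on both sides -/
theorem Tgt.conj (hP : Pic π lam W Ω) (hM : Ms lam W Ω m) {𝒰 : Set E} (h : Tgt π m Ω κ 𝒰)
    (g g' : E) : Tgt π m Ω κ ({g} * 𝒰 * {g'}) :=
  ((tgt_finite hP hM κ (Set.finite_singleton g)).mul hP hM h).mul hP hM
    (tgt_finite hP hM κ (Set.finite_singleton g'))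

/-- commuting subgroups -/
theorem tgt_closure {I : Type} (hP : Pic π lam W Ω) (hM : Ms lam W Ω m) (A : I → Subgroup E)
    (hA : ∀ i j, i ≠ j → ∀ x ∈ A i, ∀ y ∈ A j, Commute x y) (F : Finset I)
    (h : ∀ i ∈ F, Tgt π m Ω κ (A i : Set E)) :
    Tgt π m Ω κ (Subgroup.closure (⋃ i ∈ F, (A i : Set E)) : Set E) := by
  classical
  induction F using Finset.induction_on with
  | empty =>
    refine (tgt_one hP hM).mono ?_
    simp
  | insert a F ha ih =>
    have h1 := (h a (Finset.mem_insert_self a F)).mul hP hM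
      (ih fun i hi => h i (Finset.mem_insert_of_mem hi))
    refine h1.mono ?_
    obtain ⟨C, hC⟩ : ∃ C : Subgroup E, C = Subgroup.closure (⋃ i ∈ F, (A i : Set E)) := ⟨_, rfl⟩
    rw [← hC]
    have hcomm : ∀ x ∈ A a, ∀ y ∈ C, Commute x y := by
      intro x hx y hy
      have h2 : C ≤ Subgroup.centralizer {x} := by
        rw [hC, Subgroup.closure_le]
        intro z hz
        obtain ⟨i, hi, hz⟩ := Set.mem_iUnion₂.mp hz
        have hne : a ≠ i := fun e => ha (e ▸ hi)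
        rw [SetLike.mem_coe, Subgroup.mem_centralizer_singleton_iff]
        exact (hA a i hne x hx z hz).eq.symm
      exact (Subgroup.mem_centralizer_singleton_iff.mp (h2 hy)).symm
    have key : Subgroup.closure (⋃ i ∈ insert a F, (A i : Set E)) ≤
        { carrier := (A a : Set E) * (C : Set E)
          mul_mem' := by
            rintro _ _ ⟨x, hx, y, hy, rfl⟩ ⟨x', hx', y', hy', rfl⟩
            refine ⟨x * x', (A a).mul_mem hx hx', y * y', C.mul_mem hy hy', ?_⟩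
            change x * x' * (y * y') = x * y * (x' * y')
            have := (hcomm x' hx' y hy).eq
            calc x * x' * (y * y') = x * (x' * y) * y' := by simp only [mul_assoc]
              _ = x * (y * x') * y' := by rw [this]
              _ = _ := by simp only [mul_assoc]
          one_mem' := ⟨1, (A a).one_mem, 1, C.one_mem, one_mul 1⟩
          inv_mem' := by
            rintro _ ⟨x, hx, y, hy, rfl⟩
            refine ⟨x⁻¹, (A a).inv_mem hx, y⁻¹, C.inv_mem hy, ?_⟩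
            change x⁻¹ * y⁻¹ = (x * y)⁻¹
            rw [_root_.mul_inv_rev]
            exact ((hcomm x hx y hy).inv_inv).eq } := by
      rw [Subgroup.closure_le]
      intro z hz
      obtain ⟨i, hi, hzi⟩ := Set.mem_iUnion₂.mp hz
      rcases Finset.mem_insert.mp hi with rfl | hi
      · exact ⟨z, hzi, 1, C.one_mem, mul_one z⟩
      · refine ⟨1, (A a).one_mem, z, ?_, one_mul z⟩
        rw [hC]
        exact Subgroup.subset_closure (Set.mem_biUnion (Finset.mem_coe.mpr hi) hzi)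
    exact fun u hu => key hu

end calcu

/-! ### The coordinates -/

/-- `PSL_n(k)` -/
abbrev PS (n : ℕ) (k : Type) [NontriviallyNormedField k] : Type :=
  Matrix.SpecialLinearGroup (Fin n) k ⧸ Subgroup.center (Matrix.SpecialLinearGroup (Fin n) k)

section ps

variable (n : ℕ) (k : Type) [NontriviallyNormedField k]

theorem ps_t2 (hn : n ≠ 0) : T2Space (PS n k) := by
  haveI : IsClosed ((Subgroup.center (Matrix.SpecialLinearGroup (Fin n) k) :
      Subgroup (Matrix.SpecialLinearGroup (Fin n) k)) :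
        Set (Matrix.SpecialLinearGroup (Fin n) k)) := by
    refine Set.Finite.isClosed ((H35.sp_ker_finite (k := k) hn).subset fun g hg => ?_)
    obtain ⟨c, -, hc⟩ := Matrix.SpecialLinearGroup.mem_center_iff.mp hg
    exact H35.sp_one_iff.mpr ⟨c, by
      rw [← hc, Matrix.scalar_apply, ← Matrix.smul_one_eq_diagonal]⟩
  infer_instance

theorem ps_lc [ProperSpace k] : LocallyCompactSpace (PS n k) := by
  haveI : LocallyCompactSpace (Matrix.SpecialLinearGroup (Fin n) k) := H303.locallyCompact_SL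
  infer_instance

theorem ps_sc [ProperSpace k] : SecondCountableTopology (PS n k) := by
  haveI : SecondCountableTopology (Matrix.SpecialLinearGroup (Fin n) k) := H303.secondCountable_SL
  infer_instance

end ps

section coord

variable {J Γ : Type} [Fintype J] [DecidableEq J] {k : J → Type}
  [∀ j, NontriviallyNormedField (k j)] {N : J → ℕ} [Group Γ] {q : ∀ j, Γ → GG (k j) (N j)}

/-- The class of `q` in `PSL_n(k)`. -/
noncomputable def kq {k : Type} [NontriviallyNormedField k] {N : ℕ} {q : Γ → GG k N} (hq : PH q) :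
    Γ →* PS (N + 1) k :=
  MonoidHom.mk' (fun γ => (QuotientGroup.mk (q γ) : PS (N + 1) k)) fun x y => by
    obtain ⟨c, hc⟩ := hq x y
    rw [← QuotientGroup.mk_mul, QuotientGroup.eq, Subgroup.mem_center_iff]
    intro z
    have h0 : IsUnit c := by
      rw [isUnit_iff_ne_zero]
      rintro rfl
      have h1 := (q (x * y)).2
      rw [hc, zero_smul, Matrix.det_zero] at h1
      exact zero_ne_one h1
    obtain ⟨c', hc'⟩ : ∃ c' : k, c' * c = 1 := ⟨c⁻¹, inv_mul_cancel₀ h0.ne_zero⟩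
    have h2 : ((q (x * y))⁻¹ * (q x * q y)).1 = c' • (1 : Matrix (Fin (N + 1)) (Fin (N + 1)) k) := by
      have h3 : (q x * q y).1 = c' • (q (x * y)).1 := by
        rw [hc, smul_smul, hc', one_smul]
      change ((q (x * y))⁻¹).1 * (q x * q y).1 = _
      rw [h3, mul_smul_comm]
      congr 1
      exact congrArg Subtype.val (inv_mul_cancel (q (x * y)))
    apply Subtype.ext
    change z.1 * ((q (x * y))⁻¹ * (q x * q y)).1 = ((q (x * y))⁻¹ * (q x * q y)).1 * z.1
    rw [h2, mul_smul_comm, smul_mul_assoc, mul_one, one_mul]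

theorem kq_apply {k : Type} [NontriviallyNormedField k] {N : ℕ} {q : Γ → GG k N} (hq : PH q)
    (γ : Γ) : kq hq γ = (QuotientGroup.mk (q γ) : PS (N + 1) k) := rfl

/-- the size descends to `PSL_n(k)` -/
theorem nm_center {k : Type} [NontriviallyNormedField k] {N : ℕ} {g h : GG k N}
    (e : (QuotientGroup.mk g : PS (N + 1) k) = QuotientGroup.mk h) : nm g = nm h := by
  have h1 := QuotientGroup.eq.mp e
  rw [Matrix.SpecialLinearGroup.mem_center_iff] at h1
  obtain ⟨c, -, hc⟩ := h1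
  have h2 : Eqv h g := by
    refine ⟨c, ?_⟩
    have h3 : h.1 = g.1 * (g⁻¹ * h).1 := by
      have : h = g * (g⁻¹ * h) := by group
      exact congrArg Subtype.val this
    rw [h3, ← hc, Matrix.scalar_apply, ← Matrix.smul_one_eq_diagonal, mul_smul_comm, mul_one]
  exact h2.en_eq.symm

/-- the size on `PSL_n(k)` -/
noncomputable def nmP (k : Type) [NontriviallyNormedField k] (N : ℕ) (x : PS (N + 1) k) : ℝ :=
  Quotient.liftOn' x nm fun g h e => nm_center (Quotient.sound' e)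

theorem nmP_mk {k : Type} [NontriviallyNormedField k] {N : ℕ} (g : GG k N) :
    nmP k N (QuotientGroup.mk g) = nm g := rfl

theorem nm_cont {k : Type} [NontriviallyNormedField k] {N : ℕ} :
    Continuous (nm : GG k N → ℝ) := by
  unfold nm
  refine Continuous.norm ?_
  exact continuous_pi fun i => continuous_pi fun j =>
    (continuous_apply j).comp ((continuous_apply i).comp continuous_subtype_val)

theorem nmP_cont {k : Type} [NontriviallyNormedField k] {N : ℕ} : Continuous (nmP k N) :=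
  Continuous.quotient_liftOn' nm_cont _

/-- the coordinates different from `j` -/
noncomputable def kc (hq : ∀ j, PH (q j)) (j : J) : Γ →* ∀ i : {i // i ≠ j}, PS (N i + 1) (k i) :=
  MonoidHom.pi fun i => kq (hq i)

theorem kc_apply (hq : ∀ j, PH (q j)) (j : J) (γ : Γ) (i : {i // i ≠ j}) :
    kc hq j γ i = QuotientGroup.mk (q i γ) := rfl

variable {E K : Type} [Group E] [NormedAddCommGroup K] [InnerProductSpace ℂ K] [CompleteSpace K]
  [TopologicalSpace E] {lam : Γ →* (K →L[ℂ] K)} {W : Set (K →L[ℂ] K)}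
  {π : E →* (K →L[ℂ] K)} {Ω : K} {m : Set Γ → (K →L[ℂ] K)}

/-- **Tightness in the letters `nm`.** -/
theorem tgt_iff [∀ j, ProperSpace (k j)] (hM : Ms lam W Ω m) (hq : ∀ j, PH (q j)) (j : J)
    (𝒰 : Set E) : Tgt π m Ω (kc hq j) 𝒰 ↔ ∀ ε : ℝ, 0 < ε → ∃ r : ℝ, ∀ u ∈ 𝒰,
      ‖m {γ | ∃ i, i ≠ j ∧ r < nm (q i γ)} (π u Ω)‖ ≤ ε := by
  constructor
  · intro h ε hε
    obtain ⟨C, hC, h1⟩ := h ε hε
    have h2 : ∀ i : {i // i ≠ j}, ∃ r : ℝ, ∀ x ∈ C, nmP (k i) (N i) (x i) ≤ r := by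
      intro i
      obtain ⟨r, hr⟩ := (hC.image (nmP_cont.comp (continuous_apply i))).bddAbove
      exact ⟨r, fun x hx => hr ⟨x, hx, rfl⟩⟩
    choose r hr using h2
    refine ⟨∑ i, |r i|, fun u hu => (Ms.mono hM ?_ _).trans (h1 u hu)⟩
    rintro γ ⟨i, hi, hi2⟩ hγ
    have h3 := hr ⟨i, hi⟩ _ hγ
    rw [kc_apply, nmP_mk] at h3
    have h4 : r ⟨i, hi⟩ ≤ ∑ i, |r i| := (le_abs_self _).trans
      (Finset.single_le_sum (f := fun i => |r i|) (fun i _ => abs_nonneg _) (Finset.mem_univ _))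
    exact absurd hi2 (not_lt.mpr (h3.trans h4))
  · intro h ε hε
    obtain ⟨r, hr⟩ := h ε hε
    refine ⟨Set.pi Set.univ fun i : {i // i ≠ j} =>
      (QuotientGroup.mk : GG (k i) (N i) → PS (N i + 1) (k i)) '' {g | nm g ≤ r},
      isCompact_univ_pi fun i => (H35.isCompact_bdd r).image continuous_quotient_mk',
      fun u hu => (Ms.mono hM ?_ _).trans (hr u hu)⟩
    intro γ hγ
    by_contra hcon
    refine hγ fun i _ => ⟨q i γ, ?_, rfl⟩
    by_contra hlt
    exact hcon ⟨i.1, i.2, not_le.mp hlt⟩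

end coord

/-! ### The whole factor -/

section fac

/-- A Cartan decomposition with conjugates of powers of the wall element. -/
def KW {k : Type} [NontriviallyNormedField k] (N : ℕ) (w : kˣ) : Prop :=
  ∃ (s : Fin (N + 1) → GG k N) (C : Set (GG k N)), IsCompact C ∧
    ∀ g : GG k N, ∃ m : Fin (N + 1) → ℤ, ∃ c₁ ∈ C, ∃ c₂ ∈ C,
      g = c₁ * (List.ofFn fun p => s p * bw w ^ m p * (s p)⁻¹).prod * c₂

variable {E Γ K H : Type} [Group E] [TopologicalSpace E] [Group Γ] [NormedAddCommGroup K]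
  [InnerProductSpace ℂ K] [CompleteSpace K] {π : E →* (K →L[ℂ] K)} {lam : Γ →* (K →L[ℂ] K)}
  {W : Set (K →L[ℂ] K)} {Ω : K} {m : Set Γ → (K →L[ℂ] K)}

theorem tight_range [Group H] [TopologicalSpace H] {κ : Γ →* H} [Countable Γ]
    [IsTopologicalGroup H] [LocallyCompactSpace H] [T2Space H] [SecondCountableTopology H]
    (hP : Pic π lam W Ω) (hM : Ms lam W Ω m) {k : Type} [NontriviallyNormedField k] {N : ℕ}
    {w : kˣ} (hw : KW N w) {ι : GG k N →* E} (hι : Continuous ι)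
    (h : Tgt π m Ω κ (Subgroup.zpowers (ι (bw w)) : Set E)) : Tgt π m Ω κ (Set.range ι) := by
  obtain ⟨s, C, hC, hg⟩ := hw
  obtain ⟨F, hF⟩ : ∃ F : Fin (N + 1) → Set E, ∀ p, F p =
      {ι (s p)} * (Subgroup.zpowers (ι (bw w)) : Set E) * {ι (s p)⁻¹} := ⟨_, fun _ => rfl⟩
  have h1 : Tgt π m Ω κ (List.ofFn F).prod := by
    refine tgt_list hP hM _ fun 𝒰 h𝒰 => ?_
    obtain ⟨p, rfl⟩ := List.mem_ofFn.mp h𝒰
    rw [hF]
    exact h.conj hP hM _ _
  have h2 : Tgt π m Ω κ (ι '' C) := tgt_of_isCompact hP hM κ (hC.image hι)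
  refine ((h2.mul hP hM h1).mul hP hM h2).mono ?_
  rintro _ ⟨g, rfl⟩
  obtain ⟨n, c₁, hc₁, c₂, hc₂, e⟩ := hg g
  refine ⟨ι c₁ * ι (List.ofFn fun p => s p * bw w ^ n p * (s p)⁻¹).prod, ⟨ι c₁, ⟨c₁, hc₁, rfl⟩,
    _, ?_, rfl⟩, ι c₂, ⟨c₂, hc₂, rfl⟩, ?_⟩
  · rw [map_list_prod, List.map_ofFn]
    refine Set.mem_prod_list_ofFn.mpr ⟨fun p => ⟨ι (s p * bw w ^ n p * (s p)⁻¹), ?_⟩, rfl⟩
    rw [hF]
    refine ⟨ι (s p) * ι (bw w) ^ n p, ⟨ι (s p), rfl, ι (bw w) ^ n p, ⟨n p, rfl⟩, rfl⟩,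
      ι (s p)⁻¹, rfl, ?_⟩
    change ι (s p) * ι (bw w) ^ n p * ι (s p)⁻¹ = _
    rw [← map_zpow, ← map_mul, ← map_mul]
  · change ι c₁ * ι (List.ofFn fun p => s p * bw w ^ n p * (s p)⁻¹).prod * ι c₂ = ι g
    rw [← map_mul, ← map_mul, ← e]

variable {J I : Type} [Fintype J] [DecidableEq J] {k : J → Type}
  [∀ j, NontriviallyNormedField (k j)] [∀ j, ProperSpace (k j)] {N : J → ℕ} [Countable Γ]
  {q : ∀ j, Γ → GG (k j) (N j)} {k' : I → Type} [∀ i, NontriviallyNormedField (k' i)]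
  {N' : I → ℕ} {w : ∀ i, (k' i)ˣ} {ι : ∀ i, GG (k' i) (N' i) →* E}

/-- tightness off the coordinate `j`, in the letters `nm` -/
def NT (π : E →* (K →L[ℂ] K)) (m : Set Γ → (K →L[ℂ] K)) (Ω : K) (q : ∀ j, Γ → GG (k j) (N j))
    (j : J) (𝒰 : Set E) : Prop :=
  ∀ ε : ℝ, 0 < ε → ∃ r : ℝ, ∀ u ∈ 𝒰, ‖m {γ | ∃ i, i ≠ j ∧ r < nm (q i γ)} (π u Ω)‖ ≤ ε

/-- products of sets which are tight off `j` -/
theorem NT.mul (hP : Pic π lam W Ω) (hM : Ms lam W Ω m) (hq : ∀ j, PH (q j)) {j : J}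
    {𝒰 𝒱 : Set E} (h : NT π m Ω q j 𝒰) (h' : NT π m Ω q j 𝒱) : NT π m Ω q j (𝒰 * 𝒱) := by
  haveI : ∀ i : {i // i ≠ j}, T2Space (PS (N i + 1) (k i)) := fun i => ps_t2 _ _ (by omega)
  haveI : ∀ i : {i // i ≠ j}, LocallyCompactSpace (PS (N i + 1) (k i)) := fun i => ps_lc _ _
  haveI : ∀ i : {i // i ≠ j}, SecondCountableTopology (PS (N i + 1) (k i)) := fun i => ps_sc _ _
  exact (tgt_iff hM hq j _).mp
    (((tgt_iff hM hq j _).mpr h).mul hP hM ((tgt_iff hM hq j _).mpr h'))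

/-- compact sets are tight off `j` -/
theorem nt_compact (hP : Pic π lam W Ω) (hM : Ms lam W Ω m) (hq : ∀ j, PH (q j)) (j : J)
    {𝒰 : Set E} (h : IsCompact 𝒰) : NT π m Ω q j 𝒰 :=
  (tgt_iff hM hq j _).mp (tgt_of_isCompact hP hM (kc hq j) h)

/-- **The whole factor `i` is tight off the coordinate `τ i`.** -/
theorem tight_fac (hP : Pic π lam W Ω) (hM : Ms lam W Ω m) (hq : ∀ j, PH (q j)) {i : I}
    (hw : KW (N' i) (w i)) (hι : Continuous (ι i)) {j : J}
    (h : ∀ ε : ℝ, 0 < ε → ∃ r : ℝ, ∀ v ∈ Subgroup.zpowers (ι i (bw (w i))),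
      ‖m {γ | ∃ i', i' ≠ j ∧ r < nm (q i' γ)} (π v Ω)‖ ≤ ε) :
    ∀ ε : ℝ, 0 < ε → ∃ r : ℝ, ∀ g : GG (k' i) (N' i),
      ‖m {γ | ∃ i', i' ≠ j ∧ r < nm (q i' γ)} (π (ι i g) Ω)‖ ≤ ε := by
  haveI : ∀ i : {i // i ≠ j}, T2Space (PS (N i + 1) (k i)) := fun i => ps_t2 _ _ (by omega)
  haveI : ∀ i : {i // i ≠ j}, LocallyCompactSpace (PS (N i + 1) (k i)) := fun i => ps_lc _ _
  haveI : ∀ i : {i // i ≠ j}, SecondCountableTopology (PS (N i + 1) (k i)) := fun i => ps_sc _ _
  have h1 : Tgt π m Ω (kc hq j) (Subgroup.zpowers (ι i (bw (w i))) : Set E) :=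
    (tgt_iff hM hq j _).mpr h
  have h2 := (tgt_iff hM hq j _).mp (tight_range hP hM hw hι h1)
  intro ε hε
  obtain ⟨r, hr⟩ := h2 ε hε
  exact ⟨r, fun g => hr _ ⟨g, rfl⟩⟩

/-- **The product of all factors with the same coordinate is tight off this coordinate.** -/
theorem tight_fib [Fintype I] (hP : Pic π lam W Ω) (hM : Ms lam W Ω m) (hq : ∀ j, PH (q j))
    (hw : ∀ i, KW (N' i) (w i)) (hι : ∀ i, Continuous (ι i))
    (hcomm : ∀ i i', i ≠ i' → ∀ g h, Commute (ι i g) (ι i' h)) {τ : I → J}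
    (h : ∀ i, ∀ ε : ℝ, 0 < ε → ∃ r : ℝ, ∀ v ∈ Subgroup.zpowers (ι i (bw (w i))),
      ‖m {γ | ∃ j, j ≠ τ i ∧ r < nm (q j γ)} (π v Ω)‖ ≤ ε) (j : J) :
    ∀ ε : ℝ, 0 < ε → ∃ r : ℝ, ∀ u ∈ Subgroup.closure (⋃ i ∈ {i | τ i = j}, Set.range (ι i)),
      ‖m {γ | ∃ j', j' ≠ j ∧ r < nm (q j' γ)} (π u Ω)‖ ≤ ε := by
  classical
  haveI : ∀ i : {i // i ≠ j}, T2Space (PS (N i + 1) (k i)) := fun i => ps_t2 _ _ (by omega)
  haveI : ∀ i : {i // i ≠ j}, LocallyCompactSpace (PS (N i + 1) (k i)) := fun i => ps_lc _ _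
  haveI : ∀ i : {i // i ≠ j}, SecondCountableTopology (PS (N i + 1) (k i)) := fun i => ps_sc _ _
  have h1 := tgt_closure (κ := kc hq j) hP hM (fun i => (ι i).range)
    (fun i i' hne x hx y hy => by
      obtain ⟨g, rfl⟩ := hx
      obtain ⟨g', rfl⟩ := hy
      exact hcomm i i' hne g g') (Finset.univ.filter fun i => τ i = j) fun i hi => by
        obtain rfl := (Finset.mem_filter.mp hi).2
        rw [MonoidHom.coe_range]
        exact tight_range hP hM (hw i) (hι i) ((tgt_iff hM hq (τ i) _).mpr (h i))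
  have e : (⋃ i ∈ Finset.univ.filter fun i => τ i = j, (((ι i).range : Subgroup E) : Set E)) =
      ⋃ i ∈ {i | τ i = j}, Set.range (ι i) := by
    ext x
    simp
  rw [e] at h1
  exact (tgt_iff hM hq j _).mp h1

end fac

end Vale.Agent.P092.H515.Tau
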