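import Vale.Agent.P092.SD.Defs
import Vale.Agent.P092.H76.Form

/-!
P092 (helper515), Team N, [N-GAPB] for products: (sc'). If `S` is a Moore set of the factor `G` of
the source group `E`, every operator which commutes with `lam`, `W` and `π(ι S)` commutes with
`π(ι G)`.
-/

set_option linter.all false

open scoped InnerProductSpace ENNReal
open Filter Topology ContinuousLinearMap

namespace Vale.Agent.P092.H515.Tau

open Vale.Agent.P092.RC (Cm TRN Moore Pic)
open Vale.Agent.P092.SD (MM)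

section pre

variable {G K A : Type} [Group G] [TopologicalSpace G] [NormedAddCommGroup K]
  [InnerProductSpace ℂ K] [CompleteSpace K] [AddCommGroup A] [Module ℂ A]

/-- **The Moore property for isometric actions on a pre-Hilbert space.** -/
theorem moore_pre {S : Set G} (hS : Moore S) (j : A →ₗ[ℂ] K) (α : G → (A →ₗ[ℂ] A))
    (h1 : ∀ a, α 1 a = a) (hmul : ∀ g h a, α (g * h) a = α g (α h a))
    (hn : ∀ g a, ‖j (α g a)‖ = ‖j a‖) (hc : ∀ a, Continuous fun g => j (α g a)) (a : A)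
    (ha : ∀ g ∈ S, j (α g a) = j a) (g : G) : j (α g a) = j a := by
  obtain ⟨L, hL⟩ : ∃ L : Submodule ℂ K, L = (LinearMap.range j).topologicalClosure := ⟨_, rfl⟩
  have hLc : IsClosed (L : Set K) := by rw [hL]; exact Submodule.isClosed_topologicalClosure _
  haveI : CompleteSpace L := hLc.completeSpace_coe
  have hmem : ∀ a, j a ∈ L := fun a => by
    rw [hL]; exact Submodule.le_topologicalClosure _ (LinearMap.mem_range_self j a)
  have hcl : ∀ (P : K → Prop), IsClosed {x | P x} → (∀ a, P (j a)) → ∀ x ∈ L, P x := by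
    intro P hP hPa x hx
    rw [hL, ← SetLike.mem_coe, Submodule.topologicalClosure_coe] at hx
    exact closure_minimal (s := (LinearMap.range j : Set K)) (t := {x | P x})
      (by rintro _ ⟨a, rfl⟩; exact hPa a) hP hx
  choose T hT _ hT2 using fun g => H76.ext_dense j (j.comp (α g)) 1 zero_le_one fun a => by
    rw [one_mul]; exact (hn g a).le
  have hT' : ∀ g a, T g (j a) = j (α g a) := fun g a => hT g a
  have hTL : ∀ g, ∀ x ∈ L, T g x ∈ L := by
    intro g
    refine hcl (fun x => T g x ∈ L) (hLc.preimage (T g).continuous) fun a => ?_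
    rw [hT']; exact hmem _
  have hTn : ∀ g, ∀ x ∈ L, ‖T g x‖ = ‖x‖ := fun g =>
    hcl (fun x => ‖T g x‖ = ‖x‖) (isClosed_eq (T g).continuous.norm continuous_norm) fun a => by
      rw [hT', hn]
  have hT1 : ∀ x ∈ L, T 1 x = x :=
    hcl (fun x => T 1 x = x) (isClosed_eq (T 1).continuous continuous_id) fun a => by rw [hT', h1]
  have hTm : ∀ g h, ∀ x ∈ L, T (g * h) x = T g (T h x) := fun g h =>
    hcl (fun x => T (g * h) x = T g (T h x))
      (isClosed_eq (T (g * h)).continuous ((T g).continuous.comp (T h).continuous)) fun a => by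
        rw [hT', hT', hT', hmul]
  -- the representation on `L`
  obtain ⟨u0, hu0⟩ : ∃ u0 : G → (L →L[ℂ] L), ∀ g (x : L), ((u0 g x : L) : K) = T g x :=
    ⟨fun g => ((T g).comp L.subtypeL).codRestrict L fun x => hTL g x x.2, fun g x => rfl⟩
  obtain ⟨u, hu⟩ : ∃ u : G →* (L →L[ℂ] L), ∀ g (x : L), ((u g x : L) : K) = T g x :=
    ⟨{ toFun := u0
       map_one' := by
         ext x
         rw [hu0, hT1 x x.2]; rfl
       map_mul' := fun g h => by
         ext x
         rw [hu0, hTm g h x x.2]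
         change T g (T h x) = ((u0 g (u0 h x) : L) : K)
         rw [hu0, hu0] }, fun g x => hu0 g x⟩
  have hun : ∀ g (ξ : L), ‖u g ξ‖ = ‖ξ‖ := fun g ξ => by
    change ‖((u g ξ : L) : K)‖ = ‖(ξ : K)‖
    rw [hu, hTn g ξ ξ.2]
  have huc : ∀ ξ : L, Continuous fun g => u g ξ := by
    intro ξ
    rw [continuous_induced_rng]
    change Continuous fun g => ((u g ξ : L) : K)
    simp only [hu]
    rw [Metric.continuous_iff']
    intro g ε hε
    have hset : (L : Set K) = closure (LinearMap.range j : Set K) := by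
      rw [hL, Submodule.topologicalClosure_coe]
    have hξ : (ξ : K) ∈ closure (LinearMap.range j : Set K) := hset.subset ξ.2
    obtain ⟨_, ⟨a, rfl⟩, hd⟩ := Metric.mem_closure_iff.mp hξ (ε / 3) (by positivity)
    have hdn : ‖(ξ : K) - j a‖ < ε / 3 := by rwa [dist_eq_norm] at hd
    have hbd : ∀ h, ‖T h ξ - j (α h a)‖ < ε / 3 := fun h => by
      rw [← hT', ← map_sub, hTn h _ (L.sub_mem ξ.2 (hmem a))]
      exact hdn
    have hca := (Metric.continuous_iff'.mp (hc a)) g (ε / 3) (by positivity)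
    filter_upwards [hca] with h hh
    rw [dist_eq_norm] at hh ⊢
    have e : T h ξ - T g ξ = (T h ξ - j (α h a)) + (j (α h a) - j (α g a)) -
      (T g ξ - j (α g a)) := by abel
    rw [e]
    refine (norm_sub_le _ _).trans_lt ?_
    have h3 := norm_add_le (T h ξ - j (α h a)) (j (α h a) - j (α g a))
    have h4 := hbd h
    have h5 := hbd g
    linarith
  have h2 := hS L u hun huc ⟨j a, hmem a⟩ (fun g hg => by
    apply Subtype.ext
    rw [hu, hT']
    exact ha g hg) g
  have h3 := congrArg (fun x : L => (x : K)) h2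
  simp only [hu, hT'] at h3
  exact h3

end pre

section sc

variable {E G Γ K : Type} [Group E] [TopologicalSpace E] [Group G] [TopologicalSpace G] [Group Γ]
  [NormedAddCommGroup K] [InnerProductSpace ℂ K] [CompleteSpace K] {π : E →* (K →L[ℂ] K)}
  {lam : Γ →* (K →L[ℂ] K)} {W : Set (K →L[ℂ] K)} {Ω : K}

theorem pi_nrm (hP : Pic π lam W Ω) (g : E) (ξ : K) : ‖π g ξ‖ = ‖ξ‖ := by
  have h1 : ⟪π g ξ, π g ξ⟫_ℂ = ⟪ξ, ξ⟫_ℂ := by
    rw [← adjoint_inner_right, hP.adjP, ← ContinuousLinearMap.mul_apply, ← map_mul,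
      inv_mul_cancel, map_one]
    rfl
  rw [inner_self_eq_norm_sq_to_K, inner_self_eq_norm_sq_to_K] at h1
  have h2 : ‖π g ξ‖ ^ 2 = ‖ξ‖ ^ 2 := by exact_mod_cast h1
  exact (pow_left_inj₀ (norm_nonneg _) (norm_nonneg _) two_ne_zero).1 h2

/-- **(sc') for a factor.** -/
theorem sc_fac [IsTopologicalGroup G] (hP : Pic π lam W Ω)
    (htv : ∀ Y ∈ MM lam W, ∀ h : E, ⟪π h Ω, Y (π h Ω)⟫_ℂ = ⟪Ω, Y Ω⟫_ℂ)
    {ι : G →* E} (hι : Continuous ι) {S : Set G} (hS : Moore S) {T : K →L[ℂ] K}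
    (hT : Cm W T) (hl : ∀ γ, T * lam γ = lam γ * T)
    (hc : ∀ g ∈ S, T * π (ι g) = π (ι g) * T) (g : G) : T * π (ι g) = π (ι g) * T := by
  have hinv : ∀ g : E, π g * π g⁻¹ = 1 := fun g => by rw [← map_mul, mul_inv_cancel, map_one]
  have hinv' : ∀ g : E, π g⁻¹ * π g = 1 := fun g => by rw [← map_mul, inv_mul_cancel, map_one]
  -- the algebra
  obtain ⟨A, hA⟩ : ∃ A : Submodule ℂ (K →L[ℂ] K), ∀ T, T ∈ A ↔ T ∈ MM lam W := by
    refine ⟨{ carrier := MM lam W
              add_mem' := ?_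
              zero_mem' := ?_
              smul_mem' := ?_ }, fun T => Iff.rfl⟩
    · rintro X Y ⟨h1, h2⟩ ⟨h3, h4⟩
      exact ⟨fun w hw => by rw [add_mul, mul_add, h1 w hw, h3 w hw],
        fun γ => by rw [add_mul, mul_add, h2, h4]⟩
    · exact ⟨fun w hw => by rw [zero_mul, mul_zero], fun γ => by rw [zero_mul, mul_zero]⟩
    · rintro c X ⟨h1, h2⟩
      exact ⟨fun w hw => by rw [smul_mul_assoc, mul_smul_comm, h1 w hw],
        fun γ => by rw [smul_mul_assoc, mul_smul_comm, h2]⟩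
  have hconj : ∀ (e : E) (X : K →L[ℂ] K), X ∈ A → π e * X * π e⁻¹ ∈ A := by
    intro e X hX
    rw [hA] at hX ⊢
    refine ⟨fun w hw => ?_, fun γ => ?_⟩
    · have h1 := hX.1 (π e⁻¹ * w * π e) (by
        have := hP.WP w hw e⁻¹
        rwa [inv_inv] at this)
      have h1 : X * (π e⁻¹ * w * π e) = (π e⁻¹ * w * π e) * X := h1
      calc π e * X * π e⁻¹ * w = π e * X * π e⁻¹ * w * (π e * π e⁻¹) := by rw [hinv, mul_one]
        _ = π e * (X * (π e⁻¹ * w * π e)) * π e⁻¹ := by simp only [mul_assoc]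
        _ = π e * ((π e⁻¹ * w * π e) * X) * π e⁻¹ := by rw [h1]
        _ = (π e * π e⁻¹) * w * (π e * X * π e⁻¹) := by simp only [mul_assoc]
        _ = _ := by rw [hinv, one_mul]
    · have h1 := hX.2 γ
      have c1 := hP.comm e γ
      have c2 := hP.comm e⁻¹ γ
      calc π e * X * π e⁻¹ * lam γ = π e * (X * lam γ) * π e⁻¹ := by
            rw [mul_assoc, c2]; simp only [mul_assoc]
        _ = (π e * lam γ) * X * π e⁻¹ := by rw [h1]; simp only [mul_assoc]
        _ = lam γ * (π e * X * π e⁻¹) := by rw [c1]; simp only [mul_assoc]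
  have hadj : ∀ X ∈ A, adjoint X * X ∈ A := by
    intro X hX
    rw [hA] at hX ⊢
    have hX' : ∀ w ∈ W, adjoint X * w = w * adjoint X := fun w hw => by
      have h1 := hX.1 (adjoint w) (hP.Wadj w hw)
      have h2 := congrArg (fun T : K →L[ℂ] K => star T) h1
      simp only [star_mul, star_eq_adjoint, adjoint_adjoint] at h2
      exact h2.symm
    have hX2 : ∀ γ, adjoint X * lam γ = lam γ * adjoint X := fun γ => by
      have h1 := hX.2 γ⁻¹
      have h2 := congrArg (fun T : K →L[ℂ] K => star T) h1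
      simp only [star_mul, star_eq_adjoint, hP.adjL, inv_inv] at h2
      exact h2.symm
    refine ⟨fun w hw => ?_, fun γ => ?_⟩
    · rw [mul_assoc, hX.1 w hw, ← mul_assoc, hX' w hw, mul_assoc]
    · rw [mul_assoc, hX.2 γ, ← mul_assoc, hX2 γ, mul_assoc]
  obtain ⟨j, hj⟩ : ∃ j : A →ₗ[ℂ] K, ∀ X : A, j X = (X : K →L[ℂ] K) Ω :=
    ⟨{ toFun := fun X => (X : K →L[ℂ] K) Ω
       map_add' := fun X Y => rfl
       map_smul' := fun c X => rfl }, fun X => rfl⟩
  obtain ⟨α, hα⟩ : ∃ α : G → (A →ₗ[ℂ] A), ∀ g (X : A),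
      ((α g X : A) : K →L[ℂ] K) = π (ι g) * X * π (ι g)⁻¹ :=
    ⟨fun g => { toFun := fun X => ⟨π (ι g) * X * π (ι g)⁻¹, hconj _ _ X.2⟩
                map_add' := fun X Y => Subtype.ext (by
                  change π (ι g) * ((X : K →L[ℂ] K) + Y) * π (ι g)⁻¹ = _
                  rw [mul_add, add_mul]; rfl)
                map_smul' := fun c X => Subtype.ext (by
                  change π (ι g) * (c • (X : K →L[ℂ] K)) * π (ι g)⁻¹ = _
                  rw [mul_smul_comm, smul_mul_assoc]; rfl) }, fun g X => rfl⟩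
  have hTA : T ∈ A := (hA T).mpr ⟨hT, hl⟩
  have key := moore_pre hS j α (fun X => Subtype.ext (by
      rw [hα, map_one, map_one, inv_one, map_one, one_mul, mul_one]))
    (fun g h X => Subtype.ext (by
      rw [hα, hα, hα, map_mul, mul_inv_rev, map_mul, map_mul]
      simp only [mul_assoc]))
    (fun g X => by
      rw [hj, hj, hα]
      have h1 := htv _ ((hA _).mp (hadj X X.2)) (ι g)⁻¹
      have h2 : ‖(X : K →L[ℂ] K) (π (ι g)⁻¹ Ω)‖ = ‖(X : K →L[ℂ] K) Ω‖ := by
        have e : ∀ x : K, ⟪x, (adjoint (X : K →L[ℂ] K) * (X : K →L[ℂ] K)) x⟫_ℂ =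
            ((‖(X : K →L[ℂ] K) x‖ ^ 2 : ℝ) : ℂ) := fun x => by
          rw [ContinuousLinearMap.mul_apply, adjoint_inner_right, inner_self_eq_norm_sq_to_K]
          push_cast; rfl
        rw [e, e] at h1
        have h3 : ‖(X : K →L[ℂ] K) (π (ι g)⁻¹ Ω)‖ ^ 2 = ‖(X : K →L[ℂ] K) Ω‖ ^ 2 := by
          exact_mod_cast h1
        exact (pow_left_inj₀ (norm_nonneg _) (norm_nonneg _) two_ne_zero).1 h3
      rw [← h2]
      exact pi_nrm hP _ _)
    (fun X => by
      simp only [hj, hα]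
      have h1 : Continuous fun g : G => (X : K →L[ℂ] K) (π (ι g)⁻¹ Ω) := by
        refine (X : K →L[ℂ] K).continuous.comp ?_
        have h2 := (hP.contP Ω).comp (hι.comp continuous_inv)
        refine h2.congr fun g => ?_
        simp only [Function.comp_apply, map_inv]
      -- joint continuity
      rw [Metric.continuous_iff']
      intro g ε hε
      obtain ⟨x, hx⟩ : ∃ x, x = (X : K →L[ℂ] K) (π (ι g)⁻¹ Ω) := ⟨_, rfl⟩
      have h3 := (Metric.continuous_iff'.mp h1) g (ε / 2) (by positivity)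
      have h4 := (Metric.continuous_iff'.mp ((hP.contP x).comp hι)) g (ε / 2) (by positivity)
      filter_upwards [h3, h4] with h a1 a2
      rw [← hx, dist_eq_norm] at a1
      simp only [Function.comp_apply, dist_eq_norm] at a2
      rw [dist_eq_norm]
      have e : (π (ι h) * (X : K →L[ℂ] K) * π (ι h)⁻¹) Ω - (π (ι g) * (X : K →L[ℂ] K) *
          π (ι g)⁻¹) Ω = π (ι h) ((X : K →L[ℂ] K) (π (ι h)⁻¹ Ω) - x) +
          (π (ι h) x - π (ι g) x) := by
        rw [map_sub, hx]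
        change π (ι h) ((X : K →L[ℂ] K) (π (ι h)⁻¹ Ω)) - π (ι g) ((X : K →L[ℂ] K)
          (π (ι g)⁻¹ Ω)) = _
        abel
      rw [e]
      refine (norm_add_le _ _).trans_lt ?_
      rw [pi_nrm hP]
      linarith) ⟨T, hTA⟩ (fun g hg => by
        rw [hj, hj, hα]
        congr 1
        change π (ι g) * T * π (ι g)⁻¹ = T
        rw [← hc g hg, mul_assoc, hinv, mul_one]) g
  rw [hj, hj, hα] at key
  -- `Ω` is separating
  obtain ⟨D, hD⟩ : ∃ D, D = π (ι g) * T * π (ι g)⁻¹ - T := ⟨_, rfl⟩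
  have hDA : D ∈ A := by rw [hD]; exact A.sub_mem (hconj _ _ hTA) hTA
  have hD0 : D Ω = 0 := by
    rw [hD, sub_apply]
    exact sub_eq_zero.mpr key
  have hD2 := (hA D).mp hDA
  have hDz : D = 0 := by
    refine hP.tr_zero D hD2.1 ?_
    rw [TRN, ENNReal.tsum_eq_zero]
    intro γ
    have h1 : D (lam γ Ω) = lam γ (D Ω) :=
      congrArg (fun T : K →L[ℂ] K => T Ω) (hD2.2 γ)
    rw [h1, hD0, map_zero, enorm_zero, zero_pow two_ne_zero]
  have h1 : π (ι g) * T * π (ι g)⁻¹ = T := by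
    rw [hD] at hDz
    exact sub_eq_zero.mp hDz
  calc T * π (ι g) = (π (ι g) * T * π (ι g)⁻¹) * π (ι g) := by rw [h1]
    _ = π (ι g) * T * (π (ι g)⁻¹ * π (ι g)) := by simp only [mul_assoc]
    _ = _ := by rw [hinv', mul_one]

/-- **(sc') in the letters of `H618.HMK.Sc`.** -/
theorem sc_fac' [IsTopologicalGroup G] (hP : Pic π lam W Ω)
    (htv : ∀ Y ∈ MM lam W, ∀ h : E, ⟪π h Ω, Y (π h Ω)⟫_ℂ = ⟪Ω, Y Ω⟫_ℂ)
    {ι : G →* E} (hι : Continuous ι) {S : Set G} (hS : Moore S) {ZZ : Set (K →L[ℂ] K)}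
    (hW : W ⊆ ZZ) (hZ : ∀ n ∈ S, π (ι n) ∈ ZZ) :
    ∀ T : K →L[ℂ] K, (∀ γ, T * lam γ = lam γ * T) → (∀ z ∈ ZZ, T * z = z * T) →
      ∀ g, T * π (ι g) = π (ι g) * T := fun T h1 h2 g =>
  sc_fac hP htv hι hS (fun w hw => h2 w (hW hw)) h1 (fun n hn => h2 _ (hZ n hn)) g

end sc

end Vale.Agent.P092.H515.Tau
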