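import Vale.Agent.P092.H515.SharpProd

/-!
P092 (helper515), block [LAT]: from the literal definition of a lattice (`IsLattice`: discrete,
nonzero finite invariant Borel measure on `E ⧸ Λ`) to Haar measure, fundamental domains and the
unfolding formula.
-/

set_option linter.all false

open MeasureTheory MeasureTheory.Measure Set Filter Topology
open scoped ENNReal NNReal Pointwise

namespace Vale.Agent.P092.H515

section main

variable {E : Type} [Group E] [TopologicalSpace E] [IsTopologicalGroup E] [LocallyCompactSpace E]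
  [SecondCountableTopology E] [T2Space E] [MeasurableSpace E] [BorelSpace E]
  (Λ : Subgroup E) [DiscreteTopology Λ] [MeasurableSpace (E ⧸ Λ)] [BorelSpace (E ⧸ Λ)]
  (ν : Measure (E ⧸ Λ)) [IsProbabilityMeasure ν] (hν : ∀ g : E, ν.map (fun x => g • x) = ν)

/-- The fundamental domain given by the section. -/
def fdom : Set E := {x | H85.sec Λ (x : E ⧸ Λ) = x}

theorem mk_meas : Measurable fun x : E => (x : E ⧸ Λ) :=
  (QuotientGroup.continuous_mk (N := Λ)).measurable

theorem fdom_meas : MeasurableSet (fdom Λ) :=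
  measurableSet_eq_fun ((H85.sec_meas Λ).comp (mk_meas Λ)) measurable_id

theorem mul_mem_fdom_iff (x : E) (v : Λ) : x * v ∈ fdom Λ ↔ (v : E) = x⁻¹ * H85.sec Λ (x : E ⧸ Λ) := by
  have h1 : ((x * (v : E) : E) : E ⧸ Λ) = (x : E ⧸ Λ) := QuotientGroup.mk_mul_of_mem x v.2
  rw [fdom, mem_setOf_eq, h1]
  constructor
  · intro h
    rw [h]; group
  · intro h
    rw [h]; group

theorem inv_mul_sec_mem (x : E) : x⁻¹ * H85.sec Λ (x : E ⧸ Λ) ∈ Λ :=
  QuotientGroup.eq.1 (H85.sec_coe Λ x).symm

theorem existsUnique_right (x : E) : ∃! v : Λ, x * v ∈ fdom Λ := by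
  refine ⟨⟨_, inv_mul_sec_mem Λ x⟩, ?_, fun v hv => ?_⟩
  · exact (mul_mem_fdom_iff Λ x _).2 rfl
  · exact Subtype.ext ((mul_mem_fdom_iff Λ x v).1 hv)

theorem existsUnique_left (x : E) : ∃! v : Λ, v * x ∈ (fdom Λ)⁻¹ := by
  obtain ⟨v, hv, hu⟩ := existsUnique_right Λ x⁻¹
  refine ⟨v⁻¹, ?_, fun w hw => ?_⟩
  · show ((v⁻¹ : Λ) * x)⁻¹ ∈ fdom Λ
    have e : (((v⁻¹ : Λ) : E) * x)⁻¹ = x⁻¹ * v := by
      rw [mul_inv_rev]; simp
    rw [e]; exact hv
  · have hw' : ((w : E) * x)⁻¹ ∈ fdom Λ := hw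
    have e : ((w : E) * x)⁻¹ = x⁻¹ * ((w⁻¹ : Λ) : E) := by
      rw [mul_inv_rev]; simp
    rw [e] at hw'
    have := hu _ hw'
    rw [← this, inv_inv]

/-- The unfolded measure. -/
noncomputable def unf : Measure E := Measure.sum fun v : Λ => ν.map fun x => H85.sec Λ x * v

theorem secmul_meas (v : Λ) : Measurable fun x : E ⧸ Λ => H85.sec Λ x * (v : E) :=
  (H85.sec_meas Λ).mul_const _

theorem countable_lat : Countable Λ := H790.countable_of_discrete Λ

theorem lintegral_unf {f : E → ℝ≥0∞} (hf : Measurable f) :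
    ∫⁻ x, f x ∂(unf Λ ν) = ∫⁻ x, ∑' v : Λ, f (H85.sec Λ x * v) ∂ν := by
  have := countable_lat Λ
  rw [unf, lintegral_sum_measure, lintegral_tsum]
  · exact tsum_congr fun v => lintegral_map hf (secmul_meas Λ v)
  · exact fun v => (hf.comp (secmul_meas Λ v)).aemeasurable

include hν in
theorem unf_left (g : E) : (unf Λ ν).map (g * ·) = unf Λ ν := by
  have := countable_lat Λ
  ext s hs
  have h1 : Measurable (s.indicator (1 : E → ℝ≥0∞)) := measurable_one.indicator hs
  have h2 : (unf Λ ν).map (g * ·) s = ∫⁻ x, s.indicator 1 (g * x) ∂(unf Λ ν) := by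
    rw [← lintegral_indicator_one hs, lintegral_map h1 (measurable_const_mul g)]
  rw [h2, ← lintegral_indicator_one hs, lintegral_unf Λ ν h1,
    lintegral_unf Λ ν (f := fun x => s.indicator 1 (g * x)) (h1.comp (measurable_const_mul g))]
  have h3 : ∀ x : E ⧸ Λ, ∑' v : Λ, s.indicator (1 : E → ℝ≥0∞) (g * (H85.sec Λ x * v)) =
      ∑' v : Λ, s.indicator (1 : E → ℝ≥0∞) (H85.sec Λ (g • x) * v) := by
    intro x
    rw [← (Equiv.mulLeft (H85.coc Λ g x)).tsum_eq (fun v : Λ =>
      s.indicator (1 : E → ℝ≥0∞) (H85.sec Λ (g • x) * v))]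
    refine tsum_congr fun v => ?_
    rw [Equiv.coe_mulLeft, Subgroup.coe_mul, ← mul_assoc, ← mul_assoc, H85.sec_mul_coc]
  have h4 : Measurable fun x : E ⧸ Λ => ∑' v : Λ, s.indicator (1 : E → ℝ≥0∞) (H85.sec Λ x * v) :=
    Measurable.ennreal_tsum fun v => h1.comp (secmul_meas Λ v)
  calc ∫⁻ x, ∑' v : Λ, s.indicator (1 : E → ℝ≥0∞) (g * (H85.sec Λ x * v)) ∂ν
      = ∫⁻ x, ∑' v : Λ, s.indicator (1 : E → ℝ≥0∞) (H85.sec Λ (g • x) * v) ∂ν :=
        lintegral_congr h3
    _ = ∫⁻ x, ∑' v : Λ, s.indicator (1 : E → ℝ≥0∞) (H85.sec Λ x * v)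
          ∂(ν.map fun x => g • x) := (lintegral_map h4 (H85.smul_meas Λ g)).symm
    _ = _ := by rw [hν g]

theorem unf_right (w : Λ) : (unf Λ ν).map (· * (w : E)) = unf Λ ν := by
  have := countable_lat Λ
  ext s hs
  have h1 : Measurable (s.indicator (1 : E → ℝ≥0∞)) := measurable_one.indicator hs
  have h2 : (unf Λ ν).map (· * (w : E)) s = ∫⁻ x, s.indicator 1 (x * w) ∂(unf Λ ν) := by
    rw [← lintegral_indicator_one hs, lintegral_map h1 (measurable_mul_const (w : E))]
  rw [h2, ← lintegral_indicator_one hs, lintegral_unf Λ ν h1,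
    lintegral_unf Λ ν (f := fun x => s.indicator 1 (x * (w : E)))
      (h1.comp (measurable_mul_const (w : E)))]
  refine lintegral_congr fun x => ?_
  rw [← (Equiv.mulRight w).tsum_eq (fun v : Λ =>
      s.indicator (1 : E → ℝ≥0∞) (H85.sec Λ x * v))]
  refine tsum_congr fun v => ?_
  simp only [Equiv.coe_mulRight, Subgroup.coe_mul, mul_assoc, Function.comp_apply]

theorem unf_fdom : unf Λ ν (fdom Λ) = 1 := by
  classical
  have := countable_lat Λ
  rw [← lintegral_indicator_one (fdom_meas Λ), lintegral_unf Λ ν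
    (measurable_one.indicator (fdom_meas Λ))]
  have h : ∀ x : E ⧸ Λ, ∑' v : Λ, (fdom Λ).indicator (1 : E → ℝ≥0∞) (H85.sec Λ x * v) = 1 := by
    intro x
    rw [tsum_eq_single (1 : Λ)]
    · have h1 : H85.sec Λ x * ((1 : Λ) : E) ∈ fdom Λ := by
        rw [mul_mem_fdom_iff, H85.sec_coe]; simp
      rw [indicator_of_mem h1]; rfl
    · intro v hv
      refine indicator_of_notMem (fun hm => hv ?_) _
      rw [mul_mem_fdom_iff, H85.sec_coe] at hm
      exact Subtype.ext (by rw [hm]; simp)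
  simp_rw [h]
  simp

theorem unf_compact {K : Set E} (hK : IsCompact K) : unf Λ ν K < ∞ := by
  classical
  have := countable_lat Λ
  have hfin : {v : Λ | (v : E) ∈ K⁻¹ * K}.Finite := finite_of_compact Λ (hK.inv.mul hK)
  have hKm := hK.isClosed.measurableSet
  rw [← lintegral_indicator_one hKm, lintegral_unf Λ ν (measurable_one.indicator hKm)]
  have h : ∀ x : E ⧸ Λ, ∑' v : Λ, K.indicator (1 : E → ℝ≥0∞) (H85.sec Λ x * v) ≤
      hfin.toFinset.card := by
    intro x
    by_cases hx : ∃ v0 : Λ, H85.sec Λ x * v0 ∈ K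
    · obtain ⟨v0, hv0⟩ := hx
      rw [← (Equiv.mulLeft v0).tsum_eq (fun v : Λ => K.indicator (1 : E → ℝ≥0∞)
        (H85.sec Λ x * v))]
      rw [tsum_eq_sum (s := hfin.toFinset)]
      · refine (Finset.sum_le_card_nsmul _ _ 1 fun v _ => ?_).trans (by simp)
        exact indicator_le' (fun _ _ => le_rfl) (fun _ _ => zero_le_one) _
      · intro v hv
        refine indicator_of_notMem (fun hm => hv ?_) _
        rw [hfin.mem_toFinset]
        refine ⟨(H85.sec Λ x * v0)⁻¹, by simpa using hv0, _, hm, ?_⟩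
        simp only [Equiv.coe_mulLeft, Subgroup.coe_mul]
        group
    · push Not at hx
      rw [ENNReal.tsum_eq_zero.2 fun v => indicator_of_notMem (hx v) _]
      exact zero_le
  refine (lintegral_mono h).trans_lt ?_
  rw [lintegral_const, measure_univ, mul_one]
  exact ENNReal.natCast_lt_top _

variable (μ : Measure E) [IsHaarMeasure μ]

include hν in
/-- The unfolded measure is a multiple of Haar measure. -/
theorem exists_unf_eq : ∃ c : ℝ≥0, 0 < c ∧ unf Λ ν = c • μ ∧ (c : ℝ≥0∞) * μ (fdom Λ) = 1 := by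
  have h1 : IsMulLeftInvariant (unf Λ ν) := ⟨fun g => unf_left Λ ν hν g⟩
  have h2 : IsFiniteMeasureOnCompacts (unf Λ ν) := ⟨fun K hK => unf_compact Λ ν hK⟩
  have h3 := isMulLeftInvariant_eq_smul (unf Λ ν) μ
  have h4 := unf_fdom Λ ν
  have h5 : (haarScalarFactor (unf Λ ν) μ : ℝ≥0∞) * μ (fdom Λ) = 1 := by
    rw [← h4]
    conv_rhs => rw [h3]
    rfl
  refine ⟨_, ?_, h3, h5⟩
  rw [pos_iff_ne_zero]
  intro h0
  rw [h0] at h5
  simp at h5

include hν in
theorem fdom_lt_top : μ (fdom Λ) < ∞ := by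
  obtain ⟨c, hc, _, h⟩ := exists_unf_eq Λ ν hν μ
  rw [lt_top_iff_ne_top]
  intro h0
  rw [h0, ENNReal.mul_top (by exact_mod_cast hc.ne')] at h
  exact ENNReal.top_ne_one h

include hν in
theorem fdom_pos : 0 < μ (fdom Λ) := by
  obtain ⟨c, hc, _, h⟩ := exists_unf_eq Λ ν hν μ
  rw [pos_iff_ne_zero]
  intro h0
  rw [h0, mul_zero] at h
  exact zero_ne_one h

include hν in
/-- **Unfolding.** -/
theorem unfold {f : E → ℝ≥0∞} (hf : Measurable f) :
    ∫⁻ x, f x ∂μ = μ (fdom Λ) * ∫⁻ x, ∑' v : Λ, f (H85.sec Λ x * v) ∂ν := by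
  obtain ⟨c, hc, h1, h⟩ := exists_unf_eq Λ ν hν μ
  rw [← lintegral_unf Λ ν hf, h1, lintegral_smul_measure, ENNReal.smul_def, smul_eq_mul]
  rw [← mul_assoc, mul_comm (μ (fdom Λ)), h, one_mul]

include hν in
/-- The modular character is trivial on `Λ`. -/
theorem modChar_lat (v : Λ) : modularCharacterFun (v : E) = 1 := by
  obtain ⟨μ, hμ⟩ : ∃ μ : Measure E, μ = haar := ⟨_, rfl⟩
  have hH : IsHaarMeasure μ := by rw [hμ]; infer_instance
  obtain ⟨c, hc, h1, h⟩ := exists_unf_eq Λ ν hν μ
  have h2 := unf_right Λ ν v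
  have h3 := map_right_mul_eq_modularCharacterFun_smul μ (v : E)
  have h4 : (unf Λ ν).map (· * (v : E)) (fdom Λ) = 1 := by rw [h2]; exact unf_fdom Λ ν
  rw [h1, Measure.map_smul, h3] at h4
  have h5 : (c : ℝ≥0∞) * ((modularCharacterFun (v : E) : ℝ≥0∞) * μ (fdom Λ)) = 1 := h4
  have h6 : (modularCharacterFun (v : E) : ℝ≥0∞) = 1 := by
    calc (modularCharacterFun (v : E) : ℝ≥0∞) =
        (modularCharacterFun (v : E) : ℝ≥0∞) * (c * μ (fdom Λ)) := by rw [h, mul_one]
      _ = c * ((modularCharacterFun (v : E) : ℝ≥0∞) * μ (fdom Λ)) := by ring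
      _ = 1 := h5
  exact_mod_cast h6

theorem modChar_meas : Measurable fun g : E => (modularCharacterFun g : ℝ≥0∞) := by
  obtain ⟨μ, hμ⟩ : ∃ μ : Measure E, μ = haar := ⟨_, rfl⟩
  have hH : IsHaarMeasure μ := by rw [hμ]; infer_instance
  obtain ⟨K⟩ : Nonempty (TopologicalSpace.PositiveCompacts E) := inferInstance
  have hK0 : μ K ≠ 0 := (measure_pos_of_nonempty_interior _ K.interior_nonempty).ne'
  have hKt : μ K ≠ ∞ := K.isCompact.measure_lt_top.ne
  have hKm : MeasurableSet (K : Set E) := K.isCompact.isClosed.measurableSet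
  have e : ∀ g : E, (modularCharacterFun g : ℝ≥0∞) =
      (∫⁻ x, (K : Set E).indicator 1 (x * g) ∂μ) / μ K := by
    intro g
    have h1 : ∫⁻ x, (K : Set E).indicator 1 (x * g) ∂μ = modularCharacterFun g * μ K := by
      rw [← lintegral_map (f := (K : Set E).indicator 1) (measurable_one.indicator hKm)
        (measurable_mul_const g), lintegral_indicator_one hKm,
        map_right_mul_eq_modularCharacterFun_smul μ g]
      rfl
    rw [h1, ENNReal.mul_div_cancel_right hK0 hKt]
  simp_rw [e]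
  refine Measurable.div_const ?_ _
  have h2 : Measurable fun p : E × E => (K : Set E).indicator (1 : E → ℝ≥0∞) (p.1 * p.2) :=
    (measurable_one.indicator hKm).comp measurable_mul
  exact h2.lintegral_prod_left'

theorem modChar_inv_eq (g : E) (h : modularCharacterFun g = 1) : modularCharacterFun g⁻¹ = 1 := by
  have h1 := modularCharacterFun_map_mul g g⁻¹
  rw [mul_inv_cancel, modularCharacterFun_map_one, h, one_mul] at h1
  exact h1.symm

include hν in
/-- **A group with a lattice is unimodular.** -/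
theorem modChar_eq_one (g : E) : modularCharacterFun g = 1 := by
  obtain ⟨D, hD⟩ : ∃ D : E → ℝ, D = fun g => (modularCharacterFun g : ℝ) := ⟨_, rfl⟩
  have hDe : ∀ g, D g = (modularCharacterFun g : ℝ) := fun g => by rw [hD]
  have hpos : ∀ g, 0 < D g := fun g => by
    rw [hDe]; exact_mod_cast modularCharacterFun_pos g
  have hmul : ∀ g h, D (g * h) = D g * D h := fun g h => by
    rw [hDe, hDe, hDe]; exact_mod_cast modularCharacterFun_map_mul g h
  have hone : ∀ v : Λ, D v = 1 := fun v => by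
    rw [hDe, modChar_lat Λ ν hν v]; rfl
  have hmeas : Measurable D := by
    have h1 : Measurable fun g : E => ((modularCharacterFun g : ℝ≥0∞)).toReal :=
      (modChar_meas (E := E)).ennreal_toReal
    rw [hD]
    exact h1
  -- the induced function on the quotient
  obtain ⟨H, hH⟩ : ∃ H : E ⧸ Λ → ℝ, H = fun x => D (H85.sec Λ x) := ⟨_, rfl⟩
  have hHm : Measurable H := by rw [hH]; exact hmeas.comp (H85.sec_meas Λ)
  have hHpos : ∀ x, 0 < H x := fun x => by rw [hH]; exact hpos _
  have hHmul : ∀ g x, H (g • x) = D g * H x := by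
    intro g x
    have h1 := H85.sec_mul_coc Λ g x
    have h2 := congrArg D h1
    rw [hmul, hmul, hone, mul_one] at h2
    rw [hH]
    exact h2
  -- it is enough to exclude `1 < D g`
  have key : ∀ g, ¬ 1 < D g := by
    intro g hg
    obtain ⟨φ, hφ⟩ : ∃ φ : ℝ → ℝ, φ = fun s => s / (1 + s) := ⟨_, rfl⟩
    have hφm : Measurable φ := by rw [hφ]; fun_prop
    have hφb : ∀ s, 0 < s → ‖φ s‖ ≤ 1 := by
      intro s hs
      rw [hφ, Real.norm_eq_abs, abs_of_nonneg (by positivity), div_le_one (by positivity)]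
      linarith
    have hφs : ∀ s, 0 < s → φ s < φ (D g * s) := by
      intro s hs
      have h1 : s < D g * s := by nlinarith
      rw [hφ]
      show s / (1 + s) < D g * s / (1 + D g * s)
      rw [div_lt_div_iff₀ (by positivity) (by linarith)]
      nlinarith
    have i1 : Integrable (fun x => φ (H x)) ν :=
      Integrable.of_bound (hφm.comp hHm).aestronglyMeasurable 1
        (Eventually.of_forall fun x => hφb _ (hHpos x))
    have i2 : Integrable (fun x => φ (H (g • x))) ν :=
      Integrable.of_bound ((hφm.comp hHm).comp (H85.smul_meas Λ g)).aestronglyMeasurable 1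
        (Eventually.of_forall fun x => hφb _ (hHpos _))
    have h1 : ∫ x, φ (H (g • x)) ∂ν = ∫ x, φ (H x) ∂ν := by
      rw [← integral_map (μ := ν) (φ := fun x => g • x) (f := fun x => φ (H x))
        (H85.smul_meas Λ g).aemeasurable (hφm.comp hHm).aestronglyMeasurable, hν g]
    have h2 : ∫ x, (φ (H (g • x)) - φ (H x)) ∂ν = 0 := by
      rw [integral_sub i2 i1, h1, sub_self]
    have h3 : ∀ x, 0 < φ (H (g • x)) - φ (H x) := by
      intro x
      rw [hHmul]
      linarith [hφs _ (hHpos x)]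
    rw [integral_eq_zero_iff_of_nonneg (fun x => (h3 x).le) (i2.sub i1)] at h2
    have h4 : ∀ᵐ x ∂ν, False := h2.mono fun x hx => (h3 x).ne' hx
    rw [ae_iff] at h4
    simp at h4
  have h1 : D g ≤ 1 := not_lt.1 (key g)
  have h2 : D g⁻¹ ≤ 1 := not_lt.1 (key g⁻¹)
  have h3 : D g * D g⁻¹ = 1 := by
    rw [← hmul, mul_inv_cancel, hDe, modularCharacterFun_map_one]; rfl
  have h4 : D g = 1 := by
    have := hpos g
    have := hpos g⁻¹
    nlinarith
  rw [hDe] at h4
  exact_mod_cast h4

theorem rightInv_of_modChar (h : ∀ g : E, modularCharacterFun g = 1) :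
    IsMulRightInvariant μ := by
  refine ⟨fun g => ?_⟩
  rw [map_right_mul_eq_modularCharacterFun_smul μ g, h g, one_smul]

theorem invInv_of_right [IsMulRightInvariant μ] : IsInvInvariant μ := by
  constructor
  obtain ⟨c, hcc⟩ : ∃ c : ℝ≥0∞, c = haarScalarFactor μ.inv μ := ⟨_, rfl⟩
  have hfin : IsFiniteMeasureOnCompacts μ.inv := inferInstance
  have hc : μ.inv = c • μ := by
    rw [hcc]; exact isMulLeftInvariant_eq_smul μ.inv μ
  have this : map Inv.inv (map Inv.inv μ) = c ^ 2 • μ := by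
    rw [← inv_def μ, hc, Measure.map_smul, ← inv_def μ, hc, smul_smul, pow_two]
  have μeq : μ = c ^ 2 • μ := by
    rw [map_map continuous_inv.measurable continuous_inv.measurable] at this
    simpa only [inv_involutive, Function.Involutive.comp_self, Measure.map_id] using this
  obtain ⟨K⟩ : Nonempty (TopologicalSpace.PositiveCompacts E) := inferInstance
  have h1 : c ^ 2 * μ K = 1 ^ 2 * μ K := by
    conv_rhs => rw [μeq]
    simp
  have h2 : c ^ 2 = 1 ^ 2 :=
    (ENNReal.mul_left_inj (measure_pos_of_nonempty_interior _ K.interior_nonempty).ne'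
          K.isCompact.measure_lt_top.ne).1 h1
  have h3 : c = 1 := (ENNReal.pow_right_strictMono two_ne_zero).injective h2
  rw [hc, h3, one_smul]

include hν in
theorem right_invariant : IsMulRightInvariant μ :=
  rightInv_of_modChar μ (modChar_eq_one Λ ν hν)

include hν in
theorem inv_invariant : IsInvInvariant μ := by
  have := right_invariant Λ ν hν μ
  exact invInv_of_right μ

/-- The right fundamental domain. -/
theorem isFundamentalDomain_op : IsFundamentalDomain Λ.op (fdom Λ) μ := by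
  refine IsFundamentalDomain.mk' (fdom_meas Λ).nullMeasurableSet fun x => ?_
  obtain ⟨v, hv, hu⟩ := existsUnique_right Λ x
  refine ⟨⟨MulOpposite.op (v : E), v.2⟩, hv, ?_⟩
  rintro ⟨w, hw⟩ hx
  have h1 := hu ⟨w.unop, hw⟩ hx
  apply Subtype.ext
  show w = MulOpposite.op (v : E)
  rw [← h1]
  rfl

/-- The left fundamental domain. -/
theorem isFundamentalDomain_left : IsFundamentalDomain Λ (fdom Λ)⁻¹ μ :=
  IsFundamentalDomain.mk' (fdom_meas Λ).inv.nullMeasurableSet fun x => existsUnique_left Λ x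

include hν in
theorem fdom_inv_lt_top : μ (fdom Λ)⁻¹ < ∞ := by
  have := inv_invariant Λ ν hν μ
  rw [measure_inv]
  exact fdom_lt_top Λ ν hν μ

end main

end Vale.Agent.P092.H515
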