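import Vale.Agent.P092.H515.HPos2
import Vale.Agent.P092.H515.ScF
import Vale.Agent.P092.H618.BaseE
import Vale.Agent.P092.H307.Gb.Inst
import Vale.Agent.P092.H103.PicT

/-!
P092 (helper515), Team N, [N-GAPB] for products, part 3: **[P-HPOS]**, unconditional.
-/

set_option linter.all false

open scoped InnerProductSpace ENNReal
open Filter Topology Matrix ContinuousLinearMap MeasureTheory

namespace Vale.Agent.P092.H515.HP

open Vale.Agent.P092.H933 (LocK)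
open Vale.Agent.P092.H200 Vale.Agent.P092.H761
open Vale.Agent.P092.RC (GG PG YY ct KK pic lam₁ lam₂ XX Om Pic Moore)
open Vale.Agent.P092.SR Vale.Agent.P092.H160
open Vale.Agent.P092.H261 (PingT)
open Vale.Agent.P092.SN (PH nm bw)
open Vale.Agent.P092.SD (MM)
open Vale.Agent.P092.H218.NR (HMIA)
open Vale.Agent.P092.H411.ChS (sg sg_cont)
open Vale.Agent.P092.H618.HMK (Tests Sc ZN)
open Vale.Agent.P092.H584.Tau (msF)
open Vale.Agent.P092.H368.SN (Ctr)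

variable {E : Type} [Group E] [TopologicalSpace E] [IsTopologicalGroup E] [LocallyCompactSpace E]
  [SecondCountableTopology E] [T2Space E] [NoncompactSpace E] [MeasurableSpace E] [BorelSpace E]
  {Γ : Subgroup E} [DiscreteTopology Γ] [Countable Γ] [MeasurableSpace (E ⧸ Γ)]
  [BorelSpace (E ⧸ Γ)] {ν : Measure (E ⧸ Γ)} [IsProbabilityMeasure ν]
  (hν : ∀ g : E, ν.map (fun x => g • x) = ν)
  {Λ : Type} [Group Λ] [Countable Λ]
  (hΛ : ∀ g : Λ, g ≠ 1 → Set.Infinite {y : Λ | ∃ h, y = h * g * h⁻¹})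
  {α : Γ →* (Ell2 Λ →L[ℂ] Ell2 Λ)} (hα : Frame α)
  {k₀ : Type} [NontriviallyNormedField k₀] [ProperSpace k₀]

section hm

variable {m : ℕ} {ι : GG k₀ (m + 1) →* E}

include hΛ in
/-- **The input of Howe and Moore**, for one factor of the source. -/
theorem hmi_fac (hk₀ : LocK k₀) (hm : 0 < m) (hι : Continuous ι) {c : GG k₀ (m + 1)} {z : E}
    (hz : z = ι c) (hc : Moore (Ctr c)) (hzσ : ∀ s, Commute (sg ι s) z)
    {J : Type} [Fintype J] [DecidableEq J] {r : ℕ} {gap : J → Γ → ℝ} {cl : J → Fin r}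
    {A : Finset (Fin r)} {i₀ : J} (hg : Gaps gap cl) (hT : Tests gap cl A i₀) :
    HMIA (msF hν hα) gap cl A i₀ (fun n => z ^ n) (sg ι) (cocompact (GG k₀ m)) := by
  have hP := H805.RowN.picE hν hα hΛ
  have htv : ∀ Y ∈ MM (lam₁ ν α) (XX ν Λ ∪ Set.range (lam₂ ν α)), ∀ h : E,
      ⟪pic hν hα h (Om ν Λ), Y (pic hν hα h (Om ν Λ))⟫_ℂ = ⟪Om ν Λ, Y (Om ν Λ)⟫_ℂ := by
    rintro Y ⟨hY, hY1⟩ h
    exact H103.tv_gen hν hα (fun A hA => hY _ (Or.inl ⟨A, hA, rfl⟩)) hY1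
      (fun g => hY _ (Or.inr ⟨g, rfl⟩)) h
  refine (H618.BaseE.baseE hν hα hΛ (θ := sg ι) (sg_cont hι) (z := fun n => z ^ n)
    (fun n s => ((hzσ s).pow_right n).eq) (Nb := Ctr z) (H307.Gb.con_ctr z)
    (fun s n hn => H307.Gb.nrm_ctr (hzσ s) hn)).hmia (H933.hm_sl hk₀ (by omega)) ?_ hg
    (fun g F _ => msF_eq hν hα g F) hT
  intro T h1 h2 g
  exact H515.Tau.sc_fac' hP htv hι hc (ZZ := ZN (XX ν Λ ∪ Set.range (lam₂ ν α)) (pic hν hα) (Ctr z))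
    (fun w hw => Or.inl hw)
    (fun n hn => Or.inr ⟨ι n, Or.inl (hz ▸ H307.Gb.map_ctr hι hn), rfl⟩) T h1 h2
    (H411.Blk.blk k₀ (m + 1) g)

end hm

section main

variable {I : Type} [Fintype I] [DecidableEq I] {k : I → Type}
  [∀ i, NontriviallyNormedField (k i)] [∀ i, ProperSpace (k i)] {N : I → ℕ}

include hΛ in
/-- **[P-HPOS]**: one source factor `ι : SL_(N₀+1)(k₀) → E`, one coordinate `j` of the target with
`N j = N₀ ≥ 2`; the factor is tight off the coordinate `j`. -/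
theorem hpos_fac (hk : ∀ j, LocK (k j)) (hN : ∀ j, 0 < N j) {q : ∀ j, Γ → GG (k j) (N j)}
    (hq : ∀ j, PH (q j)) (disc : ∀ C : ℝ, {γ : Γ | ∀ j, nm (q j γ) ≤ C}.Finite)
    (hk₀ : LocK k₀) {N₀ : ℕ} (hN₀ : 2 ≤ N₀) {ι : GG k₀ N₀ →* E} {a : E →* PG k₀ (N₀ + 1)}
    (hι : Continuous ι) (ha : Continuous a) (hcomp : ∀ g (x : YY k₀ N₀), a (ι g) • x = g • x)
    {w : k₀ˣ} (hw : ‖(w : k₀)‖ < 1) (j : I) (hj : N j = N₀)
    (ht : ∀ ε : ℝ, 0 < ε → ∃ r : ℝ, ∀ g : GG k₀ N₀,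
      ‖H103.mS₁ ν hα {γ | ∃ j', j' ≠ j ∧ r < nm (q j' γ)} (pic hν hα (ι g) (Om ν Λ))‖ ≤ ε)
    {b : E} (hb : b = ι (bw w) ∨ b = (ι (bw w))⁻¹) {ε : ℝ} (hε : 0 < ε) :
    ∃ r : ℝ, ∀ᶠ n : ℕ in atTop, ‖H103.mS₁ ν hα {γ | r < H337.NG.G2 (q j γ) ∧
      r < H337.NG.G2 (ct (q j γ))} (pic hν hα (b ^ n) (Om ν Λ))‖ ≤ ε := by
  obtain ⟨m, rfl⟩ : ∃ m, N₀ = m + 1 := ⟨N₀ - 1, by omega⟩
  have hm : 0 < m := by omega
  have hc : ∀ g, a (ι g) = H35.sp k₀ (m + 2) g := fun g => H776.NE.eq_sp hcomp g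
  rcases hb with rfl | rfl
  · exact hpos_core hν hα hk hN hq disc hm hι hc hw j hj ht ⟨_, rfl⟩
      (fun n s => H411.ChS.sg_comm_pow w n s) (H411.ChS.exists_chain hι ha hc hw)
      (fun hg hT => hmi_fac hν hΛ hα hk₀ hm hι rfl (H307.Gb.moore_ctr_sl hk₀ (by omega) hw)
        (fun s => (H411.ChS.sg_comm w s).symm) hg hT) hε
  · exact hpos_core hν hα hk hN hq disc hm hι hc hw j hj ht (z := (ι (bw w))⁻¹)
      ⟨(bw w)⁻¹, map_inv _ _⟩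
      (fun n s => H411.ChS.sg_comm_inv_pow w n s) (H411.ChS.exists_chain_inv hι ha hc hw)
      (fun hg hT => hmi_fac hν hΛ hα hk₀ hm hι (map_inv ι (bw w)).symm
        (H307.Gb.moore_ctr_sl_inv hk₀ (by omega) hw)
        (fun s => (H411.ChS.sg_comm w s).symm.inv_right) hg hT) hε

include hΛ in
/-- **[P-HPOS]**, families: the input is the output of `H584.Tau.tau_out`. -/
theorem hpos_P (hk : ∀ j, LocK (k j)) {k' : I → Type} [∀ i, NontriviallyNormedField (k' i)]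
    [∀ i, ProperSpace (k' i)] (hk' : ∀ j, LocK (k' j)) (hN : ∀ i, 2 ≤ N i)
    {ι : ∀ i, GG (k i) (N i) →* E} {a : ∀ i, E →* PG (k i) (N i + 1)}
    (hι : ∀ i, Continuous (ι i)) (ha : ∀ i, Continuous (a i))
    (hcomp : ∀ i g (x : YY (k i) (N i)), a i (ι i g) • x = g • x)
    {q : ∀ j, Γ → GG (k' j) (N j)} (hq : ∀ j, PH (q j))
    (disc : ∀ C : ℝ, {γ : Γ | ∀ j, nm (q j γ) ≤ C}.Finite) {w : ∀ i, (k i)ˣ}
    (hw : ∀ i, ‖(w i : k i)‖ < 1) {τ : I → I} (hτ : ∀ i, N (τ i) = N i)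
    (ht : ∀ i (ε : ℝ), 0 < ε → ∃ r : ℝ, ∀ g : GG (k i) (N i),
      ‖H103.mS₁ ν hα {γ | ∃ j', j' ≠ τ i ∧ r < nm (q j' γ)} (pic hν hα (ι i g) (Om ν Λ))‖ ≤ ε)
    (i : I) {b : E} (hb : b = ι i (bw (w i)) ∨ b = (ι i (bw (w i)))⁻¹) {ε : ℝ} (hε : 0 < ε) :
    ∃ r : ℝ, ∀ᶠ n : ℕ in atTop, ‖H103.mS₁ ν hα {γ | r < H337.NG.G2 (q (τ i) γ) ∧
      r < H337.NG.G2 (ct (q (τ i) γ))} (pic hν hα (b ^ n) (Om ν Λ))‖ ≤ ε :=
  hpos_fac hν hΛ hα hk' (fun j => by have := hN j; omega) hq disc (hk i) (hN i) (hι i) (ha i)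
    (hcomp i) (hw i) (τ i) (hτ i) (ht i) hb hε

end main

end Vale.Agent.P092.H515.HP
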