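import Vale.Agent.P092.H428.Grid
import Vale.Agent.P092.H428.Norm

/-!
P092 (helper515), block [R1d] of the rank theorem: assembly of the functions `F`, `H` of the
geometric statement of rank `k` from the estimates on the gauges (`J` parameters).
-/

namespace Vale.Agent.P092.H515.R1d

open Finset
open Vale.Agent.P092.H428 (line_shift norm_compare)

section grid

variable {J : Type*} [Fintype J] [DecidableEq J]

/-- The grid. -/
def gr (J : Type*) [Fintype J] [DecidableEq J] (K : ℕ) : Finset (J → ℕ) :=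
  Fintype.piFinset fun _ : J => range K

lemma mem_gr {K : ℕ} {x : J → ℕ} : x ∈ gr J K ↔ ∀ j, x j < K := by
  simp [gr, Fintype.mem_piFinset]

lemma card_gr (K : ℕ) : (gr J K).card = K ^ Fintype.card J := by
  simp [gr, Fintype.card_piFinset]

/-- Integer coordinates. -/
def ci (x : J → ℕ) : J → ℤ := fun j => (x j : ℤ)

omit [Fintype J] in
lemma ci_update (x : J → ℕ) (a : J) (n : ℕ) :
    ci (Function.update x a n) = Function.update (ci x) a (n : ℤ) := by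
  funext j
  by_cases h : j = a
  · subst h; simp [ci]
  · simp [ci, Function.update_of_ne h]

lemma sum_update (a : J) (K : ℕ) (G : (J → ℕ) → ℝ) :
    ∑ x ∈ gr J K, ∑ n ∈ range K, G (Function.update x a n) = K * ∑ x ∈ gr J K, G x := by
  have h1 : ∑ x ∈ gr J K, ∑ n ∈ range K, G (Function.update x a n)
      = ∑ z ∈ gr J K ×ˢ range K, G (Function.update z.1 a z.2) := by
    rw [sum_product]
  have h2 : ∑ z ∈ gr J K ×ˢ range K, G (Function.update z.1 a z.2)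
      = ∑ z ∈ gr J K ×ˢ range K, G z.1 := by
    refine sum_nbij' (fun z => (Function.update z.1 a z.2, z.1 a))
      (fun z => (Function.update z.1 a z.2, z.1 a)) ?_ ?_ ?_ ?_ ?_
    · rintro ⟨x, n⟩ hz
      rw [mem_product] at hz ⊢
      refine ⟨mem_gr.2 fun j => ?_, mem_range.2 (mem_gr.1 hz.1 a)⟩
      by_cases h : j = a
      · subst h; simpa using hz.2
      · simpa [Function.update_of_ne h] using mem_gr.1 hz.1 j
    · rintro ⟨x, n⟩ hz
      rw [mem_product] at hz ⊢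
      refine ⟨mem_gr.2 fun j => ?_, mem_range.2 (mem_gr.1 hz.1 a)⟩
      by_cases h : j = a
      · subst h; simpa using hz.2
      · simpa [Function.update_of_ne h] using mem_gr.1 hz.1 j
    · rintro ⟨x, n⟩ _
      simp
    · rintro ⟨x, n⟩ _
      simp
    · rintro ⟨x, n⟩ _
      simp
  have h3 : ∑ z ∈ gr J K ×ˢ range K, G z.1 = K * ∑ x ∈ gr J K, G x := by
    rw [sum_product, mul_sum]
    exact sum_congr rfl fun x _ => by simp
  rw [h1, h2, h3]

/-- Shift in one coordinate. -/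
lemma shift_one {ι : Type*} (F : (J → ℤ) → ι → ℝ) (T : Finset ι)
    (h : ∀ x, ∑ i ∈ T, |F x i| ≤ 1) (K : ℕ) (a : J) (k : ℤ) :
    K * ∑ i ∈ T, |∑ x ∈ gr J K, (F (ci x + Pi.single a k) i - F (ci x) i)|
      ≤ 2 * |(k : ℝ)| * (K : ℝ) ^ Fintype.card J := by
  have e1 : ∀ i, (K : ℝ) * |∑ x ∈ gr J K, (F (ci x + Pi.single a k) i - F (ci x) i)| =
      |∑ x ∈ gr J K, ∑ n ∈ range K, (F (Function.update (ci x) a ((n : ℤ) + k)) i
        - F (Function.update (ci x) a (n : ℤ)) i)| := by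
    intro i
    have hK : (0 : ℝ) ≤ K := Nat.cast_nonneg K
    set e : J → ℤ := Pi.single a k with he
    have h1 := sum_update a K (fun x => F (ci x + e) i - F (ci x) i)
    have h2 : (K : ℝ) * |∑ x ∈ gr J K, (F (ci x + e) i - F (ci x) i)| =
        |(K : ℝ) * ∑ x ∈ gr J K, (F (ci x + e) i - F (ci x) i)| := by
      rw [abs_mul, abs_of_nonneg hK]
    rw [h2, ← h1]
    congr 1
    refine sum_congr rfl fun x _ => sum_congr rfl fun n _ => ?_
    rw [ci_update]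
    congr 2
    funext j
    by_cases hj : j = a
    · subst hj; simp [he]
    · simp [Function.update_of_ne hj, he, Pi.single_eq_of_ne hj]
  calc K * ∑ i ∈ T, |∑ x ∈ gr J K, (F (ci x + Pi.single a k) i - F (ci x) i)|
      = ∑ i ∈ T, |∑ x ∈ gr J K, ∑ n ∈ range K,
          (F (Function.update (ci x) a ((n : ℤ) + k)) i
            - F (Function.update (ci x) a (n : ℤ)) i)| := by
        rw [mul_sum]; exact sum_congr rfl fun i _ => e1 i
    _ ≤ ∑ i ∈ T, ∑ x ∈ gr J K, |∑ n ∈ range K,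
          (F (Function.update (ci x) a ((n : ℤ) + k)) i
            - F (Function.update (ci x) a (n : ℤ)) i)| :=
        sum_le_sum fun i _ => abs_sum_le_sum_abs _ _
    _ = ∑ x ∈ gr J K, ∑ i ∈ T, |∑ n ∈ range K,
          (F (Function.update (ci x) a ((n : ℤ) + k)) i
            - F (Function.update (ci x) a (n : ℤ)) i)| := sum_comm
    _ ≤ ∑ x ∈ gr J K, 2 * |(k : ℝ)| * 1 := by
        refine sum_le_sum fun x _ => ?_
        exact line_shift (fun z i => F (Function.update (ci x) a z) i) T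
          (fun z => h _) K k
    _ = _ := by
        rw [sum_const, card_gr, nsmul_eq_mul]
        push_cast
        ring

/-- Block [G4]: shift of a grid average in `J` dimensions. -/
theorem shift_all {ι : Type*} (F : (J → ℤ) → ι → ℝ) (T : Finset ι)
    (h : ∀ x, ∑ i ∈ T, |F x i| ≤ 1) (K : ℕ) (m : J → ℤ) :
    K * ∑ i ∈ T, |∑ x ∈ gr J K, (F (ci x + m) i - F (ci x) i)|
      ≤ 2 * (∑ j, |(m j : ℝ)|) * (K : ℝ) ^ Fintype.card J := by
  have key : ∀ A : Finset J, ∀ F : (J → ℤ) → ι → ℝ, (∀ x, ∑ i ∈ T, |F x i| ≤ 1) →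
      K * ∑ i ∈ T, |∑ x ∈ gr J K, (F (ci x + fun j => if j ∈ A then m j else 0) i - F (ci x) i)|
      ≤ 2 * (∑ j ∈ A, |(m j : ℝ)|) * (K : ℝ) ^ Fintype.card J := by
    intro A
    induction A using Finset.induction_on with
    | empty =>
      intro F _
      have : (fun j : J => if j ∈ (∅ : Finset J) then m j else 0) = 0 := by
        funext j; simp
      rw [this]
      simp
    | insert a A ha ih =>
      intro F hF
      set e : J → ℤ := Pi.single a (m a) with he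
      set mA : J → ℤ := fun j => if j ∈ A then m j else 0 with hmA
      have hm : (fun j => if j ∈ insert a A then m j else 0) = mA + e := by
        funext j
        by_cases hj : j = a
        · subst hj; simp [hmA, he, ha]
        · simp [hmA, he, hj]
      have h1 := ih (fun x i => F (x + e) i) (fun x => hF _)
      have h2 := shift_one F T hF K a (m a)
      have hsp : ∀ i, ∑ x ∈ gr J K, (F (ci x + (mA + e)) i - F (ci x) i) =
          ∑ x ∈ gr J K, (F (ci x + mA + e) i - F (ci x + e) i)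
            + ∑ x ∈ gr J K, (F (ci x + e) i - F (ci x) i) := by
        intro i
        rw [← sum_add_distrib]
        refine sum_congr rfl fun x _ => ?_
        rw [add_assoc]
        ring
      rw [hm, sum_insert ha]
      calc K * ∑ i ∈ T, |∑ x ∈ gr J K, (F (ci x + (mA + e)) i - F (ci x) i)|
          ≤ K * ∑ i ∈ T, (|∑ x ∈ gr J K, (F (ci x + mA + e) i - F (ci x + e) i)|
            + |∑ x ∈ gr J K, (F (ci x + e) i - F (ci x) i)|) := by
            refine mul_le_mul_of_nonneg_left (sum_le_sum fun i _ => ?_) (Nat.cast_nonneg K)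
            rw [hsp i]
            exact abs_add_le _ _
        _ = K * ∑ i ∈ T, |∑ x ∈ gr J K, (F (ci x + mA + e) i - F (ci x + e) i)|
            + K * ∑ i ∈ T, |∑ x ∈ gr J K, (F (ci x + e) i - F (ci x) i)| := by
            rw [sum_add_distrib]; ring
        _ ≤ 2 * (∑ j ∈ A, |(m j : ℝ)|) * (K : ℝ) ^ Fintype.card J
            + 2 * |(m a : ℝ)| * (K : ℝ) ^ Fintype.card J := add_le_add h1 h2
        _ = _ := by ring
  have := key univ F h
  simpa using this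

end grid

section weights
variable {Γ : Type*}

/-- Normalised weights. -/
noncomputable def bw (N : ℕ) (F : Γ → ℝ) (b : Γ) : ℝ := ((F b) ^ N)⁻¹ / ∑' b', ((F b') ^ N)⁻¹

lemma pow_inv_le (N : ℕ) {x y r : ℝ} (hx : 0 < x) (hy : 0 < y) (h : x ≤ r * y) :
    (y ^ N)⁻¹ ≤ r ^ N * (x ^ N)⁻¹ := by
  have h1 : x ^ N ≤ (r * y) ^ N := pow_le_pow_left₀ hx.le h N
  rw [mul_pow] at h1
  rw [← div_eq_mul_inv, le_div_iff₀ (pow_pos hx N), inv_mul_le_iff₀ (pow_pos hy N)]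
  linarith

variable {N : ℕ}

lemma uw_pos {F : Γ → ℝ} (hF : ∀ b, 0 < F b) (b : Γ) : 0 < ((F b) ^ N)⁻¹ :=
  inv_pos.2 (pow_pos (hF b) N)

lemma uw_summable {w F : Γ → ℝ} {c : ℝ} (hw : ∀ b, 0 < w b)
    (hs : Summable fun b => ((w b) ^ N)⁻¹)
    (hc : 0 < c) (lo : ∀ b, c * w b ≤ F b) : Summable fun b => ((F b) ^ N)⁻¹ := by
  have hF : ∀ b, 0 < F b := fun b => (mul_pos hc (hw b)).trans_le (lo b)
  refine Summable.of_nonneg_of_le (fun b => (uw_pos hF b).le) (fun b => ?_)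
    (hs.mul_left ((c⁻¹) ^ N))
  exact pow_inv_le N (hw b) (hF b) (by
    rw [← div_eq_inv_mul, le_div_iff₀ hc, mul_comm]; exact lo b)

lemma tsum_uw_pos [Nonempty Γ] {F : Γ → ℝ} (hF : ∀ b, 0 < F b)
    (hs : Summable fun b => ((F b) ^ N)⁻¹) : 0 < ∑' b, ((F b) ^ N)⁻¹ := by
  obtain ⟨i⟩ := (inferInstance : Nonempty Γ)
  exact hs.tsum_pos (fun b => (uw_pos hF b).le) i (uw_pos hF i)

lemma bw_nonneg {F : Γ → ℝ} (hF : ∀ b, 0 < F b) (b : Γ) : 0 ≤ bw N F b :=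
  div_nonneg (uw_pos hF b).le (tsum_nonneg fun b => (uw_pos hF b).le)

lemma bw_hasSum [Nonempty Γ] {F : Γ → ℝ} (hF : ∀ b, 0 < F b)
    (hs : Summable fun b => ((F b) ^ N)⁻¹) : HasSum (bw N F) 1 := by
  have := hs.hasSum.div_const (∑' b, ((F b) ^ N)⁻¹)
  rwa [div_self (tsum_uw_pos hF hs).ne'] at this

lemma bw_sum_le [Nonempty Γ] {F : Γ → ℝ} (hF : ∀ b, 0 < F b)
    (hs : Summable fun b => ((F b) ^ N)⁻¹)
    (T : Finset Γ) : ∑ b ∈ T, bw N F b ≤ 1 :=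
  sum_le_hasSum T (fun b _ => bw_nonneg hF b) (bw_hasSum hF hs)

/-- Domination of the normalised weights. -/
lemma bw_le {w F : Γ → ℝ} {c C : ℝ} (hw : ∀ b, 0 < w b) (hs : Summable fun b => ((w b) ^ N)⁻¹)
    (hc : 0 < c) (lo : ∀ b, c * w b ≤ F b) (b₀ : Γ) (up : F b₀ ≤ C) (b : Γ) :
    bw N F b ≤ C ^ N * (c⁻¹) ^ N * ((w b) ^ N)⁻¹ := by
  have hF : ∀ b, 0 < F b := fun b => (mul_pos hc (hw b)).trans_le (lo b)
  have hsu := uw_summable hw hs hc lo
  have hC : 0 < C := (hF b₀).trans_le up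
  have : Nonempty Γ := ⟨b₀⟩
  have hZ : (C ^ N)⁻¹ ≤ ∑' b, ((F b) ^ N)⁻¹ := by
    have e1 : (C ^ N)⁻¹ ≤ ((F b₀) ^ N)⁻¹ :=
      inv_anti₀ (pow_pos (hF _) N) (pow_le_pow_left₀ (hF _).le up N)
    exact e1.trans (hsu.le_tsum b₀ fun j _ => (uw_pos hF j).le)
  have hinv : (∑' b, ((F b) ^ N)⁻¹)⁻¹ ≤ C ^ N := by
    have := inv_anti₀ (inv_pos.2 (pow_pos hC N)) hZ
    rwa [inv_inv] at this
  have hu : ((F b) ^ N)⁻¹ ≤ (c⁻¹) ^ N * ((w b) ^ N)⁻¹ :=
    pow_inv_le N (hw b) (hF b) (by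
      rw [← div_eq_inv_mul, le_div_iff₀ hc, mul_comm]; exact lo b)
  have hZ0 := tsum_uw_pos hF hsu
  have hwb := hw b
  calc bw N F b = ((F b) ^ N)⁻¹ * (∑' b, ((F b) ^ N)⁻¹)⁻¹ := div_eq_mul_inv _ _
    _ ≤ ((c⁻¹) ^ N * ((w b) ^ N)⁻¹) * C ^ N :=
        mul_le_mul hu hinv (inv_pos.2 hZ0).le (by positivity)
    _ = _ := by ring

/-- Uniform tails. -/
lemma exists_tail {w : Γ → ℝ} {c : ℝ} (C : ℝ) (hw : ∀ b, 0 < w b)
    (hs : Summable fun b => ((w b) ^ N)⁻¹) (hc : 0 < c) (b₀ : Γ) {τ : ℝ} (hτ : 0 < τ) :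
    ∃ B : Finset Γ, ∀ B' : Finset Γ, B ⊆ B' → ∀ F : Γ → ℝ, (∀ b, c * w b ≤ F b) → F b₀ ≤ C →
      1 - τ ≤ ∑ b ∈ B', bw N F b := by
  set k : ℝ := C ^ N * (c⁻¹) ^ N with hk
  have hcs : Summable fun b => k * ((w b) ^ N)⁻¹ := hs.mul_left k
  have h1 : ∀ᶠ B : Finset Γ in Filter.atTop,
      (∑' b, k * ((w b) ^ N)⁻¹) - τ < ∑ b ∈ B, k * ((w b) ^ N)⁻¹ :=
    hcs.hasSum.eventually (lt_mem_nhds (by linarith))
  obtain ⟨B, hB⟩ := Filter.eventually_atTop.1 h1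
  refine ⟨B, fun B' hB' F lo up => ?_⟩
  have : Nonempty Γ := ⟨b₀⟩
  have hF : ∀ b, 0 < F b := fun b => (mul_pos hc (hw b)).trans_le (lo b)
  have hsu := uw_summable hw hs hc lo
  have h2 : HasSum (fun b => k * ((w b) ^ N)⁻¹ - bw N F b)
      ((∑' b, k * ((w b) ^ N)⁻¹) - 1) := hcs.hasSum.sub (bw_hasSum hF hsu)
  have h3 := sum_le_hasSum B' (fun b _ => sub_nonneg.2 (bw_le hw hs hc lo b₀ up b)) h2
  rw [sum_sub_distrib] at h3
  have := hB B' hB'
  linarith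

lemma cmp [Nonempty Γ] (F G : Γ → ℝ) (hF : ∀ i, 0 < F i) (hG : ∀ i, 0 < G i)
    (sF : Summable fun i => ((F i) ^ N)⁻¹) (sG : Summable fun i => ((G i) ^ N)⁻¹) {p r : ℝ}
    (hp : 0 < p) (hr : 1 ≤ r) (h1 : ∀ i, p * F i ≤ r * G i) (h2 : ∀ i, G i ≤ r * (p * F i))
    (T : Finset Γ) :
    ∑ i ∈ T, |bw N G i - bw N F i| ≤ (r ^ N) ^ 2 - 1 := by
  refine norm_compare (fun i => ((F i) ^ N)⁻¹) (fun i => ((G i) ^ N)⁻¹)
    (fun i => inv_pos.2 (pow_pos (hF i) N)) (fun i => inv_pos.2 (pow_pos (hG i) N)) sF sG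
    (c := (p ^ N)⁻¹) (inv_pos.2 (pow_pos hp N)) (one_le_pow₀ hr) ?_ ?_ T
  · intro i
    have := pow_inv_le N (hG i) (mul_pos hp (hF i)) (h2 i)
    rwa [mul_pow, mul_inv] at this
  · intro i
    have := pow_inv_le N (mul_pos hp (hF i)) (hG i) (h1 i)
    rwa [mul_pow, mul_inv] at this

/-- Two gauges which are comparable up to a factor. -/
lemma bw_ge [Nonempty Γ] {F G : Γ → ℝ} (hF : ∀ b, 0 < F b) (hG : ∀ b, 0 < G b)
    (sF : Summable fun i => ((F i) ^ N)⁻¹) (sG : Summable fun i => ((G i) ^ N)⁻¹) {k : ℝ}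
    (hk : 0 < k) (h1 : ∀ b, F b ≤ k * G b) (h2 : ∀ b, G b ≤ k * F b) (b : Γ) :
    ((k ^ N) ^ 2)⁻¹ * bw N G b ≤ bw N F b := by
  have hZF := tsum_uw_pos hF sF
  have hZG := tsum_uw_pos hG sG
  have hkN : 0 < k ^ N := pow_pos hk N
  have e1 : ((G b) ^ N)⁻¹ ≤ k ^ N * ((F b) ^ N)⁻¹ := pow_inv_le N (hF b) (hG b) (h1 b)
  have e2 : ∑' b, ((F b) ^ N)⁻¹ ≤ k ^ N * ∑' b, ((G b) ^ N)⁻¹ := by
    rw [← tsum_mul_left]
    refine sF.tsum_le_tsum (fun b => ?_) (sG.mul_left _)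
    exact pow_inv_le N (hG b) (hF b) (h2 b)
  unfold bw
  rw [← div_eq_inv_mul, div_div, div_le_div_iff₀ (by positivity) hZF]
  have hFb := uw_pos (N := N) hF b
  calc ((G b) ^ N)⁻¹ * ∑' b, ((F b) ^ N)⁻¹
      ≤ (k ^ N * ((F b) ^ N)⁻¹) * (k ^ N * ∑' b, ((G b) ^ N)⁻¹) :=
        mul_le_mul e1 e2 hZF.le (by positivity)
    _ = _ := by ring

end weights

section average
variable {Γ : Type*} {J : Type*} [Fintype J] [DecidableEq J] {N : ℕ}

/-- A point of the grid. -/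
def pt (L h : ℝ) (x : J → ℤ) : J → ℝ := fun j => L + (x j : ℝ) * h

/-- Grid average. -/
noncomputable def na (N : ℕ) (F : (J → ℝ) → Γ → ℝ) (L h : ℝ) (K : ℕ) (b : Γ) : ℝ :=
  (∑ x ∈ gr J K, bw N (F (pt L h (ci x))) b) / (K : ℝ) ^ Fintype.card J

lemma na_nonneg {F : (J → ℝ) → Γ → ℝ} (hF : ∀ t b, 0 < F t b) (L h : ℝ) (K : ℕ) (b : Γ) :
    0 ≤ na N F L h K b :=
  div_nonneg (sum_nonneg fun _ _ => bw_nonneg (hF _) _) (by positivity)

lemma na_sum (F : (J → ℝ) → Γ → ℝ) (L h : ℝ) (K : ℕ) (T : Finset Γ) :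
    ∑ b ∈ T, na N F L h K b =
      (∑ x ∈ gr J K, ∑ b ∈ T, bw N (F (pt L h (ci x))) b) / (K : ℝ) ^ Fintype.card J := by
  unfold na
  rw [← sum_div, sum_comm]

lemma na_sum_le [Nonempty Γ] {F : (J → ℝ) → Γ → ℝ} (hF : ∀ t b, 0 < F t b)
    (hs : ∀ t, Summable fun b => ((F t b) ^ N)⁻¹) (L h : ℝ) {K : ℕ} (hK : 0 < K)
    (T : Finset Γ) : ∑ b ∈ T, na N F L h K b ≤ 1 := by
  rw [na_sum, div_le_one (by positivity)]
  calc ∑ x ∈ gr J K, ∑ b ∈ T, bw N (F (pt L h (ci x))) b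
      ≤ ∑ x ∈ gr J K, (1 : ℝ) := sum_le_sum fun i _ => bw_sum_le (hF _) (hs _) T
    _ = (K : ℝ) ^ Fintype.card J := by rw [sum_const, card_gr]; simp

lemma le_na_sum (F : (J → ℝ) → Γ → ℝ) (L h : ℝ) {K : ℕ} (hK : 0 < K) (T : Finset Γ) {a : ℝ}
    (ha : ∀ x ∈ gr J K, a ≤ ∑ b ∈ T, bw N (F (pt L h (ci x))) b) :
    a ≤ ∑ b ∈ T, na N F L h K b := by
  rw [na_sum, le_div_iff₀ (by positivity)]
  calc a * (K : ℝ) ^ Fintype.card J = ∑ x ∈ gr J K, a := by
        rw [sum_const, card_gr, nsmul_eq_mul]; push_cast; ring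
    _ ≤ _ := sum_le_sum fun i hi => ha i hi

/-- Comparison of the averages along a shift of the grid. -/
lemma na_cmp [Nonempty Γ] {F G : (J → ℝ) → Γ → ℝ} (hF : ∀ t b, 0 < F t b)
    (hG : ∀ t b, 0 < G t b) (sF : ∀ t, Summable fun b => ((F t b) ^ N)⁻¹)
    (sG : ∀ t, Summable fun b => ((G t b) ^ N)⁻¹)
    {L h : ℝ} {K : ℕ} (hK : 0 < K) {p r : ℝ} (hp : 0 < p) (hr : 1 ≤ r) (m : J → ℤ)
    (h1 : ∀ x ∈ gr J K, ∀ b, p * F (pt L h (ci x + m)) b ≤ r * G (pt L h (ci x)) b)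
    (h2 : ∀ x ∈ gr J K, ∀ b, G (pt L h (ci x)) b ≤ r * (p * F (pt L h (ci x + m)) b))
    (T : Finset Γ) :
    ∑ b ∈ T, |na N F L h K b - na N G L h K b| ≤
      ((r ^ N) ^ 2 - 1) + 2 * (∑ j, |(m j : ℝ)|) / K := by
  have hK' : (0 : ℝ) < K := by exact_mod_cast hK
  set d := Fintype.card J with hd
  have hKd : (0 : ℝ) < (K : ℝ) ^ d := pow_pos hK' d
  set A : (J → ℤ) → Γ → ℝ := fun x b => bw N (F (pt L h x)) b with hA
  set D : (J → ℤ) → Γ → ℝ := fun x b => bw N (G (pt L h x)) b with hD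
  have hA1 : ∀ x, ∑ b ∈ T, |A x b| ≤ 1 := by
    intro x
    have e1 : ∑ b ∈ T, |A x b| = ∑ b ∈ T, bw N (F (pt L h x)) b :=
      sum_congr rfl fun b _ => abs_of_nonneg (bw_nonneg (hF _) _)
    rw [e1]
    exact bw_sum_le (hF _) (sF _) _
  have hgrid := shift_all A T hA1 K m
  rw [← hd] at hgrid
  have hgrid' : ∑ b ∈ T, |∑ x ∈ gr J K, (A (ci x + m) b - A (ci x) b)| ≤
      2 * (∑ j, |(m j : ℝ)|) / K * (K : ℝ) ^ d := by
    rw [div_mul_eq_mul_div, le_div_iff₀ hK', mul_comm]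
    exact hgrid
  have hpt : ∀ b ∈ T, |na N F L h K b - na N G L h K b| ≤
      (|∑ x ∈ gr J K, (A (ci x + m) b - A (ci x) b)| +
        ∑ x ∈ gr J K, |D (ci x) b - A (ci x + m) b|) / (K : ℝ) ^ d := by
    intro b _
    have e2 : na N F L h K b - na N G L h K b =
        (-(∑ x ∈ gr J K, (A (ci x + m) b - A (ci x) b)) -
          ∑ x ∈ gr J K, (D (ci x) b - A (ci x + m) b)) / (K : ℝ) ^ d := by
      simp only [na, sum_sub_distrib, hA, hD]
      ring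
    rw [e2, abs_div, abs_of_pos hKd]
    refine div_le_div_of_nonneg_right ?_ hKd.le
    refine (abs_sub _ _).trans ?_
    rw [abs_neg]
    exact add_le_add le_rfl (abs_sum_le_sum_abs _ _)
  calc ∑ b ∈ T, |na N F L h K b - na N G L h K b|
      ≤ ∑ b ∈ T, (|∑ x ∈ gr J K, (A (ci x + m) b - A (ci x) b)| +
        ∑ x ∈ gr J K, |D (ci x) b - A (ci x + m) b|) / (K : ℝ) ^ d := sum_le_sum hpt
    _ = (∑ b ∈ T, |∑ x ∈ gr J K, (A (ci x + m) b - A (ci x) b)| +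
        ∑ x ∈ gr J K, ∑ b ∈ T, |D (ci x) b - A (ci x + m) b|) / (K : ℝ) ^ d := by
        rw [← sum_div, sum_add_distrib]
        congr 2
        exact sum_comm
    _ ≤ (2 * (∑ j, |(m j : ℝ)|) / K * (K : ℝ) ^ d
          + ∑ x ∈ gr J K, ((r ^ N) ^ 2 - 1)) / (K : ℝ) ^ d := by
        refine div_le_div_of_nonneg_right (add_le_add hgrid' ?_) hKd.le
        exact sum_le_sum fun x hx => cmp (fun b => F (pt L h (ci x + m)) b)
          (fun b => G (pt L h (ci x)) b) (hF _) (hG _) (sF _) (sG _) hp hr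
          (h1 x hx) (h2 x hx) T
    _ = _ := by
        rw [sum_const, card_gr, nsmul_eq_mul]
        push_cast
        rw [← hd]
        field_simp
        ring

lemma na_ge [Nonempty Γ] {F G : (J → ℝ) → Γ → ℝ} (hF : ∀ t b, 0 < F t b)
    (hG : ∀ t b, 0 < G t b) (sF : ∀ t, Summable fun b => ((F t b) ^ N)⁻¹)
    (sG : ∀ t, Summable fun b => ((G t b) ^ N)⁻¹) {k : ℝ} (hk : 0 < k) (L h : ℝ) (K : ℕ)
    (h1 : ∀ x ∈ gr J K, ∀ b, F (pt L h (ci x)) b ≤ k * G (pt L h (ci x)) b)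
    (h2 : ∀ x ∈ gr J K, ∀ b, G (pt L h (ci x)) b ≤ k * F (pt L h (ci x)) b) (b : Γ) :
    ((k ^ N) ^ 2)⁻¹ * na N G L h K b ≤ na N F L h K b := by
  unfold na
  rw [mul_div_assoc', mul_sum]
  exact div_le_div_of_nonneg_right (sum_le_sum fun x hx =>
    bw_ge (hF _) (hG _) (sF _) (sG _) hk (h1 x hx) (h2 x hx) b) (by positivity)

/-- Translation invariance. -/
lemma bw_mul_left [Group Γ] (F : Γ → ℝ) (s b : Γ) :
    bw N (fun b => F (s * b)) b = bw N F (s * b) := by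
  unfold bw
  congr 1
  exact (Equiv.mulLeft s).tsum_eq (fun b => ((F b) ^ N)⁻¹)

lemma na_mul_left [Group Γ] (F : (J → ℝ) → Γ → ℝ) (L h : ℝ) (K : ℕ) (s b : Γ) :
    na N (fun t b => F t (s * b)) L h K b = na N F L h K (s * b) := by
  unfold na
  congr 1
  exact sum_congr rfl fun i _ => bw_mul_left _ s b

end average

lemma exists_bound {α : Type*} (S : Finset α) (C : α → ℝ) :
    ∃ C0 : ℝ, 0 ≤ C0 ∧ ∀ s ∈ S, C s ≤ C0 := by
  obtain ⟨M, hM⟩ := (S.image C).exists_le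
  exact ⟨max M 0, le_max_right _ _, fun s hs =>
    (hM _ (mem_image_of_mem C hs)).trans (le_max_left _ _)⟩

/-- Half-angle constants. -/
lemma hexp (N : ℕ) {x : ℝ} (hx : 0 < x) :
    ((Real.exp (Real.log (1 + x) / (2 * N + 1))) ^ N) ^ 2 - 1 ≤ x := by
  rw [← pow_mul, ← Real.exp_nat_mul]
  have h1 : 0 ≤ Real.log (1 + x) := Real.log_nonneg (by linarith)
  have h2 : ((N * 2 : ℕ) : ℝ) * (Real.log (1 + x) / (2 * N + 1)) ≤ Real.log (1 + x) := by
    push_cast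
    rw [mul_div_assoc', div_le_iff₀ (by positivity)]
    nlinarith
  have h3 := Real.exp_le_exp.2 h2
  rw [Real.exp_log (by linarith)] at h3
  linarith

lemma h2e (x : ℝ) : 1 + (1 - Real.exp (-x)) ≤ Real.exp x := by
  have a1 := Real.exp_pos x
  have a2 := Real.exp_pos (-x)
  have a3 : Real.exp x * Real.exp (-x) = 1 := by rw [← Real.exp_add]; simp
  nlinarith [sq_nonneg (Real.exp x - 1)]

/-- From a two-sided error to a two-sided comparison. -/
lemma cmp_of_err {x Y Z : ℝ} (hZ : 0 ≤ Z)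
    (h : |Y - Z| ≤ (1 - Real.exp (-x)) * Z) :
    Y ≤ Real.exp x * Z ∧ Z ≤ Real.exp x * Y := by
  have h' := abs_le.1 h
  constructor
  · have := mul_le_mul_of_nonneg_right (h2e x) hZ
    linarith [h'.2]
  · have a2 : Real.exp (-x) * Z ≤ Y := by linarith [h'.1]
    have a3 := mul_le_mul_of_nonneg_left a2 (Real.exp_pos x).le
    have a4 : Real.exp x * Real.exp (-x) = 1 := by rw [← Real.exp_add]; simp
    rwa [← mul_assoc, a4, one_mul] at a3

lemma sqrt_sub_sq {x y : ℝ} (hx : 0 ≤ x) (hy : 0 ≤ y) :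
    (Real.sqrt x - Real.sqrt y) ^ 2 ≤ |x - y| := by
  have e1 : x - y = (Real.sqrt x - Real.sqrt y) * (Real.sqrt x + Real.sqrt y) := by
    ring_nf
    rw [Real.sq_sqrt hx, Real.sq_sqrt hy]
  have h1 := Real.sqrt_nonneg x
  have h2 := Real.sqrt_nonneg y
  rw [e1, abs_mul, abs_of_nonneg (add_nonneg h1 h2), ← sq_abs, sq]
  refine mul_le_mul_of_nonneg_left ?_ (abs_nonneg _)
  rw [abs_le]
  constructor <;> linarith

section lemmas
variable {Γ : Type*} {J : Type*} [Fintype J] [DecidableEq J] {N : ℕ} {A : ℝ}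

omit [DecidableEq J] in
/-- Comparison of the two gauges at the grid points after rounding of the shift. -/
lemma left_key {F G : (J → ℝ) → Γ → ℝ} (hF : ∀ t b, 0 < F t b)
    (hG : ∀ t b, 0 < G t b)
    (lip : ∀ t d b, F (t + d) b ≤ Real.exp (A * ∑ j, |d j|) * F t b)
    {L h δ p : ℝ} (hh : 0 < h) (hAd : |A| * ((Fintype.card J : ℝ) * h) ≤ δ / 2) (hp : 0 < p)
    {σ : J → ℝ} {x : J → ℤ} {b : Γ}
    (h0 : |p * F (pt L h x + σ) b - G (pt L h x) b| ≤ (1 - Real.exp (-(δ / 2))) * G (pt L h x) b) :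
    p * F (pt L h (x + fun j => ⌊σ j / h⌋)) b ≤ Real.exp δ * G (pt L h x) b ∧
      G (pt L h x) b ≤ Real.exp δ * (p * F (pt L h (x + fun j => ⌊σ j / h⌋)) b) := by
  set m : J → ℤ := fun j => ⌊σ j / h⌋ with hm
  have hfl : ∀ j, |σ j - (m j : ℝ) * h| ≤ h := by
    intro j
    have a1 := Int.floor_le (σ j / h)
    have a2 := Int.lt_floor_add_one (σ j / h)
    have b1 : σ j = (σ j / h) * h := by field_simp
    rw [abs_le]
    constructor
    · nlinarith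
    · nlinarith
  have hsum1 : ∑ j, |σ j - (m j : ℝ) * h| ≤ (Fintype.card J : ℝ) * h := by
    calc ∑ j, |σ j - (m j : ℝ) * h| ≤ ∑ j : J, h := sum_le_sum fun j _ => hfl j
      _ = _ := by rw [sum_const, card_univ, nsmul_eq_mul]
  have hlipb : ∀ (t e : J → ℝ) (b : Γ), ∑ j, |e j| ≤ (Fintype.card J : ℝ) * h →
      F (t + e) b ≤ Real.exp (δ / 2) * F t b := by
    intro t e b he
    refine (lip t e b).trans (mul_le_mul_of_nonneg_right ?_ (hF t b).le)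
    refine Real.exp_le_exp.2 ?_
    have h0 : 0 ≤ ∑ j, |e j| := sum_nonneg fun _ _ => abs_nonneg _
    calc A * ∑ j, |e j| ≤ |A| * ∑ j, |e j| :=
          mul_le_mul_of_nonneg_right (le_abs_self A) h0
      _ ≤ |A| * ((Fintype.card J : ℝ) * h) := mul_le_mul_of_nonneg_left he (abs_nonneg A)
      _ ≤ δ / 2 := hAd
  have hrr : Real.exp (δ / 2) * Real.exp (δ / 2) = Real.exp δ := by
    rw [← Real.exp_add]; congr 1; ring
  set t : J → ℝ := pt L h x with ht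
  have q1 : pt L h (x + m) = (t + σ) + (fun j => -(σ j - (m j : ℝ) * h)) := by
    funext j
    simp only [ht, pt, Pi.add_apply, Int.cast_add]
    ring
  have q2 : (t + σ) + (fun j => -(σ j - (m j : ℝ) * h)) + (fun j => σ j - (m j : ℝ) * h)
      = t + σ := by
    funext j
    simp only [Pi.add_apply]
    ring
  have l1 := hlipb (t + σ) (fun j => -(σ j - (m j : ℝ) * h)) b
    (by simpa only [abs_neg] using hsum1)
  have l2 := hlipb ((t + σ) + (fun j => -(σ j - (m j : ℝ) * h)))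
    (fun j => σ j - (m j : ℝ) * h) b hsum1
  rw [q2] at l2
  rw [q1]
  set X := F ((t + σ) + (fun j => -(σ j - (m j : ℝ) * h))) b
  set Y := F (t + σ) b
  set Z := G t b
  have hX : 0 < X := hF _ _
  have hY : 0 < Y := hF _ _
  have hZ : 0 < Z := hG _ _
  obtain ⟨u1, u2⟩ := cmp_of_err (x := δ / 2) (Y := p * Y) hZ.le h0
  have he0 := (Real.exp_pos (δ / 2)).le
  constructor
  · calc p * X ≤ p * (Real.exp (δ / 2) * Y) := mul_le_mul_of_nonneg_left l1 hp.le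
      _ = Real.exp (δ / 2) * (p * Y) := by ring
      _ ≤ Real.exp (δ / 2) * (Real.exp (δ / 2) * Z) :=
          mul_le_mul_of_nonneg_left u1 he0
      _ = Real.exp δ * Z := by rw [← mul_assoc, hrr]
  · calc Z ≤ Real.exp (δ / 2) * (p * Y) := u2
      _ ≤ Real.exp (δ / 2) * (p * (Real.exp (δ / 2) * X)) :=
          mul_le_mul_of_nonneg_left (mul_le_mul_of_nonneg_left l2 hp.le) he0
      _ = Real.exp δ * (p * X) := by rw [← hrr]; ring

/-- The averages of the two gauges are close. -/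
lemma left_avg [Nonempty Γ] {F G : (J → ℝ) → Γ → ℝ} (hF : ∀ t b, 0 < F t b)
    (hG : ∀ t b, 0 < G t b) (sF : ∀ t, Summable fun b => ((F t b) ^ N)⁻¹)
    (sG : ∀ t, Summable fun b => ((G t b) ^ N)⁻¹)
    (lip : ∀ t d b, F (t + d) b ≤ Real.exp (A * ∑ j, |d j|) * F t b)
    {L h δ p C₀ : ℝ} (hδ : 0 ≤ δ) (hh : 0 < h)
    (hAd : |A| * ((Fintype.card J : ℝ) * h) ≤ δ / 2) (hp : 0 < p)
    {K : ℕ} (hK : 0 < K) {σ : J → ℝ} (hσ : ∀ j, |σ j| ≤ C₀)
    (h0 : ∀ x ∈ gr J K, ∀ b, |p * F (pt L h (ci x) + σ) b - G (pt L h (ci x)) b| ≤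
      (1 - Real.exp (-(δ / 2))) * G (pt L h (ci x)) b) (T : Finset Γ) :
    ∑ b ∈ T, |na N F L h K b - na N G L h K b| ≤
      ((Real.exp δ ^ N) ^ 2 - 1) + 2 * ((Fintype.card J : ℝ) * (C₀ / h + 1)) / K := by
  have hK' : (0 : ℝ) < K := by exact_mod_cast hK
  have key := fun x hx b => left_key hF hG lip hh hAd hp (h0 x hx b)
  have h1 := na_cmp hF hG sF sG hK hp (Real.one_le_exp hδ) (fun j => ⌊σ j / h⌋)
    (fun x hx b => (key x hx b).1) (fun x hx b => (key x hx b).2) T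
  refine h1.trans (add_le_add le_rfl ?_)
  refine div_le_div_of_nonneg_right ?_ hK'.le
  refine mul_le_mul_of_nonneg_left ?_ (by norm_num)
  calc ∑ j, |((⌊σ j / h⌋ : ℤ) : ℝ)| ≤ ∑ j : J, (C₀ / h + 1) := by
        refine sum_le_sum fun j _ => ?_
        have a1 := Int.floor_le (σ j / h)
        have a2 := Int.lt_floor_add_one (σ j / h)
        have a3 : |σ j / h| ≤ C₀ / h := by
          rw [abs_div, abs_of_pos hh]
          exact div_le_div_of_nonneg_right (hσ j) hh.le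
        have a4 := abs_le.1 a3
        rw [abs_le]; constructor <;> linarith
    _ = _ := by rw [sum_const, card_univ, nsmul_eq_mul]

/-- Right translates. -/
lemma right_avg [Nonempty Γ] {F G : (J → ℝ) → Γ → ℝ} (hF : ∀ t b, 0 < F t b)
    (hG : ∀ t b, 0 < G t b) (sF : ∀ t, Summable fun b => ((F t b) ^ N)⁻¹)
    (sG : ∀ t, Summable fun b => ((G t b) ^ N)⁻¹) {L h x : ℝ} (hx : 0 ≤ x)
    {K : ℕ} (hK : 0 < K)
    (h0 : ∀ y ∈ gr J K, ∀ b, |F (pt L h (ci y)) b - G (pt L h (ci y)) b| ≤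
      (1 - Real.exp (-x)) * G (pt L h (ci y)) b) (b : Γ) :
    |na N F L h K b - na N G L h K b| ≤ (Real.exp x ^ N) ^ 2 - 1 := by
  have hcmp := na_cmp (L := L) (h := h) hF hG sF sG hK (p := 1) one_pos (Real.one_le_exp hx)
    (0 : J → ℤ)
    (fun y hy b => by
      rw [one_mul, add_zero]
      exact (cmp_of_err (hG _ _).le (h0 y hy b)).1)
    (fun y hy b => by
      rw [one_mul, add_zero]
      exact (cmp_of_err (hG _ _).le (h0 y hy b)).2) {b}
  rw [sum_singleton] at hcmp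
  simpa only [Pi.zero_apply, Int.cast_zero, abs_zero, sum_const_zero, mul_zero, zero_div,
    add_zero] using hcmp

/-- Truncated square roots. -/
lemma trunc_pt {x y : ℝ} (n1 : 0 ≤ x) (n2 : 0 ≤ y) (P Q : Prop) [Decidable P] [Decidable Q] :
    ((if P then Real.sqrt x else 0) - (if Q then Real.sqrt y else 0)) ^ 2 ≤
      |x - y| + ((if P then 0 else x) + (if Q then 0 else y)) := by
  have n3 := abs_nonneg (x - y)
  by_cases c1 : P <;> by_cases c2 : Q <;> simp only [c1, c2, if_true, if_false]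
  · have := sqrt_sub_sq n1 n2
    linarith
  · rw [sub_zero, Real.sq_sqrt n1]
    have := le_abs_self (x - y)
    linarith
  · rw [zero_sub, neg_sq, Real.sq_sqrt n2]
    have := neg_abs_le (x - y)
    linarith
  · simp only [sub_zero]
    have : (0 : ℝ) ^ 2 = 0 := by norm_num
    rw [this]
    linarith

/-- Tails. -/
lemma tail_le [DecidableEq Γ] {n : Γ → ℝ} (h1 : ∀ T : Finset Γ, ∑ b ∈ T, n b ≤ 1) {B : Finset Γ}
    {τ : ℝ} (h2 : 1 - τ ≤ ∑ b ∈ B, n b) (T : Finset Γ) :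
    ∑ b ∈ T, (if b ∈ B then 0 else n b) ≤ τ := by
  have e1 : ∑ b ∈ T, (if b ∈ B then 0 else n b) = ∑ b ∈ T.filter (fun b => b ∉ B), n b := by
    rw [sum_filter]
    exact sum_congr rfl fun b _ => by by_cases hb : b ∈ B <;> simp [hb]
  have hdis : Disjoint (T.filter (fun b => b ∉ B)) B :=
    disjoint_left.2 fun b hb hb' => (mem_filter.1 hb).2 hb'
  have e2 := h1 (T.filter (fun b => b ∉ B) ∪ B)
  rw [sum_union hdis] at e2
  rw [e1]
  linarith

/-- Covariance of the truncated square roots. -/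
lemma trunc_sum [Group Γ] [DecidableEq Γ] {n n' : Γ → ℝ} (h0 : ∀ b, 0 ≤ n b)
    (h0' : ∀ b, 0 ≤ n' b) (h1 : ∀ T : Finset Γ, ∑ b ∈ T, n b ≤ 1)
    (h1' : ∀ T : Finset Γ, ∑ b ∈ T, n' b ≤ 1) {B : Finset Γ} {τ : ℝ}
    (h2 : 1 - τ ≤ ∑ b ∈ B, n b) (h2' : 1 - τ ≤ ∑ b ∈ B, n' b) (s : Γ) (T : Finset Γ) {e : ℝ}
    (h3 : ∑ b ∈ T, |n' (s * b) - n b| ≤ e) :
    ∑ b ∈ T, ((if s * b ∈ B then Real.sqrt (n' (s * b)) else 0)
      - (if b ∈ B then Real.sqrt (n b) else 0)) ^ 2 ≤ e + (τ + τ) := by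
  refine (sum_le_sum fun b _ => trunc_pt (h0' (s * b)) (h0 b) (s * b ∈ B) (b ∈ B)).trans ?_
  rw [sum_add_distrib, sum_add_distrib]
  have ht2 : ∑ b ∈ T, (if s * b ∈ B then 0 else n' (s * b)) ≤ τ := by
    have := tail_le h1' h2' (T.image fun b => s * b)
    rwa [sum_image fun a _ b _ hab => mul_left_cancel hab] at this
  exact add_le_add h3 (add_le_add ht2 (tail_le h1 h2 T))

/-- Overlap of the truncated square roots. -/
lemma overlap [Nonempty Γ] {F G : (J → ℝ) → Γ → ℝ} (hF : ∀ t b, 0 < F t b)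
    (hG : ∀ t b, 0 < G t b) (sF : ∀ t, Summable fun b => ((F t b) ^ N)⁻¹)
    (sG : ∀ t, Summable fun b => ((G t b) ^ N)⁻¹) {C : ℝ} (hC : 0 < C) (L h : ℝ) (K : ℕ)
    (h1 : ∀ x ∈ gr J K, ∀ b, F (pt L h (ci x)) b ≤ C * G (pt L h (ci x)) b)
    (h2 : ∀ x ∈ gr J K, ∀ b, G (pt L h (ci x)) b ≤ C * F (pt L h (ci x)) b)
    {B : Finset Γ} (h3 : 1 - 1 / 2 ≤ ∑ b ∈ B, na N G L h K b) :
    (C ^ N)⁻¹ / 2 ≤ ∑ b ∈ B, Real.sqrt (na N F L h K b) * Real.sqrt (na N G L h K b) := by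
  have hCN : 0 < C ^ N := pow_pos hC N
  have hpt : ∀ b, (C ^ N)⁻¹ * na N G L h K b ≤
      Real.sqrt (na N F L h K b) * Real.sqrt (na N G L h K b) := by
    intro b
    have h4 := na_ge hF hG sF sG hC L h K h1 h2 b
    have hn := na_nonneg (N := N) hG L h K b
    have h5 : (C ^ N)⁻¹ * Real.sqrt (na N G L h K b) ≤ Real.sqrt (na N F L h K b) := by
      refine Real.le_sqrt_of_sq_le ?_
      rw [mul_pow, Real.sq_sqrt hn, inv_pow]
      exact h4
    calc (C ^ N)⁻¹ * na N G L h K b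
        = ((C ^ N)⁻¹ * Real.sqrt (na N G L h K b)) * Real.sqrt (na N G L h K b) := by
          rw [mul_assoc, Real.mul_self_sqrt hn]
      _ ≤ _ := mul_le_mul_of_nonneg_right h5 (Real.sqrt_nonneg _)
  calc (C ^ N)⁻¹ / 2 = (C ^ N)⁻¹ * (1 - 1 / 2) := by ring
    _ ≤ (C ^ N)⁻¹ * ∑ b ∈ B, na N G L h K b :=
        mul_le_mul_of_nonneg_left h3 (inv_pos.2 hCN).le
    _ = ∑ b ∈ B, (C ^ N)⁻¹ * na N G L h K b := mul_sum _ _ _
    _ ≤ _ := sum_le_sum fun b _ => hpt b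

end lemmas

section main
variable {Γ : Type*} [Group Γ] [DecidableEq Γ] {J : Type*} [Fintype J] [DecidableEq J]
  {N : ℕ} {w : Γ → ℝ} {f f0 : (J → ℝ) → Γ → Γ → ℝ} {A : ℝ}

/-- Assembly of the functions of the geometric statement of rank `|J|`. `f t g b` is the gauge of
the left family, `f0 t g b` the gauge of the right family; `Deep D g`: the gaps in `J` are at
least `D`; `Dom R g`: the other gaps are at most `R`. -/
theorem asmR (Deep Dom : ℝ → Γ → Prop)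
    (hDeep : ∀ R R' g, R ≤ R' → Deep R' g → Deep R g)
    (hDom : ∀ R R' g, R ≤ R' → Dom R g → Dom R' g)
    (sDom : ∀ s : Γ, ∃ C : ℝ, ∀ R g, Dom R g → Dom (R + C) (s * g))
    (hw : ∀ b, 0 < w b) (hs : Summable fun b => ((w b) ^ N)⁻¹)
    (lo : ∀ t g, ∃ c > 0, ∀ b, c * w b ≤ f t g b)
    (lo0 : ∀ t g, ∃ c > 0, ∀ b, c * w b ≤ f0 t g b)
    (bd : ∀ R T : ℝ, ∃ c > 0, ∃ C : ℝ, ∀ g, Dom R g → ∀ t : J → ℝ, (∀ j, 0 ≤ t j ∧ t j ≤ T) →
      ∀ b, c * w b ≤ f t g b ∧ f t g b ≤ C * w b)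
    (bd0 : ∀ T : ℝ, ∃ c > 0, ∃ C : ℝ, ∀ g, ∀ t : J → ℝ, (∀ j, 0 ≤ t j ∧ t j ≤ T) →
      ∀ b, c * w b ≤ f0 t g b ∧ f0 t g b ≤ C * w b)
    (lip : ∀ t d g b, f (t + d) g b ≤ Real.exp (A * ∑ j, |d j|) * f t g b)
    (left : ∀ (s : Γ) (R1 : ℝ), ∃ C : ℝ, ∀ ρ : ℝ, 0 < ρ → ∃ L : ℝ, ∀ T : ℝ, ∃ R : ℝ, ∀ g,
      Deep R g → Dom R1 g → ∃ p > 0, ∃ σ : J → ℝ, (∀ j, |σ j| ≤ C) ∧
        ∀ t : J → ℝ, (∀ j, L ≤ t j ∧ t j ≤ T) → ∀ b,
          |p * f (t + σ) (s * g) (s * b) - f t g b| ≤ ρ * f t g b)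
    (right : ∀ (u : Γ) (T η : ℝ), 0 < η → ∃ R : ℝ, ∀ g, Deep R g → ∀ t : J → ℝ,
      (∀ j, 0 ≤ t j ∧ t j ≤ T) → ∀ b, |f0 t (g * u) b - f0 t g b| ≤ η * f0 t g b)
    (ov : ∀ R : ℝ, ∃ C : ℝ, 1 ≤ C ∧ ∀ T : ℝ, ∃ D : ℝ, ∀ g, Deep D g → Dom R g →
      ∀ t : J → ℝ, (∀ j, 0 ≤ t j ∧ t j ≤ T) → ∀ b,
        f t g b ≤ C * f0 t g b ∧ f0 t g b ≤ C * f t g b) :
    ∀ R : ℝ, ∃ c > 0, ∀ (S : Finset Γ) (ε : ℝ), 0 < ε → ∀ R1 : ℝ,
      ∃ (B : Finset Γ) (F H : Γ → Γ → ℝ) (D : ℝ),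
        (∀ b g, 0 ≤ F b g) ∧ (∀ b g, 0 ≤ H b g) ∧
        (∀ b ∉ B, ∀ g, F b g = 0) ∧ (∀ b ∉ B, ∀ g, H b g = 0) ∧
        (∀ g, ∑ b ∈ B, F b g ^ 2 ≤ 1) ∧ (∀ g, ∑ b ∈ B, H b g ^ 2 ≤ 1) ∧
        (∀ s ∈ S, ∀ g, Deep D g → Dom R1 g →
          ∑ b ∈ B ∪ B.image (fun b => s⁻¹ * b), (F (s * b) (s * g) - F b g) ^ 2 ≤ ε) ∧
        (∀ (u : Γ) (η : ℝ), 0 < η → ∃ D' : ℝ, ∀ g, Deep D' g → ∀ b,
          |H b (g * u) - H b g| ≤ η) ∧
        (∀ g, Deep D g → Dom R g → c ≤ ∑ b ∈ B, F b g * H b g) := by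
  have : Nonempty Γ := ⟨1⟩
  have hf : ∀ t g b, 0 < f t g b := fun t g b => by
    obtain ⟨c, hc, h⟩ := lo t g
    exact (mul_pos hc (hw b)).trans_le (h b)
  have hf0 : ∀ t g b, 0 < f0 t g b := fun t g b => by
    obtain ⟨c, hc, h⟩ := lo0 t g
    exact (mul_pos hc (hw b)).trans_le (h b)
  have sf : ∀ t g, Summable fun b => ((f t g b) ^ N)⁻¹ := fun t g => by
    obtain ⟨c, hc, h⟩ := lo t g
    exact uw_summable hw hs hc h
  have sf0 : ∀ t g, Summable fun b => ((f0 t g b) ^ N)⁻¹ := fun t g => by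
    obtain ⟨c, hc, h⟩ := lo0 t g
    exact uw_summable hw hs hc h
  intro R
  obtain ⟨C, hC1, hov⟩ := ov R
  have hC0 : 0 < C := by linarith
  have hCN : 0 < C ^ N := pow_pos hC0 N
  refine ⟨(C ^ N)⁻¹ / 2, by positivity, ?_⟩
  intro S ε hε R1
  -- constants
  set d : ℝ := (Fintype.card J : ℝ) with hd
  have hd0 : 0 ≤ d := Nat.cast_nonneg _
  set δ₀ : ℝ := Real.log (1 + ε / 4) / (2 * N + 1) with hδ₀
  have hδ₀p : 0 < δ₀ := div_pos (Real.log_pos (by linarith)) (by positivity)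
  have hr18 : (Real.exp δ₀ ^ N) ^ 2 - 1 ≤ ε / 4 := hexp N (by linarith)
  set h : ℝ := δ₀ / (2 * ((|A| + 1) * (d + 1))) with hh
  have hhp : 0 < h := by
    rw [hh]; exact div_pos hδ₀p (by positivity)
  have hAd : |A| * (d * h) ≤ δ₀ / 2 := by
    have e : δ₀ / 2 = (|A| + 1) * ((d + 1) * h) := by
      rw [hh]; field_simp
    rw [e]
    have a2 : d * h ≤ (d + 1) * h := by nlinarith
    have a3 : 0 ≤ (d + 1) * h := by positivity
    calc |A| * (d * h) ≤ |A| * ((d + 1) * h) := mul_le_mul_of_nonneg_left a2 (abs_nonneg A)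
      _ ≤ (|A| + 1) * ((d + 1) * h) := mul_le_mul_of_nonneg_right (by linarith) a3
  set ρ₀ : ℝ := 1 - Real.exp (-(δ₀ / 2)) with hρ₀
  have hρ₀p : 0 < ρ₀ := by
    rw [hρ₀, sub_pos, Real.exp_lt_one_iff]; linarith
  choose Cs hCs using fun s => left s R1
  choose L hL using fun s => hCs s ρ₀ hρ₀p
  obtain ⟨C₀, hC₀, hCC⟩ := exists_bound S Cs
  obtain ⟨L₀, hL₀, hLL⟩ := exists_bound S L
  have hM : 0 < C₀ / h + 1 := by positivity
  obtain ⟨K, hK⟩ := exists_nat_gt (8 * (d * (C₀ / h + 1)) / ε)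
  have hKp' : (0 : ℝ) < K := lt_of_le_of_lt (by positivity) hK
  have hKp : 0 < K := by exact_mod_cast hKp'
  have hbound : 2 * (d * (C₀ / h + 1)) / K ≤ ε / 4 := by
    rw [div_le_iff₀ hKp']
    rw [div_lt_iff₀ hε] at hK
    linarith
  set T : ℝ := L₀ + K * h with hT
  choose RL hRL using fun s => hL s T
  obtain ⟨R₀, -, hRR⟩ := exists_bound S RL
  choose Ds hDs using sDom
  obtain ⟨C₁, hC₁, hCD⟩ := exists_bound S Ds
  obtain ⟨D₀, hD₀⟩ := hov T
  set R2 : ℝ := max R (R1 + C₁) with hR2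
  obtain ⟨c2, hc2, C2, hbd⟩ := bd R2 T
  obtain ⟨c3, hc3, C3, hbd0⟩ := bd0 T
  set τ : ℝ := min (ε / 4) (1 / 2) with hτ
  have hτp : 0 < τ := lt_min (by linarith) (by norm_num)
  have hτ1 : τ ≤ ε / 4 := min_le_left _ _
  have hτ2 : τ ≤ 1 / 2 := min_le_right _ _
  obtain ⟨B1, hB1⟩ := exists_tail (C2 * w 1) hw hs hc2 (1 : Γ) hτp
  obtain ⟨B2, hB2⟩ := exists_tail (C3 * w 1) hw hs hc3 (1 : Γ) hτp
  set B : Finset Γ := B1 ∪ B2 with hBdef
  -- grid points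
  have hgr : ∀ x ∈ gr J K, ∀ j, L₀ ≤ pt L₀ h (ci x) j ∧ pt L₀ h (ci x) j ≤ T := by
    intro x hx j
    have a2 : (x j : ℝ) ≤ K := by exact_mod_cast (mem_gr.1 hx j).le
    have a3 : (0 : ℝ) ≤ x j := Nat.cast_nonneg _
    simp only [pt, ci, hT, Int.cast_natCast]
    constructor
    · have : 0 ≤ (x j : ℝ) * h := by positivity
      linarith
    · have : (x j : ℝ) * h ≤ K * h := mul_le_mul_of_nonneg_right a2 hhp.le
      linarith
  have hgr0 : ∀ x ∈ gr J K, ∀ j, 0 ≤ pt L₀ h (ci x) j ∧ pt L₀ h (ci x) j ≤ T := fun x hx j =>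
    ⟨hL₀.trans (hgr x hx j).1, (hgr x hx j).2⟩
  -- the averages
  obtain ⟨nf, hnf⟩ : ∃ nf : Γ → Γ → ℝ, nf = fun g b => na N (fun t => f t g) L₀ h K b := ⟨_, rfl⟩
  obtain ⟨nf0, hnf0⟩ : ∃ nf0 : Γ → Γ → ℝ, nf0 = fun g b => na N (fun t => f0 t g) L₀ h K b :=
    ⟨_, rfl⟩
  have nf_nonneg : ∀ g b, 0 ≤ nf g b := fun g b => by
    rw [hnf]; exact na_nonneg (fun t b => hf t g b) _ _ _ _
  have nf0_nonneg : ∀ g b, 0 ≤ nf0 g b := fun g b => by
    rw [hnf0]; exact na_nonneg (fun t b => hf0 t g b) _ _ _ _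
  have nf_le : ∀ g (T : Finset Γ), ∑ b ∈ T, nf g b ≤ 1 := fun g T => by
    rw [hnf]; exact na_sum_le (fun t b => hf t g b) (fun t => sf t g) _ _ hKp T
  have nf0_le : ∀ g (T : Finset Γ), ∑ b ∈ T, nf0 g b ≤ 1 := fun g T => by
    rw [hnf0]; exact na_sum_le (fun t b => hf0 t g b) (fun t => sf0 t g) _ _ hKp T
  have hmass : ∀ g, Dom R2 g → 1 - τ ≤ ∑ b ∈ B, nf g b := fun g hg => by
    rw [hnf]
    exact le_na_sum (fun t => f t g) L₀ h hKp B fun x hx =>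
      hB1 B subset_union_left _ (fun b => (hbd g hg _ (hgr0 x hx) b).1)
        (hbd g hg _ (hgr0 x hx) 1).2
  have hmass0 : ∀ g, 1 - τ ≤ ∑ b ∈ B, nf0 g b := fun g => by
    rw [hnf0]
    exact le_na_sum (fun t => f0 t g) L₀ h hKp B fun x hx =>
      hB2 B subset_union_right _ (fun b => (hbd0 g _ (hgr0 x hx) b).1)
        (hbd0 g _ (hgr0 x hx) 1).2
  -- covariance of the averages
  have hcov : ∀ s ∈ S, ∀ g, Deep R₀ g → Dom R1 g → ∀ T' : Finset Γ,
      ∑ b ∈ T', |nf (s * g) (s * b) - nf g b| ≤ ε / 4 + ε / 4 := by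
    intro s hs' g hg hg1 T'
    obtain ⟨p, hp, σ, hσ, hest⟩ := hRL s g (hDeep _ _ g (hRR s hs') hg) hg1
    have sfs : ∀ t, Summable fun b => ((f t (s * g) (s * b)) ^ N)⁻¹ := fun t =>
      (Equiv.mulLeft s).summable_iff.2 (sf t (s * g))
    have hmain := left_avg (N := N) (F := fun t b => f t (s * g) (s * b))
      (G := fun t b => f t g b)
      (fun t b => hf _ _ _) (fun t b => hf _ _ _) sfs (fun t => sf t g)
      (fun t d b => lip t d (s * g) (s * b)) (L := L₀) hδ₀p.le hhp hAd hp hKp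
      (fun j => (hσ j).trans (hCC s hs'))
      (fun x hx b => hest (pt L₀ h (ci x))
        (fun j => ⟨(hLL s hs').trans (hgr x hx j).1, (hgr x hx j).2⟩) b) T'
    refine le_trans (le_of_eq ?_) (hmain.trans (add_le_add hr18 hbound))
    rw [hnf]
    refine sum_congr rfl fun b _ => ?_
    rw [na_mul_left (fun t b => f t (s * g) b)]
  -- right invariance of the averages
  have hrt : ∀ (u : Γ) (η : ℝ), 0 < η → ∃ D' : ℝ, ∀ g, Deep D' g → ∀ b,
      |nf0 (g * u) b - nf0 g b| ≤ η := by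
    intro u η hη
    have hx : 0 < Real.log (1 + η) / (2 * N + 1) :=
      div_pos (Real.log_pos (by linarith)) (by positivity)
    have hη' : 0 < 1 - Real.exp (-(Real.log (1 + η) / (2 * N + 1))) := by
      rw [sub_pos, Real.exp_lt_one_iff]; linarith
    obtain ⟨R', hR'⟩ := right u T _ hη'
    refine ⟨R', fun g hg b => ?_⟩
    rw [hnf0]
    exact (right_avg (N := N) (F := fun t b => f0 t (g * u) b) (G := fun t b => f0 t g b)
      (fun t b => hf0 _ _ _) (fun t b => hf0 _ _ _) (fun t => sf0 t (g * u)) (fun t => sf0 t g)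
      hx.le hKp (fun y hy b => hR' g hg _ (hgr0 y hy) b) b).trans (hexp N hη)
  -- overlap of the averages
  have hovl : ∀ g, Deep D₀ g → Dom R g →
      (C ^ N)⁻¹ / 2 ≤ ∑ b ∈ B, Real.sqrt (nf g b) * Real.sqrt (nf0 g b) := by
    intro g hg hgR
    have hm0 := hmass0 g
    rw [hnf0] at hm0
    rw [hnf, hnf0]
    exact overlap (N := N) (F := fun t => f t g) (G := fun t => f0 t g)
      (fun t b => hf _ _ _) (fun t b => hf0 _ _ _) (fun t => sf t g) (fun t => sf0 t g) hC0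
      L₀ h K (fun x hx b => (hD₀ g hg hgR _ (hgr0 x hx) b).1)
      (fun x hx b => (hD₀ g hg hgR _ (hgr0 x hx) b).2) (by linarith)
  clear hnf hnf0 hgr hgr0 hB1 hB2 hbd hbd0 hRL hL hCs hK hbound hD₀
  refine ⟨B, fun b g => if b ∈ B then Real.sqrt (nf g b) else 0,
    fun b g => if b ∈ B then Real.sqrt (nf0 g b) else 0, max R₀ D₀, ?_, ?_, ?_, ?_, ?_, ?_,
    ?_, ?_, ?_⟩
  · intro b g
    dsimp only; split_ifs
    · exact Real.sqrt_nonneg _
    · exact le_rfl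
  · intro b g
    dsimp only; split_ifs
    · exact Real.sqrt_nonneg _
    · exact le_rfl
  · intro b hb g; simp [hb]
  · intro b hb g; simp [hb]
  · intro g
    refine le_trans (le_of_eq (sum_congr rfl fun b hb => ?_)) (nf_le g B)
    simp only [hb, if_true]; exact Real.sq_sqrt (nf_nonneg g b)
  · intro g
    refine le_trans (le_of_eq (sum_congr rfl fun b hb => ?_)) (nf0_le g B)
    simp only [hb, if_true]; exact Real.sq_sqrt (nf0_nonneg g b)
  · -- covariance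
    intro s hs' g hg hg1
    have hdom1 : Dom R2 g := hDom _ _ g (by
      have : R1 ≤ R1 + C₁ := by linarith
      exact this.trans (le_max_right _ _)) hg1
    have hdom2 : Dom R2 (s * g) := hDom _ _ _ (by
      have : R1 + Ds s ≤ R1 + C₁ := by linarith [hCD s hs']
      exact this.trans (le_max_right _ _)) (hDs s R1 g hg1)
    have hm := hcov s hs' g (hDeep _ _ g (le_max_left _ _) hg) hg1
      (B ∪ B.image (fun b => s⁻¹ * b))
    have := trunc_sum (nf_nonneg g) (nf_nonneg (s * g)) (nf_le g) (nf_le (s * g))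
      (hmass g hdom1) (hmass (s * g) hdom2) s _ hm
    refine this.trans ?_
    linarith
  · -- right invariance of `H`
    intro u η hη
    have hη2 : 0 < η ^ 2 := pow_pos hη 2
    obtain ⟨D', hD'⟩ := hrt u (η ^ 2) hη2
    refine ⟨D', fun g hg b => ?_⟩
    by_cases hb : b ∈ B
    swap
    · simp only [hb, if_false, sub_zero, abs_zero]; exact hη.le
    simp only [hb, if_true]
    have h4 := (sqrt_sub_sq (nf0_nonneg (g * u) b) (nf0_nonneg g b)).trans (hD' g hg b)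
    exact abs_le_of_sq_le_sq h4 hη.le
  · -- overlap
    intro g hg hgR
    refine (hovl g (hDeep _ _ g (le_max_right _ _) hg) hgR).trans (le_of_eq ?_)
    refine sum_congr rfl fun b hb => ?_
    simp only [hb, if_true]

end main

end Vale.Agent.P092.H515.R1d
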