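import Vale.Agent.P092.H515.RkFin
import Vale.Agent.P092.H761.SharpInst
import Vale.Agent.P092.H124.RankFin
import Vale.Agent.P092.H200.MultiMore

/-!
P092 (helper515): the final statement, version 3.
-/

set_option linter.all false

namespace Vale.Agent.P092.H515

open Vale.Agent.P092.H103.St Vale.Agent.P092.H515.St
open Vale.Agent.P092.H124.St (CommNA)

theorem final3 :
    (∀ (G H : Type) [Group G] [TopologicalSpace G] [Group H] [TopologicalSpace H] (r s : ℕ),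
      Rk (fun _ => True) G r → Rk (fun q => q ≠ 1) H s → r < s →
      ∀ (Γ Λ : Type) [Group Γ] [Group Λ], DiscIn G Γ → LatIn H Λ → NoEmb Γ Λ) ∧
    (∀ m n : ℕ, 2 ≤ m → 2 ≤ n → m ≠ n →
      ∀ (Γ : Subgroup (Matrix.ProjectiveSpecialLinearGroup (Fin m) ℤ))
        (Λ : Subgroup (Matrix.ProjectiveSpecialLinearGroup (Fin n) ℤ)),
        Γ.FiniteIndex → Λ.FiniteIndex → ∀ (k : ℕ) (p : MOp k Γ), IsProj p →
        IsEmpty (CornerIso Λ Γ k p)) ∧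
    (∀ (G : Type) [Group G] [TopologicalSpace G] (r : ℕ), Rk (fun _ => True) G r →
      ∀ (Γ Λ : Type) [Group Γ] [Group Λ], DiscIn G Γ → CommNA r Λ → NoEmb Γ Λ) ∧
    (∀ r : ℕ,
      (∀ m : ℕ, 2 * r + 2 ≤ m → ∀ Λ : Subgroup (Matrix.SpecialLinearGroup (Fin m) ℤ),
        Λ.FiniteIndex → CommNA r Λ) ∧
      (∀ m : ℕ, 2 * r + 2 ≤ m → ∀ Λ : Subgroup (Matrix.ProjectiveSpecialLinearGroup (Fin m) ℤ),
        Λ.FiniteIndex → CommNA r Λ) ∧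
      (∀ m : ℕ, r + 1 ≤ m → ∀ Λ : Subgroup (Matrix.symplecticGroup (Fin m) ℤ),
        Λ.FiniteIndex → CommNA r Λ) ∧
      (∀ n : ℕ, 3 ≤ n → r + 4 ≤ 2 * n → ∀ Λ : Subgroup (MulAut (FreeGroup (Fin n))),
        Λ.FiniteIndex → CommNA r Λ) ∧
      (∀ (Λ : Type) [Group Λ] (φ : (Fin (r + 1) → FreeGroup (Fin 2)) →* Λ),
        Function.Injective φ → CommNA r Λ)) := by
  refine ⟨fun G H _ _ _ _ r s hG hH hrs Γ Λ _ _ hΓ hΛ => ?_,
    (H261.final2 (H261.sharpRow H761.sharpInst)).2,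
    fun G _ _ r hG Γ Λ _ _ hΓ hΛ => ?_, fun r => ?_⟩
  · obtain ⟨Γ₀, i, h1, h2, h3⟩ := hΓ
    obtain ⟨Λ₀, j, h4, h5⟩ := hΛ
    exact sharp hG hH hrs h1 h4 i j h2 h3 h5
  · obtain ⟨Γ₀, i, h1, h2, h3⟩ := hΓ
    exact rank hG h1 i h2 h3 hΛ
  · obtain ⟨a1, a2, a3, a4⟩ := H124.final.2.2.2 r
    exact ⟨a1, a2, a3, (H200.multi_families_more r (fun Λ _ => CommNA r Λ) fun Λ _ h => h).1, a4⟩

end Vale.Agent.P092.H515
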