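import Vale.Agent.P092.H515.Tgt

/-!
P092 (helper515): groups of forms over local fields as target groups. Bounded Cartan decompositions.
-/

set_option linter.all false

namespace Vale.Agent.P092.H515

open Matrix

section mat
variable {k : Type*} [NormedField k] {N : ℕ}

lemma norm_mul_apply_le {l m n : Type*} [Fintype m] {A : Matrix l m k} {B : Matrix m n k}
    {x y : ℝ} (hx : 0 ≤ x) (hA : ∀ i j, ‖A i j‖ ≤ x) (hB : ∀ i j, ‖B i j‖ ≤ y) (i : l) (j : n) :
    ‖(A * B) i j‖ ≤ Fintype.card m * (x * y) := by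
  rw [Matrix.mul_apply]
  refine (norm_sum_le _ _).trans ?_
  rw [← nsmul_eq_mul, ← Finset.card_univ, ← Finset.sum_const]
  exact Finset.sum_le_sum fun l _ => by
    rw [norm_mul]
    exact mul_le_mul (hA _ _) (hB _ _) (norm_nonneg _) hx

/-- Comparison of two diagonal matrices. -/
theorem norm_le_of_dec {X Y : Matrix (Fin N) (Fin N) k} {a b : Fin N → k} {A B : ℝ} (hA0 : 0 ≤ A)
    (hB0 : 0 ≤ B) (hX : ∀ i j, ‖X i j‖ ≤ A) (hY : ∀ i j, ‖Y i j‖ ≤ B)
    (h : diagonal a = X * diagonal b * Y) (ha : Antitone fun i => ‖a i‖)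
    (hb : Antitone fun i => ‖b i‖) (i : Fin N) : ‖a i‖ ≤ (N * A) * (N * B) * ‖b i‖ := by
  obtain ⟨i, hi⟩ := i
  -- a nonzero vector `x` supported on `≤ i`, with `Y x` supported on `≥ i`
  obtain ⟨x, hx0, hxs, hxY⟩ : ∃ x : Fin N → k, x ≠ 0 ∧ (∀ l : Fin N, i < l → x l = 0) ∧
      ∀ l : Fin N, (l : ℕ) < i → (Y *ᵥ x) l = 0 := by
    have hle : i + 1 ≤ N := hi
    obtain ⟨f, hf⟩ : ∃ f : (Fin (i + 1) → k) →ₗ[k] (Fin i → k), f =
      (Y.submatrix (fun l : Fin i => (⟨l, l.2.trans hi⟩ : Fin N))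
        (fun l : Fin (i + 1) => Fin.castLE hle l)).mulVecLin := ⟨_, rfl⟩
    have hker : LinearMap.ker f ≠ ⊥ := LinearMap.ker_ne_bot_of_finrank_lt (by simp)
    obtain ⟨y, hy, hy0⟩ := (Submodule.ne_bot_iff _).1 hker
    refine ⟨fun l => if h : (l : ℕ) < i + 1 then y ⟨l, h⟩ else 0, ?_, ?_, ?_⟩
    · intro h0
      apply hy0
      funext l
      have h1 := congrFun h0 (Fin.castLE hle l)
      rw [dif_pos (show ((Fin.castLE hle l : Fin N) : ℕ) < i + 1 from l.2)] at h1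
      exact h1
    · intro l hl
      dsimp only
      rw [dif_neg (by omega)]
    · intro l hl
      have h1 := congrFun (LinearMap.mem_ker.1 hy) ⟨l, hl⟩
      rw [hf] at h1
      simp only [mulVecLin_apply, mulVec, dotProduct, submatrix_apply, Pi.zero_apply] at h1
      refine Eq.trans ?_ h1
      have e0 : (Y *ᵥ fun l : Fin N => if h : (l : ℕ) < i + 1 then y ⟨l, h⟩ else 0) l =
        ∑ m : Fin N, Y l m * (if h : (m : ℕ) < i + 1 then y ⟨m, h⟩ else 0) := rfl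
      rw [e0]
      symm
      refine Finset.sum_of_injOn (fun m => Fin.castLE hle m) (Fin.castLE_injective hle).injOn
        (fun _ _ => Finset.mem_coe.2 (Finset.mem_univ _)) ?_ ?_
      · intro m _ hm
        rw [dif_neg, mul_zero]
        intro hm'
        exact hm ⟨⟨m, hm'⟩, Finset.mem_coe.2 (Finset.mem_univ _), rfl⟩
      · intro m _
        have : ((Fin.castLE hle m : Fin N) : ℕ) < i + 1 := m.2
        rw [dif_pos this]
        rfl
  -- the largest entry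
  have hne : (Finset.univ : Finset (Fin N)).Nonempty := ⟨⟨i, hi⟩, Finset.mem_univ _⟩
  obtain ⟨m, -, hm⟩ := Finset.exists_max_image Finset.univ (fun l => ‖x l‖) hne
  have hm0 : 0 < ‖x m‖ := by
    rw [norm_pos_iff]
    intro h0
    apply hx0
    funext l
    have := hm l (Finset.mem_univ l)
    rw [h0, norm_zero] at this
    exact norm_le_zero_iff.1 this
  have hmi : (m : ℕ) ≤ i := by
    by_contra hc
    rw [hxs m (by omega), norm_zero] at hm0
    exact lt_irrefl _ hm0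
  -- bound of `Y x`
  have hYx : ∀ l, ‖(Y *ᵥ x) l‖ ≤ N * B * ‖x m‖ := by
    intro l
    have e0 : (Y *ᵥ x) l = ∑ l', Y l l' * x l' := rfl
    rw [e0]
    refine (norm_sum_le _ _).trans ?_
    have h1 : ∀ l' ∈ Finset.univ, ‖Y l l' * x l'‖ ≤ B * ‖x m‖ := fun l' _ => by
      rw [norm_mul]
      exact mul_le_mul (hY _ _) (hm l' (Finset.mem_univ _)) (norm_nonneg _) hB0
    refine (Finset.sum_le_sum h1).trans ?_
    rw [Finset.sum_const, nsmul_eq_mul, Finset.card_univ, Fintype.card_fin]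
    exact le_of_eq (by ring)
  -- the equation
  have e1 : a m * x m = ∑ l, X m l * (b l * (Y *ᵥ x) l) := by
    have h1 : (diagonal a *ᵥ x) m = ((X * diagonal b * Y) *ᵥ x) m := by rw [h]
    rw [mulVec_diagonal, ← mulVec_mulVec, ← mulVec_mulVec] at h1
    rw [h1]
    have e2 : (X *ᵥ diagonal b *ᵥ Y *ᵥ x) m = ∑ l, X m l * (diagonal b *ᵥ Y *ᵥ x) l := rfl
    rw [e2]
    exact Finset.sum_congr rfl fun l _ => by rw [mulVec_diagonal]
  have h2 : ‖a m * x m‖ ≤ N * (A * (‖b ⟨i, hi⟩‖ * (N * B * ‖x m‖))) := by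
    rw [e1]
    refine (norm_sum_le _ _).trans ?_
    have h1 : ∀ l ∈ Finset.univ, ‖X m l * (b l * (Y *ᵥ x) l)‖ ≤
        A * (‖b ⟨i, hi⟩‖ * (N * B * ‖x m‖)) := by
      intro l _
      rw [norm_mul, norm_mul]
      by_cases hl : (l : ℕ) < i
      · rw [hxY l hl, norm_zero, mul_zero, mul_zero]
        positivity
      · refine mul_le_mul (hX _ _) ?_ (by positivity) hA0
        exact mul_le_mul (hb (Fin.le_def.2 (not_lt.1 hl))) (hYx l) (norm_nonneg _)
          (norm_nonneg _)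
    refine (Finset.sum_le_sum h1).trans ?_
    rw [Finset.sum_const, nsmul_eq_mul, Finset.card_univ, Fintype.card_fin]
  have h3 : ‖a ⟨i, hi⟩‖ * ‖x m‖ ≤ ‖a m * x m‖ := by
    rw [norm_mul]
    exact mul_le_mul_of_nonneg_right (ha (Fin.le_def.2 hmi)) (norm_nonneg _)
  have h4 : ‖a ⟨i, hi⟩‖ * ‖x m‖ ≤ ((N * A) * (N * B) * ‖b ⟨i, hi⟩‖) * ‖x m‖ :=
    (h3.trans h2).trans (le_of_eq (by ring))
  exact le_of_mul_le_mul_right h4 hm0

/-- A bounded Cartan decomposition `g = κ diag(a) κ'`. -/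
structure Dec (M : ℝ) (g κ κi κ' κi' : Matrix (Fin N) (Fin N) k) (a : Fin N → k) : Prop where
  mul : κ * κi = 1
  mul' : κ' * κi' = 1
  le : ∀ i j, ‖κ i j‖ ≤ M
  lei : ∀ i j, ‖κi i j‖ ≤ M
  le' : ∀ i j, ‖κ' i j‖ ≤ M
  lei' : ∀ i j, ‖κi' i j‖ ≤ M
  eq : g = κ * diagonal a * κ'
  ne : ∀ i, a i ≠ 0
  anti : Antitone fun i => ‖a i‖

namespace Dec
variable {M M' : ℝ} {g κ κi κ' κi' κ₂ κi₂ κ₂' κi₂' : Matrix (Fin N) (Fin N) k} {a b : Fin N → k}

theorem comm (h : Dec M g κ κi κ' κi' a) : κi * κ = 1 := mul_eq_one_comm.1 h.mul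

theorem comm' (h : Dec M g κ κi κ' κi' a) : κi' * κ' = 1 := mul_eq_one_comm.1 h.mul'

theorem diag_eq (h : Dec M g κ κi κ' κi' a) : diagonal a = κi * g * κi' := by
  rw [h.eq]
  calc diagonal a = (κi * κ) * diagonal a * (κ' * κi') := by
        rw [h.comm, h.mul', Matrix.one_mul, Matrix.mul_one]
    _ = _ := by simp only [Matrix.mul_assoc]

/-- Two bounded Cartan decompositions of the same matrix. -/
theorem compare (h : Dec M g κ κi κ' κi' a) (h' : Dec M' g κ₂ κi₂ κ₂' κi₂' b) (hM : 0 ≤ M)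
    (hM' : 0 ≤ M') (i : Fin N) :
    ‖a i‖ ≤ (N * (N * (M * M'))) * (N * (N * (M' * M))) * ‖b i‖ := by
  have e : diagonal a = (κi * κ₂) * diagonal b * (κ₂' * κi') := by
    rw [h.diag_eq, h'.eq]
    simp only [Matrix.mul_assoc]
  refine norm_le_of_dec (by positivity) (by positivity) (fun i j => ?_) (fun i j => ?_) e h.anti
    h'.anti i
  · simpa using norm_mul_apply_le hM h.lei h'.le i j
  · simpa using norm_mul_apply_le hM' h'.le' h.lei' i j

/-- The inverse. -/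
theorem inv (h : Dec M g κ κi κ' κi' a) {gi : Matrix (Fin N) (Fin N) k} (hg : g * gi = 1) :
    Dec M gi (κi'.submatrix id Fin.rev) (κ'.submatrix Fin.rev id) (κi.submatrix Fin.rev id)
      (κ.submatrix id Fin.rev) (fun i => (a (Fin.rev i))⁻¹) where
  mul := by
    have := h.comm'
    rw [← this]
    ext i j
    rw [Matrix.mul_apply, Matrix.mul_apply]
    exact Equiv.sum_comp Fin.revPerm (fun l => κi' i l * κ' l j)
  mul' := by
    ext i j
    have h1 : (κi.submatrix Fin.rev id * κ.submatrix id Fin.rev) i j =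
      (κi * κ) (Fin.rev i) (Fin.rev j) := by
      rw [Matrix.mul_apply, Matrix.mul_apply]
      rfl
    rw [h1, h.comm, Matrix.one_apply, Matrix.one_apply]
    simp only [Fin.rev_inj]
  le i j := h.lei' _ _
  lei i j := h.le' _ _
  le' i j := h.lei _ _
  lei' i j := h.le _ _
  eq := by
    have h1 : gi = κi' * diagonal (fun i => (a i)⁻¹) * κi := by
      have h2 : g * (κi' * diagonal (fun i => (a i)⁻¹) * κi) = 1 := by
        rw [h.eq]
        calc κ * diagonal a * κ' * (κi' * diagonal (fun i => (a i)⁻¹) * κi)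
            = κ * diagonal a * (κ' * κi') * diagonal (fun i => (a i)⁻¹) * κi := by
              simp only [Matrix.mul_assoc]
          _ = κ * (diagonal a * diagonal (fun i => (a i)⁻¹)) * κi := by
              rw [h.mul', Matrix.mul_one]; simp only [Matrix.mul_assoc]
          _ = 1 := by
              rw [diagonal_mul_diagonal]
              have : (fun i => a i * (a i)⁻¹) = fun _ => 1 := by
                funext i; exact mul_inv_cancel₀ (h.ne i)
              rw [this, diagonal_one, Matrix.mul_one, h.mul]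
      have h3 : gi * g = 1 := mul_eq_one_comm.1 hg
      calc gi = gi * (g * (κi' * diagonal (fun i => (a i)⁻¹) * κi)) := by
            rw [h2, Matrix.mul_one]
        _ = (gi * g) * (κi' * diagonal (fun i => (a i)⁻¹) * κi) := by
            simp only [Matrix.mul_assoc]
        _ = _ := by rw [h3, Matrix.one_mul]
    rw [h1]
    ext i j
    rw [Matrix.mul_apply, Matrix.mul_apply]
    symm
    refine Eq.trans ?_ (Equiv.sum_comp Fin.revPerm _)
    refine Finset.sum_congr rfl fun l _ => ?_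
    rw [mul_diagonal, mul_diagonal]
    rfl
  ne i := inv_ne_zero (h.ne _)
  anti i j hij := by
    dsimp only
    rw [norm_inv, norm_inv]
    exact inv_anti₀ (norm_pos_iff.2 (h.ne _)) (h.anti (Fin.rev_le_rev.2 hij))

/-- The adjoint. -/
theorem adj (h : Dec M g κ κi κ' κi' a) (hM : 0 ≤ M) {σ : k →+* k} (hσ : ∀ x, ‖σ x‖ = ‖x‖)
    {J Ji : Matrix (Fin N) (Fin N) k} (hJ : J * Ji = 1) {B : ℝ} (hB : 0 ≤ B)
    (hJB : ∀ i j, ‖J i j‖ ≤ B) (hJiB : ∀ i j, ‖Ji i j‖ ≤ B) :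
    Dec (N * (B * M)) (J * (g.map σ)ᵀ * Ji) (J * (κ'.map σ)ᵀ) ((κi'.map σ)ᵀ * Ji)
      ((κ.map σ)ᵀ * Ji) (J * (κi.map σ)ᵀ) (fun i => σ (a i)) where
  mul := by
    have h1 : (κ'.map σ)ᵀ * (κi'.map σ)ᵀ = 1 := by
      rw [← transpose_mul, ← Matrix.map_mul, h.comm', Matrix.map_one σ (map_zero σ) (map_one σ),
        transpose_one]
    calc J * (κ'.map σ)ᵀ * ((κi'.map σ)ᵀ * Ji) = J * ((κ'.map σ)ᵀ * (κi'.map σ)ᵀ) * Ji := by
          simp only [Matrix.mul_assoc]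
      _ = 1 := by rw [h1, Matrix.mul_one, hJ]
  mul' := by
    have h1 : (κ.map σ)ᵀ * (κi.map σ)ᵀ = 1 := by
      rw [← transpose_mul, ← Matrix.map_mul, h.comm, Matrix.map_one σ (map_zero σ) (map_one σ),
        transpose_one]
    have h2 : Ji * J = 1 := mul_eq_one_comm.1 hJ
    calc (κ.map σ)ᵀ * Ji * (J * (κi.map σ)ᵀ) = (κ.map σ)ᵀ * (Ji * J) * (κi.map σ)ᵀ := by
          simp only [Matrix.mul_assoc]
      _ = 1 := by rw [h2, Matrix.mul_one, h1]
  le i j := by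
    have := norm_mul_apply_le hB hJB (B := (κ'.map σ)ᵀ) (y := M)
      (fun i j => by rw [transpose_apply, map_apply, hσ]; exact h.le' _ _) i j
    simpa using this
  lei i j := by
    have := norm_mul_apply_le hM (A := (κi'.map σ)ᵀ) (B := Ji) (y := B)
      (fun i j => by rw [transpose_apply, map_apply, hσ]; exact h.lei' _ _) hJiB i j
    rw [Fintype.card_fin, mul_comm M B] at this
    exact this
  le' i j := by
    have := norm_mul_apply_le hM (A := (κ.map σ)ᵀ) (B := Ji) (y := B)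
      (fun i j => by rw [transpose_apply, map_apply, hσ]; exact h.le _ _) hJiB i j
    rw [Fintype.card_fin, mul_comm M B] at this
    exact this
  lei' i j := by
    have := norm_mul_apply_le hB hJB (B := (κi.map σ)ᵀ) (y := M)
      (fun i j => by rw [transpose_apply, map_apply, hσ]; exact h.lei _ _) i j
    simpa using this
  eq := by
    have h1 : (g.map σ)ᵀ = (κ'.map σ)ᵀ * diagonal (fun i => σ (a i)) * (κ.map σ)ᵀ := by
      rw [h.eq, Matrix.map_mul, Matrix.map_mul, transpose_mul, transpose_mul,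
        Matrix.diagonal_map (map_zero σ), diagonal_transpose, Matrix.mul_assoc]
    rw [h1]
    simp only [Matrix.mul_assoc]
  ne i := (map_ne_zero σ).2 (h.ne i)
  anti i j hij := by
    dsimp only
    rw [hσ, hσ]
    exact h.anti hij

/-- Symmetry of the diagonal part for matrices of a form. -/
theorem symm_le (h : Dec M g κ κi κ' κi' a) (hM : 0 ≤ M) {σ : k →+* k} (hσ : ∀ x, ‖σ x‖ = ‖x‖)
    {J Ji : Matrix (Fin N) (Fin N) k} (hJ : J * Ji = 1) {B : ℝ} (hB : 0 ≤ B)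
    (hJB : ∀ i j, ‖J i j‖ ≤ B) (hJiB : ∀ i j, ‖Ji i j‖ ≤ B)
    (hg : g * J * (g.map σ)ᵀ = J) {C : ℝ}
    (hC : C = (N * (N * (M * (N * (B * M))))) * (N * (N * ((N * (B * M)) * M)))) (i : Fin N) :
    1 ≤ C * (‖a i‖ * ‖a (Fin.rev i)‖) ∧ ‖a i‖ * ‖a (Fin.rev i)‖ ≤ C := by
  have hg' : g * (J * (g.map σ)ᵀ * Ji) = 1 := by
    rw [← Matrix.mul_assoc, ← Matrix.mul_assoc, hg, hJ]
  have d1 := h.inv hg'
  have d2 := h.adj hM hσ hJ hB hJB hJiB
  have hM2 : 0 ≤ N * (B * M) := by positivity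
  have h1 := d1.compare d2 hM hM2 (Fin.rev i)
  have h2 := d2.compare d1 hM2 hM (Fin.rev i)
  simp only [Fin.rev_rev] at h1 h2
  rw [norm_inv, hσ] at h1 h2
  have hi : 0 < ‖a i‖ := norm_pos_iff.2 (h.ne i)
  constructor
  · rw [← hC] at h1
    have h3 := mul_le_mul_of_nonneg_left h1 hi.le
    rw [mul_inv_cancel₀ hi.ne'] at h3
    linarith
  · have e : C = (N * (N * ((N * (B * M)) * M))) * (N * (N * (M * (N * (B * M))))) := by
      rw [hC]; ring
    rw [← e] at h2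
    have h3 := mul_le_mul_of_nonneg_left h2 hi.le
    calc ‖a i‖ * ‖a (Fin.rev i)‖ ≤ ‖a i‖ * (C * ‖a i‖⁻¹) := h3
      _ = C := by field_simp

end Dec

end mat

section bounded
variable {k : Type*} [NormedField k] [ProperSpace k] {N q : ℕ} {σ : k →+* k}
  {J : Matrix (Fin N) (Fin N) k}

/-- The compact set of all `(κ, κ⁻¹)` with entries bounded by `M`. -/
theorem isCompact_pairs (M : ℝ) : IsCompact {p : Matrix (Fin N) (Fin N) k ×
    Matrix (Fin N) (Fin N) k | p.1 * p.2 = 1 ∧ (∀ i j, ‖p.1 i j‖ ≤ M) ∧ ∀ i j, ‖p.2 i j‖ ≤ M} := by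
  have h0 : IsCompact {A : Fin N → Fin N → k | ∀ i j, ‖A i j‖ ≤ M} := by
    have h2 : IsCompact (Set.univ.pi fun _ : Fin N => Set.univ.pi fun _ : Fin N =>
        Metric.closedBall (0 : k) M) :=
      isCompact_univ_pi fun _ => isCompact_univ_pi fun _ => isCompact_closedBall 0 M
    have e : {A : Fin N → Fin N → k | ∀ i j, ‖A i j‖ ≤ M} =
        (Set.univ.pi fun _ : Fin N => Set.univ.pi fun _ : Fin N =>
          Metric.closedBall (0 : k) M) := by
      ext A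
      simp only [Set.mem_univ_pi, mem_closedBall_zero_iff, Set.mem_setOf_eq]
    rw [e]
    exact h2
  have h1 : IsCompact {A : Matrix (Fin N) (Fin N) k | ∀ i j, ‖A i j‖ ≤ M} := h0
  refine (h1.prod h1).of_isClosed_subset ?_ fun p hp => ⟨hp.2.1, hp.2.2⟩
  have c1 : IsClosed {p : Matrix (Fin N) (Fin N) k × Matrix (Fin N) (Fin N) k |
      p.1 * p.2 = 1} :=
    isClosed_eq (continuous_fst.matrix_mul continuous_snd) continuous_const
  have c2 : IsClosed {p : Matrix (Fin N) (Fin N) k × Matrix (Fin N) (Fin N) k |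
      p ∈ {A : Matrix (Fin N) (Fin N) k | ∀ i j, ‖A i j‖ ≤ M} ×ˢ
        {A : Matrix (Fin N) (Fin N) k | ∀ i j, ‖A i j‖ ≤ M}} := (h1.prod h1).isClosed
  exact c1.inter c2

/-- The diagonal part is bounded beyond the Witt index. -/
theorem exists_bound (hq : q < N) (hσ : ∀ x, ‖σ x‖ = ‖x‖)
    (hiso : ∀ v : Fin (q + 1) → Fin N → k, LinearIndependent k v →
      ∃ i j, v i ⬝ᵥ (J *ᵥ (fun l => σ (v j l))) ≠ 0) {M : ℝ} (hM : 0 ≤ M) :
    ∃ C : ℝ, ∀ (g κ κi κ' κi' : Matrix (Fin N) (Fin N) k) (a : Fin N → k),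
      Dec M g κ κi κ' κi' a → g * J * (g.map σ)ᵀ = J → ‖a ⟨q, hq⟩‖ ≤ C := by
  have hσc : Continuous σ := by
    have : Isometry σ := by
      refine Isometry.of_dist_eq fun x y => ?_
      rw [dist_eq_norm, dist_eq_norm, ← map_sub, hσ]
    exact this.continuous
  obtain ⟨F, hF⟩ : ∃ F : Matrix (Fin N) (Fin N) k × Matrix (Fin N) (Fin N) k → ℝ, F = fun p =>
    ∑ l : Fin (q + 1), ∑ m : Fin (q + 1),
      ‖(p.1 * J * (p.1.map σ)ᵀ) (Fin.castLE hq l) (Fin.castLE hq m)‖ := ⟨_, rfl⟩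
  have hFc : Continuous F := by
    rw [hF]
    refine continuous_finset_sum _ fun l _ => continuous_finset_sum _ fun m _ => ?_
    refine Continuous.norm ?_
    refine Continuous.matrix_elem ?_ _ _
    refine (continuous_fst.matrix_mul continuous_const).matrix_mul ?_
    refine Continuous.matrix_transpose ?_
    refine continuous_matrix fun i j => ?_
    exact hσc.comp (continuous_fst.matrix_elem i j)
  obtain ⟨S, hS⟩ : ∃ S : Set (Matrix (Fin N) (Fin N) k × Matrix (Fin N) (Fin N) k), S =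
    {p | p.1 * p.2 = 1 ∧ (∀ i j, ‖p.1 i j‖ ≤ M) ∧ ∀ i j, ‖p.2 i j‖ ≤ M} := ⟨_, rfl⟩
  have hSc : IsCompact S := by rw [hS]; exact isCompact_pairs M
  have hpos : ∀ p ∈ S, 0 < F p := by
    intro p hp
    rw [hS] at hp
    have hu : LinearIndependent k (fun l : Fin N => p.1 l) :=
      Matrix.linearIndependent_rows_iff_isUnit.2 (isUnit_iff_exists.2
        ⟨p.2, hp.1, mul_eq_one_comm.1 hp.1⟩)
    obtain ⟨i, j, hij⟩ := hiso (fun l => p.1 (Fin.castLE hq l))
      (hu.comp _ (Fin.castLE_injective hq))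
    have e : (p.1 * J * (p.1.map σ)ᵀ) (Fin.castLE hq i) (Fin.castLE hq j) =
        p.1 (Fin.castLE hq i) ⬝ᵥ (J *ᵥ (fun l => σ (p.1 (Fin.castLE hq j) l))) := by
      rw [Matrix.mul_assoc, Matrix.mul_apply]
      rfl
    rw [hF]
    refine Finset.sum_pos' (fun l _ => Finset.sum_nonneg fun m _ => norm_nonneg _)
      ⟨i, Finset.mem_univ _, Finset.sum_pos' (fun m _ => norm_nonneg _)
        ⟨j, Finset.mem_univ _, ?_⟩⟩
    rw [e]
    exact norm_pos_iff.2 hij
  obtain ⟨c, hc, hcF⟩ : ∃ c : ℝ, 0 < c ∧ ∀ p ∈ S, c ≤ F p := by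
    rcases S.eq_empty_or_nonempty with hE | hE
    · exact ⟨1, one_pos, fun p hp => by rw [hE] at hp; exact hp.elim⟩
    · obtain ⟨p, hp, h1⟩ := hSc.exists_isMinOn hE hFc.continuousOn
      exact ⟨F p, hpos p hp, fun p' hp' => h1 hp'⟩
  obtain ⟨B, hB0, hB⟩ : ∃ B : ℝ, 0 ≤ B ∧ ∀ i j, ‖J i j‖ ≤ B := by
    obtain ⟨B, hB0, hB⟩ := exists_le_all (I := Fin N × Fin N) fun p => ‖J p.1 p.2‖
    exact ⟨B, hB0, fun i j => hB (i, j)⟩
  obtain ⟨C1, hC1⟩ : ∃ C1 : ℝ, C1 = N * ((N * (M * B)) * M) := ⟨_, rfl⟩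
  have hC10 : 0 ≤ C1 := by rw [hC1]; positivity
  refine ⟨max 1 ((q + 1) * ((q + 1) * C1) / c), fun g κ κi κ' κi' a h hg => ?_⟩
  have hmem : (κ', κi') ∈ S := by
    rw [hS]; exact ⟨h.mul', h.le', h.lei'⟩
  have h1 := hcF _ hmem
  -- the entries of `κ' J σ(κ')ᵀ`
  have e3 : (κ.map σ)ᵀ * (κi.map σ)ᵀ = 1 := by
    rw [← transpose_mul, ← Matrix.map_mul, h.comm, Matrix.map_one σ (map_zero σ) (map_one σ),
      transpose_one]
  have e4 : (g.map σ)ᵀ = (κ'.map σ)ᵀ * diagonal (fun i => σ (a i)) * (κ.map σ)ᵀ := by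
    rw [h.eq, Matrix.map_mul, Matrix.map_mul, transpose_mul, transpose_mul,
      Matrix.diagonal_map (map_zero σ), diagonal_transpose, Matrix.mul_assoc]
  have e1 : diagonal a * (κ' * J * (κ'.map σ)ᵀ) * diagonal (fun i => σ (a i)) =
      κi * J * (κi.map σ)ᵀ := by
    have e5 : κi * (g * J * (g.map σ)ᵀ) * (κi.map σ)ᵀ =
        diagonal a * (κ' * J * (κ'.map σ)ᵀ) * diagonal (fun i => σ (a i)) := by
      rw [e4]
      calc κi * (g * J * ((κ'.map σ)ᵀ * diagonal (fun i => σ (a i)) * (κ.map σ)ᵀ)) * (κi.map σ)ᵀ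
          = (κi * g) * J * (κ'.map σ)ᵀ * diagonal (fun i => σ (a i)) *
            ((κ.map σ)ᵀ * (κi.map σ)ᵀ) := by simp only [Matrix.mul_assoc]
        _ = (κi * g) * J * (κ'.map σ)ᵀ * diagonal (fun i => σ (a i)) := by
            rw [e3, Matrix.mul_one]
        _ = _ := by
            have e6 : κi * g = diagonal a * κ' := by
              rw [h.eq, ← Matrix.mul_assoc, ← Matrix.mul_assoc, h.comm, Matrix.one_mul]
            rw [e6]
            simp only [Matrix.mul_assoc]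
    rw [← e5, hg]
  have hb : ∀ l m, ‖a l‖ * ‖(κ' * J * (κ'.map σ)ᵀ) l m‖ * ‖a m‖ ≤ C1 := by
    intro l m
    have e7 := congrFun (congrFun e1 l) m
    rw [mul_diagonal, diagonal_mul] at e7
    have e8 : ‖a l‖ * ‖(κ' * J * (κ'.map σ)ᵀ) l m‖ * ‖a m‖ = ‖(κi * J * (κi.map σ)ᵀ) l m‖ := by
      rw [← e7, norm_mul, norm_mul, hσ]
    rw [e8, hC1]
    have h2 : ∀ i j, ‖(κi * J) i j‖ ≤ N * (M * B) := fun i j => by
      simpa using norm_mul_apply_le hM h.lei hB i j
    have h3 := norm_mul_apply_le (by positivity : 0 ≤ N * (M * B)) h2 (B := (κi.map σ)ᵀ) (y := M)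
      (fun i j => by rw [transpose_apply, map_apply, hσ]; exact h.lei _ _) l m
    simpa using h3
  rcases le_or_gt ‖a ⟨q, hq⟩‖ 1 with hle | hgt
  · exact hle.trans (le_max_left _ _)
  refine le_trans ?_ (le_max_right _ _)
  have hx0 : 0 < ‖a ⟨q, hq⟩‖ := zero_lt_one.trans hgt
  have hx1 : ‖a ⟨q, hq⟩‖ ≤ ‖a ⟨q, hq⟩‖ ^ 2 := by nlinarith
  have h5 : ∀ l m : Fin (q + 1), ‖(κ' * J * (κ'.map σ)ᵀ) (Fin.castLE hq l) (Fin.castLE hq m)‖ *
      ‖a ⟨q, hq⟩‖ ^ 2 ≤ C1 := by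
    intro l m
    have ha : ∀ l : Fin (q + 1), ‖a ⟨q, hq⟩‖ ≤ ‖a (Fin.castLE hq l)‖ := fun l =>
      h.anti (Fin.le_def.2 (Nat.lt_succ_iff.1 l.2))
    refine le_trans ?_ (hb (Fin.castLE hq l) (Fin.castLE hq m))
    have h6 := mul_le_mul (ha l) (ha m) hx0.le (norm_nonneg _)
    have h7 := norm_nonneg ((κ' * J * (κ'.map σ)ᵀ) (Fin.castLE hq l) (Fin.castLE hq m))
    nlinarith
  have h8 : F (κ', κi') * ‖a ⟨q, hq⟩‖ ^ 2 ≤ (q + 1) * ((q + 1) * C1) := by
    rw [hF]
    simp only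
    rw [Finset.sum_mul]
    refine (Finset.sum_le_sum (g := fun _ => ((q : ℝ) + 1) * C1) fun l _ => ?_).trans ?_
    · rw [Finset.sum_mul]
      refine (Finset.sum_le_sum fun m _ => h5 l m).trans ?_
      rw [Finset.sum_const, nsmul_eq_mul, Finset.card_univ, Fintype.card_fin]
      push_cast
      exact le_rfl
    · rw [Finset.sum_const, nsmul_eq_mul, Finset.card_univ, Fintype.card_fin]
      push_cast
      exact le_rfl
  rw [le_div_iff₀ hc]
  calc ‖a ⟨q, hq⟩‖ * c ≤ ‖a ⟨q, hq⟩‖ ^ 2 * F (κ', κi') :=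
        mul_le_mul hx1 h1 hc.le (by positivity)
    _ = F (κ', κi') * ‖a ⟨q, hq⟩‖ ^ 2 := mul_comm _ _
    _ ≤ _ := h8

end bounded

end Vale.Agent.P092.H515
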