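import Vale.Agent.P092.H515.FormT
import Vale.Agent.P092.H933.Cart
import Vale.Agent.P092.H933.TgtLoc

/-!
P092 (helper515): groups of isometries of a form of Witt index `q` over a local field are target
groups of rank `q`.
-/

set_option linter.all false

namespace Vale.Agent.P092.H515

open Matrix
open Vale.Agent.P092.H933 (LocK BCart gsys_gl)

section restrict
variable {G J J' P : Type} [Group G] [Fintype P] {gp : J → G → ℝ} {w : G → ℝ}

lemma restrict_off {θ : Finset J'} {e : J' ↪ J} {R0 : ℝ}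
    (h0 : ∀ j, (∀ j', e j' ≠ j) → ∀ g, gp j g ≤ R0) {R : ℝ} {g : G}
    (hg : ∀ j', j' ∉ θ → gp (e j') g ≤ R) (j : J) (hj : j ∉ θ.map e) : gp j g ≤ max R R0 := by
  by_cases h : ∃ j', e j' = j
  · obtain ⟨j', rfl⟩ := h
    exact (hg j' fun h' => hj (Finset.mem_map_of_mem e h')).trans (le_max_left _ _)
  · push Not at h
    exact (h0 j h g).trans (le_max_right _ _)

lemma restrict_on {θ : Finset J'} {e : J' ↪ J} {R : ℝ} {g : G}
    (hg : ∀ j' ∈ θ, R ≤ gp (e j') g) (j : J) (hj : j ∈ θ.map e) : R ≤ gp j g := by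
  obtain ⟨j', hj', rfl⟩ := Finset.mem_map.1 hj
  exact hg j' hj'

theorem IsGauge.restrict {θ : Finset J'} {f f0 : (P → ℝ) → G → G → ℝ} {A : ℝ} (e : J' ↪ J)
    (h : IsGauge gp w (θ.map e) f f0 A) {R0 : ℝ}
    (h0 : ∀ j, (∀ j', e j' ≠ j) → ∀ g, gp j g ≤ R0) :
    IsGauge (fun j' => gp (e j')) w θ f f0 A where
  lo := h.lo
  lo0 := h.lo0
  bd R T := by
    obtain ⟨c, hc, C, h1⟩ := h.bd (max R R0) T
    exact ⟨c, hc, C, fun g hg => h1 g (restrict_off h0 hg)⟩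
  bd0 := h.bd0
  lip := h.lip
  left s R1 := by
    obtain ⟨C, hC⟩ := h.left s (max R1 R0)
    refine ⟨C, fun ρ hρ => ?_⟩
    obtain ⟨L, hL⟩ := hC ρ hρ
    refine ⟨L, fun T => ?_⟩
    obtain ⟨R, hR⟩ := hL T
    exact ⟨R, fun g h1 h2 => hR g (restrict_on h1) (restrict_off h0 h2)⟩
  right u T η hη := by
    obtain ⟨R, hR⟩ := h.right u T η hη
    exact ⟨R, fun g h1 => hR g (restrict_on h1)⟩
  ov R := by
    obtain ⟨C, hC1, hC⟩ := h.ov (max R R0)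
    refine ⟨C, hC1, fun T => ?_⟩
    obtain ⟨D, hD⟩ := hC T
    exact ⟨D, fun g h1 h2 => hD g (restrict_on h1) (restrict_off h0 h2)⟩

/-- Uniformly bounded gaps may be dropped. -/
theorem GSys.restrict (h : GSys gp w) (e : J' ↪ J) {R0 : ℝ}
    (h0 : ∀ j, (∀ j', e j' ≠ j) → ∀ g, gp j g ≤ R0) : GSys (fun j' => gp (e j')) w where
  pos := h.pos
  quasi s t := by
    obtain ⟨C, hC⟩ := h.quasi s t
    exact ⟨C, fun j g => hC _ g⟩
  bdd R := by
    obtain ⟨R', hR⟩ := h.bdd (max R R0)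
    refine ⟨R', fun g hg => hR g fun j => ?_⟩
    exact restrict_off (θ := ∅) h0 (fun j' _ => hg j') j (by simp)
  pack := h.pack
  gauge θ := by
    obtain ⟨P, hP, f, f0, A, hf⟩ := h.gauge (θ.map e)
    exact ⟨P, hP, f, f0, A, hf.restrict e h0⟩

end restrict

section form
variable {G : Type} [Group G] [TopologicalSpace G] {k : Type} [NontriviallyNormedField k]
  [ProperSpace k] {N q : ℕ} {m : G → Matrix (Fin N) (Fin N) k}

lemma norm_det_form {σ : k →+* k} (hσ : ∀ x, ‖σ x‖ = ‖x‖) {J g : Matrix (Fin N) (Fin N) k}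
    (hJ : J.det ≠ 0) (hg : g * J * (g.map σ)ᵀ = J) : ‖g.det‖ = 1 := by
  have h1 := congrArg Matrix.det hg
  have h2 : (g.map σ).det = σ g.det := (RingHom.map_det σ g).symm
  rw [det_mul, det_mul, det_transpose, h2] at h1
  have h3 := congrArg norm h1
  rw [norm_mul, norm_mul, hσ] at h3
  have h4 : 0 < ‖J.det‖ := norm_pos_iff.2 hJ
  have h5 : ‖g.det‖ * ‖g.det‖ = 1 := by
    have : ‖J.det‖ * (‖g.det‖ * ‖g.det‖) = ‖J.det‖ * 1 := by rw [mul_one]; linarith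
    exact mul_left_cancel₀ h4.ne' this
  nlinarith [norm_nonneg g.det]

/-- **Isometry groups of forms of Witt index at most `q`.** -/
theorem tgt_form (hk : LocK k) (hN : 0 < N) (hmul : ∀ g h, m (g * h) = m g * m h)
    (proper : ∀ R : ℝ, ∃ K : Set G, IsCompact K ∧ ∀ g, (∀ i j, ‖m g i j‖ ≤ R) → g ∈ K)
    {σ : k →+* k} (hσ : ∀ x, ‖σ x‖ = ‖x‖) {J : Matrix (Fin N) (Fin N) k} (hJ : J.det ≠ 0)
    (hform : ∀ g, m g * J * ((m g).map σ)ᵀ = J)
    (hiso : ∀ v : Fin (q + 1) → Fin N → k, LinearIndependent k v →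
      ∃ i j, v i ⬝ᵥ (J *ᵥ (fun l => σ (v j l))) ≠ 0) : Tgt G q := by
  obtain ⟨gp, w, c, C, hc, hs, hw, hcar⟩ := gsys_gl hk hN hmul
    (fun g => norm_det_form hσ hJ (hform g))
  have hC0 : 0 ≤ C := by
    obtain ⟨κ, κi, κ', κi', a, -, -, h1, -⟩ := hcar 1
    exact (norm_nonneg _).trans (h1 ⟨0, hN⟩ ⟨0, hN⟩).1
  have hdec : ∀ g, ∃ (κ κi κ' κi' : Matrix (Fin N) (Fin N) k) (a : Fin N → k),
      Dec C (m g) κ κi κ' κi' a ∧ ∀ j : Fin (N - 1),
        |gp j g - c * (Real.log ‖a ⟨j, by have := j.2; omega⟩‖ -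
          Real.log ‖a ⟨(j : ℕ) + 1, by have := j.2; omega⟩‖)| ≤ C := by
    intro g
    obtain ⟨κ, κi, κ', κi', a, h1, h2, h3, h4, h5, h6, h7⟩ := hcar g
    exact ⟨κ, κi, κ', κi', a, ⟨h1, h2, fun i j => (h3 i j).1, fun i j => (h3 i j).2.1,
      fun i j => (h3 i j).2.2.1, fun i j => (h3 i j).2.2.2, h6, h4, h5⟩, h7⟩
  -- bounds for the form
  obtain ⟨B, hB0, hB⟩ : ∃ B : ℝ, 0 ≤ B ∧ ∀ i j, ‖J i j‖ ≤ B := by
    obtain ⟨B, hB0, hB⟩ := exists_le_all (I := Fin N × Fin N) fun p => ‖J p.1 p.2‖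
    exact ⟨B, hB0, fun i j => hB (i, j)⟩
  obtain ⟨B', hB0', hB'⟩ : ∃ B : ℝ, 0 ≤ B ∧ ∀ i j, ‖J⁻¹ i j‖ ≤ B := by
    obtain ⟨B, hB0, hB⟩ := exists_le_all (I := Fin N × Fin N) fun p => ‖J⁻¹ p.1 p.2‖
    exact ⟨B, hB0, fun i j => hB (i, j)⟩
  have hJJ : J * J⁻¹ = 1 := Matrix.mul_nonsing_inv J (isUnit_iff_ne_zero.2 hJ)
  -- symmetry
  obtain ⟨C1, hC1⟩ : ∃ C1 : ℝ, C1 = (N * (N * (C * (N * (max B B' * C))))) *
    (N * (N * ((N * (max B B' * C)) * C))) := ⟨_, rfl⟩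
  obtain ⟨L1, hL1⟩ : ∃ L1 : ℝ, ∀ g κ κi κ' κi' a, Dec C (m g) κ κi κ' κi' a → ∀ i : Fin N,
      |Real.log ‖a i‖ + Real.log ‖a (Fin.rev i)‖| ≤ L1 := by
    refine ⟨Real.log C1, fun g κ κi κ' κi' a h i => ?_⟩
    obtain ⟨h1, h2⟩ := h.symm_le hC0 hσ hJJ (le_max_of_le_left hB0 : 0 ≤ max B B')
      (fun i j => (hB i j).trans (le_max_left _ _))
      (fun i j => (hB' i j).trans (le_max_right _ _)) (hform g) hC1 i
    have hp1 : 0 < ‖a i‖ := norm_pos_iff.2 (h.ne i)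
    have hp2 : 0 < ‖a (Fin.rev i)‖ := norm_pos_iff.2 (h.ne _)
    rw [← Real.log_mul hp1.ne' hp2.ne']
    have hp : 0 < ‖a i‖ * ‖a (Fin.rev i)‖ := mul_pos hp1 hp2
    have hCp : 0 < C1 := by
      by_contra hneg
      have := mul_nonpos_of_nonpos_of_nonneg (not_lt.1 hneg) hp.le
      linarith
    rw [abs_le]
    constructor
    · have h3 := Real.log_le_log one_pos h1
      rw [Real.log_one, Real.log_mul hCp.ne' hp.ne'] at h3
      linarith
    · exact Real.log_le_log hp h2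
  -- boundedness beyond the Witt index
  obtain ⟨L2, hL2⟩ : ∃ L2 : ℝ, ∀ g κ κi κ' κi' a, Dec C (m g) κ κi κ' κi' a → ∀ i : Fin N,
      q ≤ i → Real.log ‖a i‖ ≤ L2 := by
    by_cases hq : q < N
    · obtain ⟨C2, hC2⟩ := exists_bound hq hσ hiso hC0
      refine ⟨Real.log (max C2 1), fun g κ κi κ' κi' a h i hi => ?_⟩
      refine Real.log_le_log (norm_pos_iff.2 (h.ne i)) ?_
      refine le_trans ?_ (le_max_left _ _)
      exact (h.anti (show (⟨q, hq⟩ : Fin N) ≤ i from hi)).trans (hC2 _ _ _ _ _ a h (hform g))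
    · exact ⟨0, fun g κ κi κ' κi' a h i hi => absurd (lt_of_le_of_lt hi i.2) hq⟩
  -- the classes
  obtain ⟨e, he⟩ : ∃ e : {i : Fin (N - 1) // min (i : ℕ) (N - 2 - i) < q} ↪ Fin (N - 1),
    e = Function.Embedding.subtype _ := ⟨_, rfl⟩
  have hgap : ∀ g (i : Fin (N - 1)), (¬ min (i : ℕ) (N - 2 - i) < q) →
      gp i g ≤ c * (2 * L2 + L1) + C := by
    intro g i hi
    obtain ⟨κ, κi, κ', κi', a, h, hg⟩ := hdec g
    have h1 := (abs_le.1 (hg i)).2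
    have hi2 := i.2
    have h2 := hL2 g κ κi κ' κi' a h ⟨i, by omega⟩ (by simp only; omega)
    have h3 := hL2 g κ κi κ' κi' a h (Fin.rev ⟨(i : ℕ) + 1, by omega⟩) (by
      rw [Fin.val_rev]; simp only; omega)
    have h4 := (abs_le.1 (hL1 g κ κi κ' κi' a h ⟨(i : ℕ) + 1, by omega⟩)).1
    have h5 : Real.log ‖a ⟨i, by omega⟩‖ - Real.log ‖a ⟨(i : ℕ) + 1, by omega⟩‖ ≤
      2 * L2 + L1 := by linarith
    have h6 := mul_le_mul_of_nonneg_left h5 hc.le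
    linarith
  have hcmp : ∀ g (i j : Fin (N - 1)), (i : ℕ) + j = N - 2 →
      gp j g ≤ gp i g + (2 * c * L1 + 2 * C) := by
    intro g i j hij
    obtain ⟨κ, κi, κ', κi', a, h, hg⟩ := hdec g
    have hi2 := i.2
    have hj2 := j.2
    have h1 := (abs_le.1 (hg i)).1
    have h2 := (abs_le.1 (hg j)).2
    have e1 : Fin.rev (⟨i, by omega⟩ : Fin N) = ⟨(j : ℕ) + 1, by omega⟩ := by
      ext; rw [Fin.val_rev]; simp only; omega
    have e2 : Fin.rev (⟨(i : ℕ) + 1, by omega⟩ : Fin N) = ⟨j, by omega⟩ := by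
      ext; rw [Fin.val_rev]; simp only; omega
    have h3 := (abs_le.1 (hL1 g κ κi κ' κi' a h ⟨i, by omega⟩)).1
    have h4 := (abs_le.1 (hL1 g κ κi κ' κi' a h ⟨(i : ℕ) + 1, by omega⟩)).2
    rw [e1] at h3
    rw [e2] at h4
    have h5 : Real.log ‖a ⟨j, by omega⟩‖ - Real.log ‖a ⟨(j : ℕ) + 1, by omega⟩‖ ≤
      Real.log ‖a ⟨i, by omega⟩‖ - Real.log ‖a ⟨(i : ℕ) + 1, by omega⟩‖ + 2 * L1 := by linarith
    have h6 := mul_le_mul_of_nonneg_left h5 hc.le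
    linarith
  have hc0 : 0 ≤ 2 * c * L1 + 2 * C := by
    have : 0 ≤ L1 := by
      obtain ⟨κ, κi, κ', κi', a, h, -⟩ := hdec 1
      exact (abs_nonneg _).trans (hL1 1 κ κi κ' κi' a h ⟨0, hN⟩)
    positivity
  refine ⟨{i : Fin (N - 1) // min (i : ℕ) (N - 2 - i) < q}, inferInstance, fun j => gp (e j), w,
    fun j => ⟨min (j : Fin (N - 1)) (N - 2 - j), j.2⟩, hs.restrict e
      (R0 := c * (2 * L2 + L1) + C) (fun j hj g => ?_), fun R => ?_, fun R => ?_⟩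
  · refine hgap g j fun h => hj ⟨j, h⟩ ?_
    rw [he]
    rfl
  · refine ⟨R + (2 * c * L1 + 2 * C), fun i j hij g hg => ?_⟩
    rw [he] at hg ⊢
    have h1 : min ((i : Fin (N - 1)) : ℕ) (N - 2 - i) = min ((j : Fin (N - 1)) : ℕ) (N - 2 - j) :=
      congrArg Fin.val hij
    have hi2 := (i : Fin (N - 1)).2
    have hj2 := (j : Fin (N - 1)).2
    have h2 : (i : Fin (N - 1)) = j ∨ (((i : Fin (N - 1)) : ℕ) + ((j : Fin (N - 1)) : ℕ) = N - 2) := by
      by_cases h : ((i : Fin (N - 1)) : ℕ) = ((j : Fin (N - 1)) : ℕ)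
      · exact Or.inl (Fin.ext h)
      · right; omega
    rcases h2 with h2 | h2
    · change gp (j : Fin (N - 1)) g ≤ _
      rw [← h2]
      have hg' : gp (i : Fin (N - 1)) g ≤ R := hg
      linarith
    · have h3 := hcmp g i j h2
      have hg' : gp (i : Fin (N - 1)) g ≤ R := hg
      change gp (j : Fin (N - 1)) g ≤ _
      linarith
  · obtain ⟨R', hR⟩ := hw R
    obtain ⟨K, hK, h1⟩ := proper R'
    exact ⟨K, hK, fun g hg => h1 g (hR g hg)⟩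

end form

end Vale.Agent.P092.H515
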