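import Vale.Agent.P092.H515.HPos2
import Vale.Agent.P092.H307.Gb.Inst

/-!
P092 (helper515), Team N, [N-GAPB] for products, abstract form: **[P-HPOS]** for any mass function
with `SharpData` (families of vectors, amplified pictures, all `t`).
-/

set_option linter.all false

open scoped InnerProductSpace ENNReal
open Filter Topology Matrix ContinuousLinearMap MeasureTheory

namespace Vale.Agent.P092.H515.HP

open Vale.Agent.P092.H515 (GSys)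
open Vale.Agent.P092.H933 (LocK BCart)
open Vale.Agent.P092.H534.GK (Crt)
open Vale.Agent.P092.H221.GapsC (lg gsys_crt2_fam pos_gap bcart_of_crt)
open Vale.Agent.P092.H200 Vale.Agent.P092.H761
open Vale.Agent.P092.H538 (ind ind_pos ind_neg ind_nonneg)
open Vale.Agent.P092.RC (GG PG YY ct)
open Vale.Agent.P092.H261 (PingT)
open Vale.Agent.P092.SN (PH nm bw)
open Vale.Agent.P092.H218.NR (HMIA pos_final hcc_of)
open Vale.Agent.P092.H411.ChS (sg)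
open Vale.Agent.P092.H618.HMK (Tests)
open Vale.Agent.P092.H307.Gb (th)
open Vale.Agent.P092.H584.Tau (hs_mem)

variable {I : Type} [Fintype I] [DecidableEq I] {k : I → Type}
  [∀ i, NontriviallyNormedField (k i)] [∀ i, ProperSpace (k i)] {N : I → ℕ}
  {E : Type} [Group E] [TopologicalSpace E] [MeasurableSpace E] [BorelSpace E]
  {Γ : Type} [Group Γ] {mass : E → (Γ → ℝ) → ℝ}

/-- the positions for a chain which starts with the powers of `z` -/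
theorem pos_core (hd : ∀ _ : DecidableEq Γ, ∃ t : ℝ,
      SharpData t mass (fun K : Set E => IsCompact K) (PingT E))
    (hk : ∀ j, LocK (k j)) (hN : ∀ j, 0 < N j) {q : ∀ j, Γ → GG (k j) (N j)}
    (hq : ∀ j, PH (q j)) (disc : ∀ C : ℝ, {γ : Γ | ∀ j, nm (q j γ) ≤ C}.Finite)
    {k₀ : Type} [NontriviallyNormedField k₀] [ProperSpace k₀] {m : ℕ} (hm : 0 < m)
    {ι : GG k₀ (m + 1) →* E} {a : E →* PG k₀ (m + 2)} (hι : Continuous ι)
    (hcomp : ∀ g, a (ι g) = H35.sp k₀ (m + 2) g) {w : k₀ˣ} (hw : ‖(w : k₀)‖ < 1)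
    (j : I) (hj : N j = m + 1)
    (ht : ∀ ε : ℝ, 0 < ε → ∃ r : ℝ, ∀ g : GG k₀ (m + 1),
      mass (ι g) (ind fun γ => ∃ j', j' ≠ j ∧ r < nm (q j' γ)) ≤ ε)
    {z : E} (hz : z ∈ ι.range) (hzσ : ∀ n s, z ^ n * sg ι s = sg ι s * z ^ n)
    (hch : ∃ (b : Fin (m + 1) → ℕ → E) (𝒦 : Fin (m + 1) → Set E),
      GChain (fun K : Set E => IsCompact K) (PingT E) (m + 1) b 𝒦 ∧
      (∀ M, b 0 M = z ^ M) ∧ (∀ j M, sg ι (H411.ChS.bS w j M) = b j.succ M) ∧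
      ∀ j, sg ι '' H411.ChS.KS k₀ j = 𝒦 j.succ)
    (hmi : ∀ {J : Type} [Fintype J] [DecidableEq J] {r : ℕ} {gap : J → Γ → ℝ} {cl : J → Fin r}
      {A : Finset (Fin r)} {i₀ : J}, Gaps gap cl → Tests gap cl A i₀ →
      HMIA mass gap cl A i₀ (fun n => z ^ n) (sg ι) (cocompact (GG k₀ m)))
    {ε : ℝ} (hε : 0 < ε) :
    ∃ r : ℝ, ∀ᶠ n : ℕ in atTop, mass (z ^ n) (ind fun γ => r < H337.NG.G2 (q j γ) ∧
      r < H337.NG.G2 (ct (q j γ))) ≤ ε := by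
  classical
  haveI : Nonempty I := ⟨j⟩
  obtain ⟨gap, wt, hs, hfin, -, -, -, hcrt, -⟩ := gsys_crt2_fam (n := fun i => N i + 1) hk
    (fun i => by have := hN i; omega) q hq disc
  obtain ⟨t, hd⟩ := hd (Classical.decEq Γ)
  obtain ⟨b, 𝒦, hch, hb0, hbS, hKS⟩ := hch
  have hbz : b 0 = fun n => z ^ n := funext hb0
  have hcl := lab_inj fun i => N i + 1 - 1
  have hg : Gaps gap (lab fun i => N i + 1 - 1) := hs.gaps hfin _
    (fun R => ⟨R, fun i i' h g hg => by rw [← hcl h]; exact hg⟩)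
  obtain ⟨c, C, hc, hC⟩ := hcrt j
  -- the set off the coordinate
  have hA : ∀ ε : ℝ, 0 < ε → ∃ R : ℝ, ∀ u, HS b (m + 1) u →
      mass u (ind fun g => ∃ a, a ∉ part (fun i => N i + 1 - 1) j ∧
        a ∈ big gap (lab fun i => N i + 1 - 1) R g) ≤ ε := by
    intro ε hε
    obtain ⟨r, hr⟩ := ht ε hε
    obtain ⟨R, hR⟩ := other_large (q := q) (gap := gap) hcrt j r
    refine ⟨R, fun u hu => ?_⟩
    have hmem : u ∈ ι.range := by
      refine hs_mem (S := ι.range) (fun x M => ?_) hu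
      refine Fin.cases ?_ (fun x => ?_) x
      · rw [hb0]; exact pow_mem hz M
      · rw [← hbS]; exact ⟨_, rfl⟩
    obtain ⟨g, rfl⟩ := hmem
    exact (hd.ind_mono (ι g) (P := fun γ => ∃ a, a ∉ part (fun i => N i + 1 - 1) j ∧
        a ∈ big gap (lab fun i => N i + 1 - 1) R γ)
      (Q := fun γ => ∃ j', j' ≠ j ∧ r < nm (q j' γ)) (fun γ hγ => by
        obtain ⟨j', hj', x, y, hxy⟩ := hR γ hγ
        exact ⟨j', hj', hxy.trans_le (H776.NG.le_nmx (q j' γ).1 x y)⟩)).trans (hr g)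
  -- the middle gaps
  obtain ⟨Mid, hMid⟩ : ∃ Mid : (Σ i, Fin (N i + 1 - 1)) → Prop, ∀ x, Mid x ↔
      ∃ l : Fin (N j + 1 - 1), 0 < (l : ℕ) ∧ (l : ℕ) + 1 < N j + 1 - 1 ∧ x = ⟨j, l⟩ :=
    ⟨_, fun x => Iff.rfl⟩
  have hGH : ∀ R : ℝ, ∃ ρ : ℝ, ∀ γ, ρ < H337.NG.G2 (q j γ) → ρ < H337.NG.G2 (ct (q j γ)) →
      (2 ≤ (big gap (lab fun i => N i + 1 - 1) R γ).card ∨ ∃ i, Mid i ∧ R ≤ gap i γ) := by
    intro R
    obtain ⟨ρ, hρ⟩ := pos_gap (k := k j) (n := N j + 1) (by have := hN j; omega) hc (max C 1) R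
    refine ⟨ρ, fun γ h1 h2 => ?_⟩
    have hdet : (q j γ).1.det = 1 := (q j γ).2
    have hB : BCart (q j γ).1 (fun l => gap ⟨j, l⟩ γ) c (max C 1) := by
      obtain ⟨a, U, U', V, V', H, hx⟩ := hC γ
      exact bcart_of_crt H (H.ne (by rw [hdet]; exact one_ne_zero)) (le_max_right _ _)
        fun l => (hx l).trans (le_max_left _ _)
    rw [H776.NG.G2_eq] at h1
    have h2 : ρ < H776.NG.G2 ((q j γ).1)⁻¹ := by
      rw [← H776.NG.G2_inv_eq, ← H337.NG.G2_ta]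
      exact h2
    rcases hρ (q j γ).1 (fun l => gap ⟨j, l⟩ γ) (by rw [hdet, norm_one]) hB h1 h2 with
      ⟨x, y, hxy, hx, hy⟩ | ⟨l, hl0, hl1, hl⟩
    · refine Or.inl (Finset.one_lt_card.2 ⟨_, mem_big.2 ⟨⟨j, x⟩, rfl, hx⟩, _,
        mem_big.2 ⟨⟨j, y⟩, rfl, hy⟩, fun h => hxy ?_⟩)
      exact eq_of_heq (Sigma.mk.inj_iff.1 (hcl h)).2
    · refine Or.inr ⟨⟨j, l⟩, (hMid _).2 ⟨l, by omega, ?_, rfl⟩, hl⟩
      have := l.2
      omega
  have hHM : ∀ i₀, Mid i₀ → HMIA (mass) gap (lab fun i => N i + 1 - 1)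
      (part (fun i => N i + 1 - 1) j) i₀ (b 0) (sg ι) (cocompact (GG k₀ m)) := by
    intro i₀ h
    obtain ⟨l, hl0, hl1, rfl⟩ := (hMid _).1 h
    rw [hbz]
    refine hmi hg ?_
    exact H100.Ker.tests_of (M := fun γ => (q j γ).1) (mrp_ph (hq j)) (fun l => ⟨j, l⟩)
      (fun x y hxy => (lab_lt fun i => N i + 1 - 1).2 hxy) (fun x y hxy => hcl hxy)
      (fun y => lab_mem_part.2 rfl) hc hC l hl0 hl1
  have hcard : (part (fun i => N i + 1 - 1) j).card = m + 1 := by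
    rw [card_part, hj]
    rfl
  obtain ⟨ρ, hρ⟩ := pos_final (S := GG k₀ m) (σ := sg ι) (A := part (fun i => N i + 1 - 1) j)
    hd hg (fun θ _ _ => hs.geo' hfin θ) hch hm hcard hA (fun n s => by rw [hb0]; exact hzσ n s)
    (H411.ChS.sg_inj hcomp) hbS hKS (hcc_of (H411.ChS.sg_cont hι)) (H411.ChS.bS_tendsto hw hm)
    hHM hGH (ε := ε) hε
  exact ⟨ρ, hρ.mono fun n hn => by rwa [hb0] at hn⟩

/-- **[P-HPOS], abstract**: any mass function with `SharpData`, one source factor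
`ι : SL_(N₀+1)(k₀) → E`, one coordinate `j` of the target with `N j = N₀ ≥ 2`. The input `hmi` is
`HMIA` for all gaps with test functions (`S = SL_(N₀)(k₀)`, `th ι = ι ∘ block`). -/
theorem hpos_abs (hd : ∀ _ : DecidableEq Γ, ∃ t : ℝ,
      SharpData t mass (fun K : Set E => IsCompact K) (PingT E))
    (hk : ∀ j, LocK (k j)) (hN : ∀ j, 0 < N j) {q : ∀ j, Γ → GG (k j) (N j)}
    (hq : ∀ j, PH (q j)) (disc : ∀ C : ℝ, {γ : Γ | ∀ j, nm (q j γ) ≤ C}.Finite)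
    {k₀ : Type} [NontriviallyNormedField k₀] [ProperSpace k₀] {N₀ : ℕ} (hN₀ : 2 ≤ N₀)
    {ι : GG k₀ N₀ →* E} {a : E →* PG k₀ (N₀ + 1)}
    (hι : Continuous ι) (ha : Continuous a) (hcomp : ∀ g (x : YY k₀ N₀), a (ι g) • x = g • x)
    {w : k₀ˣ} (hw : ‖(w : k₀)‖ < 1) (j : I) (hj : N j = N₀)
    (ht : ∀ ε : ℝ, 0 < ε → ∃ r : ℝ, ∀ g : GG k₀ N₀,
      mass (ι g) (ind fun γ => ∃ j', j' ≠ j ∧ r < nm (q j' γ)) ≤ ε)
    {b : E} (hb : b = ι (bw w) ∨ b = (ι (bw w))⁻¹)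
    (hmi : ∀ {J : Type} [Fintype J] [DecidableEq J] {r : ℕ} {gap : J → Γ → ℝ} {cl : J → Fin r}
      {A : Finset (Fin r)} {i₀ : J}, Gaps gap cl → Tests gap cl A i₀ →
      HMIA mass gap cl A i₀ (fun n => b ^ n) (th ι)
        (cocompact (SpecialLinearGroup (Fin N₀) k₀)))
    {ε : ℝ} (hε : 0 < ε) :
    ∃ r : ℝ, ∀ᶠ n : ℕ in atTop, mass (b ^ n) (ind fun γ => r < H337.NG.G2 (q j γ) ∧
      r < H337.NG.G2 (ct (q j γ))) ≤ ε := by
  obtain ⟨m, rfl⟩ : ∃ m, N₀ = m + 1 := ⟨N₀ - 1, by omega⟩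
  have hm : 0 < m := by omega
  have hc : ∀ g, a (ι g) = H35.sp k₀ (m + 2) g := fun g => H776.NE.eq_sp hcomp g
  rcases hb with rfl | rfl
  · exact pos_core hd hk hN hq disc hm hι hc hw j hj ht ⟨_, rfl⟩
      (fun n s => H411.ChS.sg_comm_pow w n s) (H411.ChS.exists_chain hι ha hc hw)
      (fun hg hT => hmi hg hT) hε
  · exact pos_core hd hk hN hq disc hm hι hc hw j hj ht (z := (ι (bw w))⁻¹)
      ⟨(bw w)⁻¹, map_inv _ _⟩
      (fun n s => H411.ChS.sg_comm_inv_pow w n s) (H411.ChS.exists_chain_inv hι ha hc hw)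
      (fun hg hT => hmi hg hT) hε

section fam

variable {K κ : Type} [Fintype κ] [NormedAddCommGroup K] [InnerProductSpace ℂ K]
  {π : E →* (K →L[ℂ] K)} {Ω : κ → K} {ms : Set Γ → (K →L[ℂ] K)}

/-- **[P-HPOS] for a family of vectors** `Ω l` (all `t`): the mass function is comparable with
`∑ l, ‖ms S (π u (Ω l))‖²`. -/
theorem hpos_fam (hd : ∀ _ : DecidableEq Γ, ∃ t : ℝ,
      SharpData t mass (fun K : Set E => IsCompact K) (PingT E))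
    {c c' : ℝ} (hc' : 0 < c')
    (hm : ∀ (u : E) (S : Set Γ), mass u (ind fun γ => γ ∈ S) ≤ c * ∑ l, ‖ms S (π u (Ω l))‖ ^ 2)
    (hm' : ∀ (u : E) (S : Set Γ) (l : κ),
      c' * ‖ms S (π u (Ω l))‖ ^ 2 ≤ mass u (ind fun γ => γ ∈ S))
    (hk : ∀ j, LocK (k j)) (hN : ∀ j, 0 < N j) {q : ∀ j, Γ → GG (k j) (N j)}
    (hq : ∀ j, PH (q j)) (disc : ∀ C : ℝ, {γ : Γ | ∀ j, nm (q j γ) ≤ C}.Finite)
    {k₀ : Type} [NontriviallyNormedField k₀] [ProperSpace k₀] {N₀ : ℕ} (hN₀ : 2 ≤ N₀)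
    {ι : GG k₀ N₀ →* E} {a : E →* PG k₀ (N₀ + 1)}
    (hι : Continuous ι) (ha : Continuous a) (hcomp : ∀ g (x : YY k₀ N₀), a (ι g) • x = g • x)
    {w : k₀ˣ} (hw : ‖(w : k₀)‖ < 1) (j : I) (hj : N j = N₀)
    (ht : ∀ ε : ℝ, 0 < ε → ∃ r : ℝ, ∀ (g : GG k₀ N₀) (l : κ),
      ‖ms {γ | ∃ j', j' ≠ j ∧ r < nm (q j' γ)} (π (ι g) (Ω l))‖ ≤ ε)
    {b : E} (hb : b = ι (bw w) ∨ b = (ι (bw w))⁻¹)
    (hmi : ∀ {J : Type} [Fintype J] [DecidableEq J] {r : ℕ} {gap : J → Γ → ℝ} {cl : J → Fin r}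
      {A : Finset (Fin r)} {i₀ : J}, Gaps gap cl → Tests gap cl A i₀ →
      HMIA mass gap cl A i₀ (fun n => b ^ n) (th ι)
        (cocompact (SpecialLinearGroup (Fin N₀) k₀)))
    {ε : ℝ} (hε : 0 < ε) :
    ∃ r : ℝ, ∀ᶠ n : ℕ in atTop, ∀ l, ‖ms {γ | r < H337.NG.G2 (q j γ) ∧
      r < H337.NG.G2 (ct (q j γ))} (π (b ^ n) (Ω l))‖ ≤ ε := by
  obtain ⟨M, hM⟩ : ∃ M : ℝ, M = |c| * (Fintype.card κ : ℝ) + 1 := ⟨_, rfl⟩
  have hM0 : 0 < M := by rw [hM]; positivity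
  obtain ⟨r, hr⟩ := hpos_abs hd hk hN hq disc hN₀ hι ha hcomp hw j hj (fun ε hε => by
    obtain ⟨δ, hδ⟩ : ∃ δ : ℝ, δ = min (ε / M) 1 := ⟨_, rfl⟩
    have hδ0 : 0 < δ := by rw [hδ]; exact lt_min (div_pos hε hM0) zero_lt_one
    have hδ1 : δ ≤ 1 := by rw [hδ]; exact min_le_right _ _
    have hδM : δ * M ≤ ε := by
      have : δ ≤ ε / M := by rw [hδ]; exact min_le_left _ _
      rwa [le_div_iff₀ hM0] at this
    obtain ⟨r, hr⟩ := ht δ hδ0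
    refine ⟨r, fun g => ?_⟩
    refine (hm (ι g) {γ | ∃ j', j' ≠ j ∧ r < nm (q j' γ)}).trans ?_
    have h1 : ∑ l, ‖ms {γ | ∃ j', j' ≠ j ∧ r < nm (q j' γ)} (π (ι g) (Ω l))‖ ^ 2 ≤
        (Fintype.card κ : ℝ) * δ := by
      have h2 : ∀ l ∈ (Finset.univ : Finset κ),
          ‖ms {γ | ∃ j', j' ≠ j ∧ r < nm (q j' γ)} (π (ι g) (Ω l))‖ ^ 2 ≤ δ := by
        intro l _
        have h3 := hr g l
        have h4 := norm_nonneg (ms {γ | ∃ j', j' ≠ j ∧ r < nm (q j' γ)} (π (ι g) (Ω l)))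
        nlinarith
      refine (Finset.sum_le_sum h2).trans ?_
      rw [Finset.sum_const, nsmul_eq_mul, Finset.card_univ]
    have h0 : 0 ≤ ∑ l, ‖ms {γ | ∃ j', j' ≠ j ∧ r < nm (q j' γ)} (π (ι g) (Ω l))‖ ^ 2 :=
      Finset.sum_nonneg fun l _ => by positivity
    calc c * ∑ l, ‖ms {γ | ∃ j', j' ≠ j ∧ r < nm (q j' γ)} (π (ι g) (Ω l))‖ ^ 2 ≤
        |c| * ((Fintype.card κ : ℝ) * δ) :=
          mul_le_mul (le_abs_self c) h1 h0 (abs_nonneg c)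
      _ ≤ δ * M := by rw [hM]; nlinarith
      _ ≤ ε := hδM) hb hmi (ε := c' * ε ^ 2) (by positivity)
  refine ⟨r, hr.mono fun n hn l => ?_⟩
  have h1 := (hm' (b ^ n) {γ | r < H337.NG.G2 (q j γ) ∧ r < H337.NG.G2 (ct (q j γ))} l).trans hn
  have h2 := le_of_mul_le_mul_left h1 hc'
  exact (pow_le_pow_iff_left₀ (norm_nonneg _) hε.le two_ne_zero).1 h2

end fam

end Vale.Agent.P092.H515.HP
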