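import Vale.Agent.P092.H515.R1d

/-!
P092 (helper515), block [R7] of the rank theorem: systems of gauges (`GSys`), their products, and the
geometric functions for a system of gauges.
-/

namespace Vale.Agent.P092.H515

open Finset

/-- One set of gauges for a set `θ` of gaps: `f` is the gauge of the left family, `f0` the gauge
of the right family; `P` is the set of logarithmic parameters. -/
structure IsGauge {Γ J P : Type} [Group Γ] [Fintype P] (gap : J → Γ → ℝ) (w : Γ → ℝ)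
    (θ : Finset J) (f f0 : (P → ℝ) → Γ → Γ → ℝ) (A : ℝ) : Prop where
  lo : ∀ t g, ∃ c > 0, ∀ b, c * w b ≤ f t g b
  lo0 : ∀ t g, ∃ c > 0, ∀ b, c * w b ≤ f0 t g b
  bd : ∀ R T : ℝ, ∃ c > 0, ∃ C : ℝ, ∀ g, (∀ j, j ∉ θ → gap j g ≤ R) → ∀ t : P → ℝ,
    (∀ j, 0 ≤ t j ∧ t j ≤ T) → ∀ b, c * w b ≤ f t g b ∧ f t g b ≤ C * w b
  bd0 : ∀ T : ℝ, ∃ c > 0, ∃ C : ℝ, ∀ g, ∀ t : P → ℝ, (∀ j, 0 ≤ t j ∧ t j ≤ T) →
    ∀ b, c * w b ≤ f0 t g b ∧ f0 t g b ≤ C * w b
  lip : ∀ t d g b, f (t + d) g b ≤ Real.exp (A * ∑ j, |d j|) * f t g b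
  left : ∀ (s : Γ) (R1 : ℝ), ∃ C : ℝ, ∀ ρ : ℝ, 0 < ρ → ∃ L : ℝ, ∀ T : ℝ, ∃ R : ℝ, ∀ g,
    (∀ j ∈ θ, R ≤ gap j g) → (∀ j, j ∉ θ → gap j g ≤ R1) →
      ∃ p : ℝ, |p| ≤ C ∧ ∃ σ : P → ℝ, (∀ j, |σ j| ≤ C) ∧
        ∀ t : P → ℝ, (∀ j, L ≤ t j ∧ t j ≤ T) → ∀ b,
          |Real.exp p * f (t + σ) (s * g) (s * b) - f t g b| ≤ ρ * f t g b
  right : ∀ (u : Γ) (T η : ℝ), 0 < η → ∃ R : ℝ, ∀ g, (∀ j ∈ θ, R ≤ gap j g) → ∀ t : P → ℝ,
    (∀ j, 0 ≤ t j ∧ t j ≤ T) → ∀ b, |f0 t (g * u) b - f0 t g b| ≤ η * f0 t g b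
  ov : ∀ R : ℝ, ∃ C : ℝ, 1 ≤ C ∧ ∀ T : ℝ, ∃ D : ℝ, ∀ g, (∀ j ∈ θ, D ≤ gap j g) →
    (∀ j, j ∉ θ → gap j g ≤ R) → ∀ t : P → ℝ, (∀ j, 0 ≤ t j ∧ t j ≤ T) → ∀ b,
      f t g b ≤ C * f0 t g b ∧ f0 t g b ≤ C * f t g b

/-- A system of gauges: one factor of the ambient group. `w` is the height function. -/
structure GSys {Γ J : Type} [Group Γ] (gap : J → Γ → ℝ) (w : Γ → ℝ) : Prop where
  pos : ∀ b, 0 < w b
  quasi : ∀ s t : Γ, ∃ C : ℝ, ∀ j g, |gap j (s * g * t) - gap j g| ≤ C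
  bdd : ∀ R : ℝ, ∃ R' : ℝ, ∀ g, (∀ j, gap j g ≤ R) → w g ≤ R'
  pack : ∃ C0 C : ℝ, 0 < C ∧ ∃ M : ℕ, ∀ k : ℕ, ∃ (X : Type) (_ : Fintype X) (code : Γ → X),
    (Fintype.card X : ℝ) ≤ C * ((k : ℝ) + 1) ^ M ∧
    ∀ b b', w b ≤ k → w b' ≤ k → code b = code b' → w (b⁻¹ * b') ≤ C0
  gauge : ∀ θ : Finset J, ∃ (P : Type) (_ : Fintype P) (f f0 : (P → ℝ) → Γ → Γ → ℝ) (A : ℝ),
    IsGauge gap w θ f f0 A

/-! ### Finite families of bounds -/

section bounds
variable {I : Type} [Fintype I]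

lemma exists_le_all (a : I → ℝ) : ∃ C : ℝ, 0 ≤ C ∧ ∀ i, a i ≤ C :=
  ⟨∑ i, |a i|, Finset.sum_nonneg fun _ _ => abs_nonneg _, fun i => (le_abs_self _).trans
    (Finset.single_le_sum (f := fun i => |a i|) (fun _ _ => abs_nonneg _) (Finset.mem_univ i))⟩

lemma exists_pos_le_all (a : I → ℝ) (ha : ∀ i, 0 < a i) : ∃ c : ℝ, 0 < c ∧ ∀ i, c ≤ a i := by
  obtain ⟨C, hC, h⟩ := exists_le_all fun i => (a i)⁻¹
  refine ⟨(C + 1)⁻¹, by positivity, fun i => ?_⟩
  rw [inv_le_comm₀ (by positivity) (ha i)]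
  linarith [h i]

end bounds

/-! ### Products -/

section prod
variable {Γ I : Type} [Group Γ] [Fintype I] {J P : I → Type} [∀ i, Fintype (P i)]
  {gap : ∀ i, J i → Γ → ℝ} {w : I → Γ → ℝ}

/-- The gauge of the product. -/
noncomputable def pf (f : ∀ i, (P i → ℝ) → Γ → Γ → ℝ) (t : ((Σ i, P i) ⊕ I) → ℝ) (g b : Γ) : ℝ :=
  ∑ i, Real.exp (t (Sum.inr i)) * f i (fun q => t (Sum.inl ⟨i, q⟩)) g b

/-- The part of `θ` in the factor `i`. -/
noncomputable def pth (θ : Finset (Σ i, J i)) (i : I) : Finset (J i) :=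
  θ.preimage (fun j => (⟨i, j⟩ : Σ i, J i)) (sigma_mk_injective.injOn)

omit [Fintype I] in
lemma mem_pth {θ : Finset (Σ i, J i)} {i : I} {j : J i} : j ∈ pth θ i ↔ (⟨i, j⟩ : Σ i, J i) ∈ θ :=
  Finset.mem_preimage

lemma isGauge_pi {θ : Finset (Σ i, J i)} {f f0 : ∀ i, (P i → ℝ) → Γ → Γ → ℝ} {A : I → ℝ}
    (hw : ∀ i b, 0 < w i b)
    (h : ∀ i, IsGauge (gap i) (w i) (pth θ i) (f i) (f0 i) (A i)) :
    IsGauge (fun (j : Σ i, J i) g => gap j.1 j.2 g) (fun b => ∑ i, w i b) θ (pf f) (pf f0)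
      (1 + ∑ i, |A i|) := by
  have hw0 : ∀ b, 0 ≤ ∑ i, w i b := fun b => Finset.sum_nonneg fun i _ => (hw i b).le
  -- nonnegativity of the gauges
  have hf : ∀ i t g b, 0 ≤ f i t g b := fun i t g b => by
    obtain ⟨c, hc, h1⟩ := (h i).lo t g
    exact (mul_pos hc (hw i b)).le.trans (h1 b)
  have hf0 : ∀ i t g b, 0 ≤ f0 i t g b := fun i t g b => by
    obtain ⟨c, hc, h1⟩ := (h i).lo0 t g
    exact (mul_pos hc (hw i b)).le.trans (h1 b)
  -- parts
  have hdom : ∀ R g, (∀ j : Σ i, J i, j ∉ θ → gap j.1 j.2 g ≤ R) → ∀ i, ∀ j, j ∉ pth θ i →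
      gap i j g ≤ R := fun R g hg i j hj => hg ⟨i, j⟩ fun hh => hj (mem_pth.2 hh)
  have hdeep : ∀ R g, (∀ j ∈ θ, R ≤ gap j.1 j.2 g) → ∀ i, ∀ j ∈ pth θ i, R ≤ gap i j g :=
    fun R g hg i j hj => hg ⟨i, j⟩ (mem_pth.1 hj)
  -- a lower bound
  have lower : ∀ (F : ∀ i, (P i → ℝ) → Γ → Γ → ℝ) (hF : ∀ i t g b, 0 ≤ F i t g b)
      (c : I → ℝ) (hc : ∀ i, 0 < c i), ∃ c' > 0, ∀ t g b,
      (∀ i, c i * w i b ≤ Real.exp (t (Sum.inr i)) * F i (fun q => t (Sum.inl ⟨i, q⟩)) g b) →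
      c' * ∑ i, w i b ≤ pf F t g b := by
    intro F hF c hc
    obtain ⟨c', hc', h1⟩ := exists_pos_le_all c hc
    refine ⟨c', hc', fun t g b h2 => ?_⟩
    unfold pf
    rw [Finset.mul_sum]
    exact Finset.sum_le_sum fun i _ =>
      (mul_le_mul_of_nonneg_right (h1 i) (hw i b).le).trans (h2 i)
  refine ⟨?_, ?_, ?_, ?_, ?_, ?_, ?_, ?_⟩
  · intro t g
    choose c hc h1 using fun i => (h i).lo (fun q => t (Sum.inl ⟨i, q⟩)) g
    obtain ⟨c', hc', h2⟩ := lower f hf (fun i => Real.exp (t (Sum.inr i)) * c i)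
      (fun i => mul_pos (Real.exp_pos _) (hc i))
    refine ⟨c', hc', fun b => h2 t g b fun i => ?_⟩
    rw [mul_assoc]
    exact mul_le_mul_of_nonneg_left (h1 i b) (Real.exp_pos _).le
  · intro t g
    choose c hc h1 using fun i => (h i).lo0 (fun q => t (Sum.inl ⟨i, q⟩)) g
    obtain ⟨c', hc', h2⟩ := lower f0 hf0 (fun i => Real.exp (t (Sum.inr i)) * c i)
      (fun i => mul_pos (Real.exp_pos _) (hc i))
    refine ⟨c', hc', fun b => h2 t g b fun i => ?_⟩
    rw [mul_assoc]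
    exact mul_le_mul_of_nonneg_left (h1 i b) (Real.exp_pos _).le
  · intro R T
    choose c hc C h1 using fun i => (h i).bd R T
    obtain ⟨c', hc', h2⟩ := lower f hf c hc
    obtain ⟨C', hC', h3⟩ := exists_le_all C
    refine ⟨c', hc', Real.exp T * C', fun g hg t ht b => ⟨h2 t g b fun i => ?_, ?_⟩⟩
    · have := (h1 i g (hdom R g hg i) (fun q => t (Sum.inl ⟨i, q⟩)) (fun q => ht _) b).1
      exact this.trans (le_mul_of_one_le_left (hf _ _ _ _) (Real.one_le_exp (ht _).1))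
    · unfold pf
      rw [Finset.mul_sum]
      refine Finset.sum_le_sum fun i _ => ?_
      rw [mul_assoc]
      refine mul_le_mul (Real.exp_le_exp.2 (ht _).2) ?_ (hf _ _ _ _) (Real.exp_pos _).le
      exact (h1 i g (hdom R g hg i) (fun q => t (Sum.inl ⟨i, q⟩)) (fun q => ht _) b).2.trans
        (mul_le_mul_of_nonneg_right (h3 i) (hw i b).le)
  · intro T
    choose c hc C h1 using fun i => (h i).bd0 T
    obtain ⟨c', hc', h2⟩ := lower f0 hf0 c hc
    obtain ⟨C', hC', h3⟩ := exists_le_all C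
    refine ⟨c', hc', Real.exp T * C', fun g t ht b => ⟨h2 t g b fun i => ?_, ?_⟩⟩
    · have := (h1 i g (fun q => t (Sum.inl ⟨i, q⟩)) (fun q => ht _) b).1
      exact this.trans (le_mul_of_one_le_left (hf0 _ _ _ _) (Real.one_le_exp (ht _).1))
    · unfold pf
      rw [Finset.mul_sum]
      refine Finset.sum_le_sum fun i _ => ?_
      rw [mul_assoc]
      refine mul_le_mul (Real.exp_le_exp.2 (ht _).2) ?_ (hf0 _ _ _ _) (Real.exp_pos _).le
      exact (h1 i g (fun q => t (Sum.inl ⟨i, q⟩)) (fun q => ht _) b).2.trans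
        (mul_le_mul_of_nonneg_right (h3 i) (hw i b).le)
  · intro t d g b
    unfold pf
    rw [Finset.mul_sum]
    refine Finset.sum_le_sum fun i _ => ?_
    have h1 := (h i).lip (fun q => t (Sum.inl ⟨i, q⟩)) (fun q => d (Sum.inl ⟨i, q⟩)) g b
    have e1 : (fun q => (t + d) (Sum.inl (⟨i, q⟩ : Σ i, P i))) =
        (fun q => t (Sum.inl ⟨i, q⟩)) + fun q => d (Sum.inl ⟨i, q⟩) := rfl
    rw [e1]
    have hs1 : ∑ q, |d (Sum.inl (⟨i, q⟩ : Σ i, P i))| ≤ ∑ j, |d (Sum.inl j)| := by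
      rw [Fintype.sum_sigma]
      exact Finset.single_le_sum (f := fun i => ∑ q, |d (Sum.inl (⟨i, q⟩ : Σ i, P i))|)
        (fun _ _ => Finset.sum_nonneg fun _ _ => abs_nonneg _) (Finset.mem_univ i)
    have hs2 : |d (Sum.inr i)| ≤ ∑ i, |d (Sum.inr i)| :=
      Finset.single_le_sum (f := fun i => |d (Sum.inr i)|)
        (fun _ _ => abs_nonneg _) (Finset.mem_univ i)
    have hA : A i ≤ ∑ i, |A i| := (le_abs_self _).trans
      (Finset.single_le_sum (f := fun i => |A i|) (fun _ _ => abs_nonneg _) (Finset.mem_univ i))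
    have hA0 : 0 ≤ ∑ i, |A i| := Finset.sum_nonneg fun _ _ => abs_nonneg _
    have hq0 : 0 ≤ ∑ q, |d (Sum.inl (⟨i, q⟩ : Σ i, P i))| :=
      Finset.sum_nonneg fun _ _ => abs_nonneg _
    have hr0 : 0 ≤ ∑ i, |d (Sum.inr i)| := Finset.sum_nonneg fun _ _ => abs_nonneg _
    have hexp : A i * ∑ q, |d (Sum.inl (⟨i, q⟩ : Σ i, P i))| + d (Sum.inr i) ≤
        (1 + ∑ i, |A i|) * ∑ j, |d j| := by
      rw [Fintype.sum_sum_type]
      have a1 := le_abs_self (d (Sum.inr i))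
      have a2 : A i * ∑ q, |d (Sum.inl (⟨i, q⟩ : Σ i, P i))| ≤
          (∑ i, |A i|) * ∑ j, |d (Sum.inl j)| :=
        mul_le_mul hA hs1 hq0 hA0
      have a3 : 0 ≤ (∑ i, |A i|) * ∑ i, |d (Sum.inr i)| := mul_nonneg hA0 hr0
      have a4 : 0 ≤ ∑ j, |d (Sum.inl j)| := hq0.trans hs1
      linarith [a1.trans hs2]
    calc Real.exp ((t + d) (Sum.inr i)) * f i ((fun q => t (Sum.inl ⟨i, q⟩)) +
          fun q => d (Sum.inl ⟨i, q⟩)) g b
        ≤ (Real.exp (t (Sum.inr i)) * Real.exp (d (Sum.inr i))) *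
          (Real.exp (A i * ∑ q, |d (Sum.inl ⟨i, q⟩)|) * f i (fun q => t (Sum.inl ⟨i, q⟩)) g b) := by
          rw [Pi.add_apply, Real.exp_add]
          exact mul_le_mul_of_nonneg_left h1 (by positivity)
      _ = Real.exp (A i * ∑ q, |d (Sum.inl ⟨i, q⟩)| + d (Sum.inr i)) *
          (Real.exp (t (Sum.inr i)) * f i (fun q => t (Sum.inl ⟨i, q⟩)) g b) := by
          rw [Real.exp_add]; ring
      _ ≤ _ := by
          refine mul_le_mul_of_nonneg_right (Real.exp_le_exp.2 hexp) ?_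
          exact mul_nonneg (Real.exp_pos _).le (hf _ _ _ _)
  · intro s R1
    choose C hC using fun i => (h i).left s R1
    obtain ⟨C', hC', hCC⟩ := exists_le_all C
    refine ⟨C', fun ρ hρ => ?_⟩
    choose L hL using fun i => hC i ρ hρ
    obtain ⟨L', hL', hLL⟩ := exists_le_all L
    refine ⟨L', fun T => ?_⟩
    choose D hD using fun i => hL i T
    obtain ⟨D', hD', hDD⟩ := exists_le_all D
    refine ⟨D', fun g hg hg1 => ?_⟩
    choose p hp σ hσ h1 using fun i => hD i g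
      (fun j hj => (hDD i).trans (hdeep D' g hg i j hj)) (hdom R1 g hg1 i)
    refine ⟨0, by rw [abs_zero]; exact hC', fun x => Sum.elim (fun j => σ j.1 j.2) p x, ?_, ?_⟩
    · rintro (⟨i, q⟩ | i)
      · exact (hσ i q).trans (hCC i)
      · exact (hp i).trans (hCC i)
    · intro t ht b
      unfold pf
      rw [Real.exp_zero, one_mul, ← Finset.sum_sub_distrib, Finset.mul_sum]
      refine (Finset.abs_sum_le_sum_abs _ _).trans (Finset.sum_le_sum fun i _ => ?_)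
      have h2 := h1 i (fun q => t (Sum.inl ⟨i, q⟩))
        (fun q => ⟨(hLL i).trans (ht _).1, (ht _).2⟩) b
      have e1 : Real.exp ((t + fun x => Sum.elim (fun j : Σ i, P i => σ j.1 j.2) p x) (Sum.inr i)) *
          f i (fun q => (t + fun x => Sum.elim (fun j : Σ i, P i => σ j.1 j.2) p x)
            (Sum.inl ⟨i, q⟩)) (s * g) (s * b) -
          Real.exp (t (Sum.inr i)) * f i (fun q => t (Sum.inl ⟨i, q⟩)) g b =
          Real.exp (t (Sum.inr i)) * (Real.exp (p i) *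
            f i ((fun q => t (Sum.inl ⟨i, q⟩)) + σ i) (s * g) (s * b) -
            f i (fun q => t (Sum.inl ⟨i, q⟩)) g b) := by
        rw [Pi.add_apply, Real.exp_add, mul_sub, ← mul_assoc]
        rfl
      rw [e1, abs_mul, abs_of_pos (Real.exp_pos _)]
      calc _ ≤ Real.exp (t (Sum.inr i)) * (ρ * f i (fun q => t (Sum.inl ⟨i, q⟩)) g b) :=
            mul_le_mul_of_nonneg_left h2 (Real.exp_pos _).le
        _ = _ := by ring
  · intro u T η hη
    choose D hD using fun i => (h i).right u T η hη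
    obtain ⟨D', hD', hDD⟩ := exists_le_all D
    refine ⟨D', fun g hg t ht b => ?_⟩
    unfold pf
    rw [← Finset.sum_sub_distrib, Finset.mul_sum]
    refine (Finset.abs_sum_le_sum_abs _ _).trans (Finset.sum_le_sum fun i _ => ?_)
    have h2 := hD i g (fun j hj => (hDD i).trans (hdeep D' g hg i j hj))
      (fun q => t (Sum.inl ⟨i, q⟩)) (fun q => ht _) b
    rw [← mul_sub, abs_mul, abs_of_pos (Real.exp_pos _)]
    calc _ ≤ Real.exp (t (Sum.inr i)) * (η * f0 i (fun q => t (Sum.inl ⟨i, q⟩)) g b) :=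
          mul_le_mul_of_nonneg_left h2 (Real.exp_pos _).le
      _ = _ := by ring
  · intro R
    choose C hC1 hC using fun i => (h i).ov R
    obtain ⟨C', hC', hCC⟩ := exists_le_all C
    refine ⟨max C' 1, le_max_right _ _, fun T => ?_⟩
    choose D hD using fun i => hC i T
    obtain ⟨D', hD', hDD⟩ := exists_le_all D
    refine ⟨D', fun g hg hg1 t ht b => ?_⟩
    have h2 := fun i => hD i g (fun j hj => (hDD i).trans (hdeep D' g hg i j hj))
      (hdom R g hg1 i) (fun q => t (Sum.inl ⟨i, q⟩)) (fun q => ht _) b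
    have hCi : ∀ i, C i ≤ max C' 1 := fun i => (hCC i).trans (le_max_left _ _)
    unfold pf
    rw [Finset.mul_sum, Finset.mul_sum]
    constructor
    · refine Finset.sum_le_sum fun i _ => ?_
      calc _ ≤ Real.exp (t (Sum.inr i)) *
            (max C' 1 * f0 i (fun q => t (Sum.inl ⟨i, q⟩)) g b) := by
            refine mul_le_mul_of_nonneg_left ?_ (Real.exp_pos _).le
            exact (h2 i).1.trans (mul_le_mul_of_nonneg_right (hCi i) (hf0 _ _ _ _))
        _ = _ := by ring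
    · refine Finset.sum_le_sum fun i _ => ?_
      calc _ ≤ Real.exp (t (Sum.inr i)) *
            (max C' 1 * f i (fun q => t (Sum.inl ⟨i, q⟩)) g b) := by
            refine mul_le_mul_of_nonneg_left ?_ (Real.exp_pos _).le
            exact (h2 i).2.trans (mul_le_mul_of_nonneg_right (hCi i) (hf _ _ _ _))
        _ = _ := by ring

/-- Products of systems of gauges. -/
theorem GSys.pi [Nonempty I] (h : ∀ i, GSys (gap i) (w i)) :
    GSys (fun (j : Σ i, J i) g => gap j.1 j.2 g) (fun b => ∑ i, w i b) := by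
  have hw := fun i => (h i).pos
  have hle : ∀ i b, w i b ≤ ∑ i, w i b := fun i b =>
    Finset.single_le_sum (f := fun i => w i b) (fun i _ => (hw i b).le) (Finset.mem_univ i)
  refine ⟨fun b => Finset.sum_pos (fun i _ => hw i b) Finset.univ_nonempty, ?_, ?_, ?_, ?_⟩
  · intro s t
    choose C hC using fun i => (h i).quasi s t
    obtain ⟨C', _, hCC⟩ := exists_le_all C
    exact ⟨C', fun j g => (hC j.1 j.2 g).trans (hCC j.1)⟩
  · intro R
    choose R' hR using fun i => (h i).bdd R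
    exact ⟨∑ i, R' i, fun g hg => Finset.sum_le_sum fun i _ => hR i g fun j => hg ⟨i, j⟩⟩
  · choose C0 C hC M hM using fun i => (h i).pack
    refine ⟨∑ i, C0 i, ∏ i, C i, Finset.prod_pos fun i _ => hC i, ∑ i, M i, fun k => ?_⟩
    choose X hX code hc1 hc2 using fun i => hM i k
    classical
    refine ⟨∀ i, X i, inferInstance, fun g i => code i g, ?_, fun b b' hb hb' hcode => ?_⟩
    · rw [Fintype.card_pi, Nat.cast_prod, ← Finset.prod_pow_eq_pow_sum, ← Finset.prod_mul_distrib]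
      exact Finset.prod_le_prod (fun i _ => Nat.cast_nonneg _) fun i _ => hc1 i
    · exact Finset.sum_le_sum fun i _ => hc2 i b b' ((hle i b).trans hb) ((hle i b').trans hb')
        (congrFun hcode i)
  · intro θ
    choose P hP f f0 A hG using fun i => (h i).gauge (pth θ i)
    exact ⟨(Σ i, P i) ⊕ I, inferInstance, pf f, pf f0, 1 + ∑ i, |A i|, isGauge_pi hw hG⟩

end prod

/-! ### Summability and the geometric functions -/

section summ
variable {Γ J : Type} [Group Γ] {gap : J → Γ → ℝ} {w : Γ → ℝ}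

/-- Polynomial growth. -/
lemma GSys.card_le (h : GSys gap w) (fin : ∀ R : ℝ, {g | w g ≤ R}.Finite) :
    ∃ C : ℝ, 0 < C ∧ ∃ M : ℕ, ∀ (k : ℕ) (S : Finset Γ), (∀ b ∈ S, w b ≤ k) →
      (S.card : ℝ) ≤ C * ((k : ℝ) + 1) ^ M := by
  classical
  obtain ⟨C0, C, hC, M, hM⟩ := h.pack
  set N : Finset Γ := (fin C0).toFinset with hN
  refine ⟨C * ((N.card : ℝ) + 1), by positivity, M, fun k S hS => ?_⟩
  obtain ⟨X, hX, code, h1, h2⟩ := hM k
  -- representatives
  let rep : X → Γ := fun x => if hx : ∃ b ∈ S, code b = x then hx.choose else 1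
  have hrep : ∀ b ∈ S, rep (code b) ∈ S ∧ code (rep (code b)) = code b := by
    intro b hb
    have hx : ∃ b' ∈ S, code b' = code b := ⟨b, hb, rfl⟩
    have : rep (code b) = hx.choose := dif_pos hx
    rw [this]
    exact hx.choose_spec
  have hcard : S.card ≤ (univ ×ˢ N : Finset (X × Γ)).card := by
    refine Finset.card_le_card_of_injOn (fun b => (code b, (rep (code b))⁻¹ * b)) ?_ ?_
    · intro b hb
      obtain ⟨r1, r2⟩ := hrep b hb
      simp only [Finset.coe_product, Set.mem_prod, Finset.mem_coe, Finset.mem_univ, true_and]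
      rw [hN, Set.Finite.mem_toFinset]
      exact h2 _ _ (hS _ r1) (hS b hb) r2
    · intro b _ b' _ hbb
      have e1 : code b = code b' := congrArg Prod.fst hbb
      have e2 : (rep (code b))⁻¹ * b = (rep (code b'))⁻¹ * b' := congrArg Prod.snd hbb
      rw [e1] at e2
      exact mul_left_cancel e2
  have hcard' : (S.card : ℝ) ≤ (Fintype.card X : ℝ) * N.card := by
    have := hcard
    rw [Finset.card_product, Finset.card_univ] at this
    exact_mod_cast this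
  have hk : (0 : ℝ) ≤ ((k : ℝ) + 1) ^ M := by positivity
  calc (S.card : ℝ) ≤ (Fintype.card X : ℝ) * N.card := hcard'
    _ ≤ (C * ((k : ℝ) + 1) ^ M) * ((N.card : ℝ) + 1) :=
        mul_le_mul h1 (by linarith) (Nat.cast_nonneg _) (by positivity)
    _ = _ := by ring

/-- The height function is bounded below. -/
lemma GSys.exists_lower (h : GSys gap w) (fin : ∀ R : ℝ, {g | w g ≤ R}.Finite) :
    ∃ c : ℝ, 0 < c ∧ c ≤ 1 ∧ ∀ b, c ≤ w b := by
  classical
  set N : Finset Γ := (fin 1).toFinset with hN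
  obtain ⟨c, hc, h1⟩ := exists_pos_le_all (fun b : N => w b) fun b => h.pos b
  refine ⟨min c 1, lt_min hc one_pos, min_le_right _ _, fun b => ?_⟩
  by_cases hb : w b ≤ 1
  · have : b ∈ N := by rw [hN, Set.Finite.mem_toFinset]; exact hb
    exact (min_le_left _ _).trans (h1 ⟨b, this⟩)
  · exact (min_le_right _ _).trans (not_le.1 hb).le

/-- Summability. -/
theorem GSys.summable (h : GSys gap w) (fin : ∀ R : ℝ, {g | w g ≤ R}.Finite) :
    ∃ N : ℕ, Summable fun b => (w b ^ N)⁻¹ := by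
  classical
  obtain ⟨C, hC, M, hM⟩ := h.card_le fin
  obtain ⟨c, hc, hc1, hcw⟩ := h.exists_lower fin
  refine ⟨M + 2, ?_⟩
  -- the level of an element
  set l : Γ → ℕ := fun b => ⌈w b⌉₊ with hl
  have hl1 : ∀ b, w b ≤ l b := fun b => Nat.le_ceil _
  have hl2 : ∀ b, (l b : ℝ) < w b + 1 := fun b => Nat.ceil_lt_add_one (h.pos b).le
  -- partial sums
  set a : ℕ → ℝ := fun k => (((k : ℝ) + 1) ^ (M + 2))⁻¹ with ha
  have ha0 : ∀ k, 0 ≤ a k := fun k => by rw [ha]; positivity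
  -- weight comparison
  set e : ℝ := 1 + 2 / c with he
  have he1 : 0 < e := by rw [he]; positivity
  have hcmp : ∀ b, (w b ^ (M + 2))⁻¹ ≤ e ^ (M + 2) * a (l b) := by
    intro b
    have h2 : (l b : ℝ) + 1 ≤ e * w b := by
      have h3 : 2 ≤ 2 / c * w b := by
        rw [div_mul_eq_mul_div, le_div_iff₀ hc]
        nlinarith [hcw b]
      have := hl2 b
      rw [he]; nlinarith
    rw [ha]
    simp only
    rw [← div_eq_mul_inv, le_div_iff₀ (by positivity), inv_mul_le_iff₀ (pow_pos (h.pos b) _),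
      ← mul_pow]
    have h4 := pow_le_pow_left₀ (by positivity) h2 (M + 2)
    calc ((l b : ℝ) + 1) ^ (M + 2) ≤ (e * w b) ^ (M + 2) := h4
      _ = (w b * e) ^ (M + 2) := by rw [mul_comm]
  -- partial sums by levels
  have s1 : Summable (fun k : ℕ => (((k : ℝ) + 1) ^ 2)⁻¹) := by
    have := (summable_nat_add_iff 1).2 (Real.summable_one_div_nat_pow.2 (by norm_num : 1 < 2))
    refine this.congr fun k => ?_
    push_cast
    rw [one_div]
  have s2 : Summable (fun b => a (l b)) := by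
    refine summable_of_sum_le (c := C * ∑' k : ℕ, (((k : ℝ) + 1) ^ 2)⁻¹) (fun b => ha0 _)
      fun S => ?_
    have e1 : ∑ b ∈ S, a (l b) = ∑ k ∈ S.image l, ((S.filter fun b => l b = k).card : ℝ) * a k := by
      rw [← Finset.sum_fiberwise_of_maps_to (t := S.image l) (g := l)
        (fun b hb => Finset.mem_image_of_mem l hb)]
      refine Finset.sum_congr rfl fun k _ => ?_
      rw [Finset.sum_congr rfl (g := fun _ => a k) fun b hb => by
        rw [(Finset.mem_filter.1 hb).2]]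
      rw [Finset.sum_const, nsmul_eq_mul]
    rw [e1]
    calc ∑ k ∈ S.image l, ((S.filter fun b => l b = k).card : ℝ) * a k
        ≤ ∑ k ∈ S.image l, C * (((k : ℝ) + 1) ^ 2)⁻¹ := by
          refine Finset.sum_le_sum fun k _ => ?_
          have h1 := hM k (S.filter fun b => l b = k) fun b hb => by
            rw [← (Finset.mem_filter.1 hb).2]; exact hl1 b
          have hk : (0 : ℝ) < ((k : ℝ) + 1) := by positivity
          calc ((S.filter fun b => l b = k).card : ℝ) * a k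
              ≤ (C * ((k : ℝ) + 1) ^ M) * a k := mul_le_mul_of_nonneg_right h1 (ha0 k)
            _ = C * (((k : ℝ) + 1) ^ 2)⁻¹ := by
                rw [ha]
                simp only
                rw [pow_add]
                field_simp
      _ = C * ∑ k ∈ S.image l, (((k : ℝ) + 1) ^ 2)⁻¹ := by rw [Finset.mul_sum]
      _ ≤ _ := mul_le_mul_of_nonneg_left
          (s1.sum_le_tsum _ fun k _ => by positivity) hC.le
  refine Summable.of_nonneg_of_le (fun b => ?_) hcmp (s2.mul_left _)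
  have := h.pos b
  positivity

/-- **The geometric functions of a system of gauges.** The conclusion is `Geo gap θ` of
`H761/RankDefs.lean`. -/
theorem GSys.geo [DecidableEq Γ] (h : GSys gap w) (fin : ∀ R : ℝ, {g | w g ≤ R}.Finite)
    (θ : Finset J) :
    ∀ R : ℝ, ∃ c : ℝ, 0 < c ∧ ∀ (S : Finset Γ) (ε : ℝ), 0 < ε → ∀ R1 : ℝ,
    ∃ (B : Finset Γ) (F H : Γ → Γ → ℝ) (D : ℝ),
      (∀ b g, 0 ≤ F b g) ∧ (∀ b g, 0 ≤ H b g) ∧
      (∀ b ∉ B, ∀ g, F b g = 0) ∧ (∀ b ∉ B, ∀ g, H b g = 0) ∧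
      (∀ g, ∑ b ∈ B, F b g ^ 2 ≤ 1) ∧ (∀ g, ∑ b ∈ B, H b g ^ 2 ≤ 1) ∧
      (∀ s ∈ S, ∀ g, (∀ j ∈ θ, D ≤ gap j g) → (∀ j, j ∉ θ → gap j g ≤ R1) →
        ∑ b ∈ B ∪ B.image (fun b => s⁻¹ * b), (F (s * b) (s * g) - F b g) ^ 2 ≤ ε) ∧
      (∀ t : Γ, ∀ η : ℝ, 0 < η → ∃ D' : ℝ, ∀ g, (∀ j ∈ θ, D' ≤ gap j g) →
        ∀ b, |H b (g * t) - H b g| ≤ η) ∧
      (∀ g, (∀ j ∈ θ, D ≤ gap j g) → (∀ j, j ∉ θ → gap j g ≤ R) →
        c ≤ ∑ b ∈ B, F b g * H b g) := by
  classical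
  obtain ⟨N, hN⟩ := h.summable fin
  obtain ⟨P, hP, f, f0, A, hG⟩ := h.gauge θ
  refine R1d.asmR (J := P) (N := N) (w := w) (f := f) (f0 := f0) (A := A)
    (fun R g => ∀ j ∈ θ, R ≤ gap j g) (fun R g => ∀ j, j ∉ θ → gap j g ≤ R)
    (fun R R' g hRR hg j hj => hRR.trans (hg j hj))
    (fun R R' g hRR hg j hj => (hg j hj).trans hRR) (fun s => ?_)
    h.pos hN hG.lo hG.lo0 hG.bd hG.bd0 hG.lip (fun s R1 => ?_) hG.right hG.ov
  · obtain ⟨C, hC⟩ := h.quasi s 1
    refine ⟨C, fun R g hg j hj => ?_⟩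
    have := hC j g
    rw [mul_one] at this
    linarith [(abs_le.1 this).2, hg j hj]
  · obtain ⟨C, hC⟩ := hG.left s R1
    refine ⟨C, fun ρ hρ => ?_⟩
    obtain ⟨L, hL⟩ := hC ρ hρ
    refine ⟨L, fun T => ?_⟩
    obtain ⟨D, hD⟩ := hL T
    refine ⟨D, fun g hg hg1 => ?_⟩
    obtain ⟨p, -, σ, hσ, h1⟩ := hD g hg hg1
    exact ⟨Real.exp p, Real.exp_pos p, σ, hσ, h1⟩

/-- Balls defined by the gaps are finite. -/
theorem GSys.gap_finite (h : GSys gap w) (fin : ∀ R : ℝ, {g | w g ≤ R}.Finite) (R : ℝ) :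
    {g : Γ | ∀ j, gap j g ≤ R}.Finite := by
  obtain ⟨R', hR⟩ := h.bdd R
  exact (fin R').subset fun g hg => hR g hg

end summ

end Vale.Agent.P092.H515
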