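import Vale.Agent.P092.H515.Prod
import Vale.Agent.P092.H944.GeoRaw

/-!
P092 (helper515), block [R7]: the system of gauges of one real factor.
-/

namespace Vale.Agent.P092.H515

open Matrix
open Vale.Agent.P092.H944

variable {n : ℕ}

/-- A map to real matrices, multiplicative up to sign, with determinant `±1`. -/
structure EmbW {Γ : Type} [Group Γ] (m : Γ → Matrix (Fin n) (Fin n) ℝ) : Prop where
  mul : ∀ g h, m (g * h) = m g * m h ∨ m (g * h) = -(m g * m h)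
  det : ∀ g, (m g).det ^ 2 = 1

section

variable {Γ : Type} [Group Γ] {m : Γ → Matrix (Fin n) (Fin n) ℝ}

theorem EmbW.ne (h : EmbW m) (g : Γ) : (m g).det ≠ 0 := by
  intro h0
  have := h.det g
  rw [h0] at this
  norm_num at this

theorem EmbW.abs_det (h : EmbW m) (g : Γ) : |(m g).det| = 1 := by
  have := h.det g
  rw [← sq_abs] at this
  nlinarith [abs_nonneg (m g).det]

/-- Left multiplication, with the sign absorbed in `s`. -/
theorem EmbW.left_cases (h : EmbW m) (s g : Γ) :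
    ∃ s' : Matrix (Fin n) (Fin n) ℝ, (s' = m s ∨ s' = -m s) ∧ s'.det ≠ 0 ∧
      m (s * g) = s' * m g := by
  rcases h.mul s g with e | e
  · exact ⟨m s, Or.inl rfl, h.ne s, e⟩
  · exact ⟨-m s, Or.inr rfl, neg_det_ne (h.ne s), by rw [e, Matrix.neg_mul]⟩

theorem EmbW.right_cases (h : EmbW m) (g t : Γ) :
    ∃ t' : Matrix (Fin n) (Fin n) ℝ, (t' = m t ∨ t' = -m t) ∧ t'.det ≠ 0 ∧
      m (g * t) = m g * t' := by
  rcases h.mul g t with e | e
  · exact ⟨m t, Or.inl rfl, h.ne t, e⟩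
  · exact ⟨-m t, Or.inr rfl, neg_det_ne (h.ne t), by rw [e, Matrix.mul_neg]⟩

theorem EmbW.gap_left (h : EmbW m) (s g : Γ) (j : ℕ) :
    |gap j (m (s * g)) - gap j (m g)| ≤ 4 * lcs (m s) := by
  obtain ⟨s', h1, h2, h3⟩ := h.left_cases s g
  rw [h3]
  exact (abs_gap_left h2 (h.ne g) j).trans
    (mul_le_mul_of_nonneg_left (lc_le_lcs h1) (by norm_num))

theorem EmbW.gap_right (h : EmbW m) (g t : Γ) (j : ℕ) :
    |gap j (m (g * t)) - gap j (m g)| ≤ 4 * lcs (m t) := by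
  obtain ⟨t', h1, h2, h3⟩ := h.right_cases g t
  rw [h3]
  exact (abs_gap_right h2 (h.ne g) j).trans
    (mul_le_mul_of_nonneg_left (lc_le_lcs h1) (by norm_num))

theorem EmbW.gap_quasi (h : EmbW m) (s g t : Γ) (j : ℕ) :
    |gap j (m (s * g * t)) - gap j (m g)| ≤ 4 * lcs (m s) + 4 * lcs (m t) := by
  have e1 := h.gap_left s g j
  have e2 := h.gap_right (s * g) t j
  rw [abs_le] at e1 e2 ⊢
  constructor <;> linarith [e1.1, e1.2, e2.1, e2.2]

/-- The scale factor of the left estimate is bounded. -/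
theorem EmbW.scale (h : EmbW m) (hn : 0 < n) (s g : Γ) :
    |2 * la (m g) 0 - 2 * la (m (s * g)) 0| ≤ 2 * lcs (m s) := by
  obtain ⟨s', h1, h2, h3⟩ := h.left_cases s g
  have := abs_la_left h2 (h.ne g) (⟨0, hn⟩ : Fin n)
  have h4 := lc_le_lcs h1
  rw [h3]
  rw [abs_le] at this ⊢
  constructor
  · linarith [this.2]
  · linarith [this.1]

/-- The gauges of a real factor. -/
theorem EmbW.gauge (hn : 0 < n) (h : EmbW m) {J : Type}
    (e : J ↪ ℕ) {R0 : ℝ}
    (h0 : ∀ l, l + 1 < n → (∀ j, e j ≠ l) → ∀ g, gap l (m g) ≤ R0) (θ : Finset J) :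
    IsGauge (P := {j // j ∈ θ}) (fun j g => gap (e j) (m g)) (fun b => hs (m b)) θ
      (fun t g b => gf (θ.map e) (tt e θ t) (m g) (m b))
      (fun t g b => g0 (θ.map e) (tt e θ t) (m g) (m b)) 1 := by
  classical
  -- the bounds outside of `θ`
  have hout : ∀ R (g : Γ), (∀ j, j ∉ θ → gap (e j) (m g) ≤ R) →
      ∀ l, l ∉ θ.map e → l + 1 < n → gap l (m g) ≤ max R R0 := by
    intro R g hR l hl hln
    by_cases hj : ∃ j, e j = l
    · obtain ⟨j, rfl⟩ := hj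
      have hjθ : j ∉ θ := fun hjm => hl (Finset.mem_map_of_mem e hjm)
      exact (hR j hjθ).trans (le_max_left _ _)
    · push Not at hj
      exact (h0 l hln hj g).trans (le_max_right _ _)
  have hin : ∀ R (g : Γ), (∀ j ∈ θ, R ≤ gap (e j) (m g)) →
      ∀ l ∈ θ.map e, R ≤ gap l (m g) := by
    intro R g hR l hl
    obtain ⟨j, hj, rfl⟩ := Finset.mem_map.mp hl
    exact hR j hj
  have hsum : ∀ d : {j // j ∈ θ} → ℝ, ∑ l ∈ θ.map e, |tt e θ d l| = ∑ j, |d j| := by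
    intro d
    rw [Finset.sum_map]
    rw [← Finset.sum_coe_sort θ (fun j => |tt e θ d (e j)|)]
    refine Finset.sum_congr rfl fun j _ => ?_
    rw [tt_apply]
  refine ⟨?_, ?_, ?_, ?_, ?_, ?_, ?_, ?_⟩
  · intro t g
    obtain ⟨c, hc, h1⟩ := gf_lo (θ.map e) (tt e θ t) (h.ne g)
    exact ⟨c, hc, fun b => h1 (m b)⟩
  · intro t g
    obtain ⟨c, hc, h1⟩ := g0_lo (θ.map e) (tt e θ t) (h.ne g)
    exact ⟨c, hc, fun b => h1 (m b)⟩
  · intro R T
    refine ⟨1, one_pos, Real.exp (n * (|T| + |max R R0|)), fun g hg t ht b => ?_⟩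
    have := gf_bd (h.ne g) (hout R g hg)
      (tt_mem e θ t (P := fun x => 0 ≤ x) fun j => (ht j).1)
      (tt_mem e θ t (P := fun x => x ≤ T) fun j => (ht j).2) (m b)
    rwa [one_mul]
  · intro T
    refine ⟨1, one_pos, Real.exp (n * |T|), fun g t ht b => ?_⟩
    have := g0_bd (h.ne g)
      (tt_mem e θ t (P := fun x => 0 ≤ x) fun j => (ht j).1)
      (tt_mem e θ t (P := fun x => x ≤ T) fun j => (ht j).2) (m b)
    rwa [one_mul]
  · intro t d g b
    have e1 : gf (θ.map e) (tt e θ (t + d)) (m g) (m b) =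
        gf (θ.map e) (fun l => tt e θ t l + tt e θ d l) (m g) (m b) := by
      refine gf_congr (fun l hl => ?_) _ _
      obtain ⟨j, hj, rfl⟩ := Finset.mem_map.mp hl
      rw [tt_apply e θ _ ⟨j, hj⟩, tt_apply e θ _ ⟨j, hj⟩, tt_apply e θ _ ⟨j, hj⟩]
      rfl
    simp only [one_mul]
    rw [e1, ← hsum]
    exact gf_lip _ _ _ _ _
  · intro s R1
    have hl0 := lcs_nonneg (m s)
    refine ⟨4 * lcs (m s), fun ρ hρ => ?_⟩
    obtain ⟨L1, hL1⟩ := gf_left (θ := θ.map e) (h.ne s) hρ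
    obtain ⟨L2, hL2⟩ := gf_left (θ := θ.map e) (neg_det_ne (h.ne s)) hρ
    refine ⟨max L1 L2, fun T => ?_⟩
    obtain ⟨D1, hD1⟩ := hL1 T
    obtain ⟨D2, hD2⟩ := hL2 T
    refine ⟨max D1 D2, fun g hg _ => ?_⟩
    obtain ⟨s', h1, h2, h3⟩ := h.left_cases s g
    refine ⟨2 * la (m g) 0 - 2 * la (m (s * g)) 0, (h.scale hn s g).trans (by linarith),
      fun j : {j // j ∈ θ} => gap (e j) (m (s * g)) - gap (e j) (m g),
      fun j => h.gap_left s g _, fun t ht b => ?_⟩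
    have e1 : gf (θ.map e) (tt e θ (t + fun j : {j // j ∈ θ} => gap (e j) (m (s * g)) - gap (e j) (m g)))
        (m (s * g)) (m (s * b)) =
        gf (θ.map e) (fun l => tt e θ t l + (gap l (s' * m g) - gap l (m g)))
          (s' * m g) (s' * m b) := by
      have e2 : gf (θ.map e) (tt e θ (t + fun j : {j // j ∈ θ} => gap (e j) (m (s * g)) - gap (e j) (m g)))
        (m (s * g)) (m (s * b)) =
          gf (θ.map e) (fun l => tt e θ t l + (gap l (s' * m g) - gap l (m g)))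
          (m (s * g)) (m (s * b)) := by
        refine gf_congr (fun l hl => ?_) _ _
        obtain ⟨j, hj, rfl⟩ := Finset.mem_map.mp hl
        rw [tt_apply e θ _ ⟨j, hj⟩, tt_apply e θ _ ⟨j, hj⟩, h3]
        rfl
      rw [e2, h3]
      have e4 : m (s * b) = s' * m b ∨ m (s * b) = -(s' * m b) := by
        rcases h1 with h1 | h1 <;> rcases h.mul s b with e5 | e5 <;> rw [h1, e5]
        · exact Or.inl rfl
        · exact Or.inr rfl
        · exact Or.inr (by rw [Matrix.neg_mul, neg_neg])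
        · exact Or.inl (by rw [Matrix.neg_mul])
      rcases e4 with e4 | e4 <;> rw [e4]
      rw [gf_neg]
    rw [e1, h3]
    have hT : ∀ l ∈ θ.map e, max L1 L2 ≤ tt e θ t l ∧ tt e θ t l ≤ T :=
      tt_mem e θ t (P := fun x => max L1 L2 ≤ x ∧ x ≤ T) ht
    rcases h1 with h1 | h1
    · rw [h1]
      exact hD1 (m g) (h.ne g)
        (fun l hl => (le_max_left _ _).trans (hin _ g hg l hl)) _
        (fun l hl => ⟨(le_max_left _ _).trans (hT l hl).1, (hT l hl).2⟩) (m b)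
    · rw [h1]
      exact hD2 (m g) (h.ne g)
        (fun l hl => (le_max_right _ _).trans (hin _ g hg l hl)) _
        (fun l hl => ⟨(le_max_right _ _).trans (hT l hl).1, (hT l hl).2⟩) (m b)
  · intro u T η hη
    obtain ⟨D1, hD1⟩ := g0_right (θ := θ.map e) (h.ne u) (T := T) hη
    obtain ⟨D2, hD2⟩ := g0_right (θ := θ.map e) (neg_det_ne (h.ne u)) (T := T) hη
    refine ⟨max D1 D2, fun g hg t ht b => ?_⟩
    obtain ⟨u', h1, h2, h3⟩ := h.right_cases g u
    have hT : ∀ l ∈ θ.map e, 0 ≤ tt e θ t l ∧ tt e θ t l ≤ T :=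
      tt_mem e θ t (P := fun x => 0 ≤ x ∧ x ≤ T) ht
    rw [h3]
    rcases h1 with h1 | h1
    · rw [h1]
      exact hD1 (m g) (h.ne g)
        (fun l hl => (le_max_left _ _).trans (hin _ g hg l hl)) _ hT (m b)
    · rw [h1]
      exact hD2 (m g) (h.ne g)
        (fun l hl => (le_max_right _ _).trans (hin _ g hg l hl)) _ hT (m b)
  · intro R
    refine ⟨Real.exp (n * |max R R0|), Real.one_le_exp (by positivity), fun T => ⟨0, ?_⟩⟩
    intro g _ hg t _ b
    have h1 := gf_g0 (t := tt e θ t) (h.ne g) (hout R g hg) (m b)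
    refine ⟨h1.2, h1.1.trans ?_⟩
    have h2 : 0 ≤ gf (θ.map e) (tt e θ t) (m g) (m b) :=
      wf_nonneg (fun i => (Real.exp_pos _).le) _
    exact le_mul_of_one_le_left h2 (Real.one_le_exp (by positivity))

/-- The closeness step of the packing argument. -/
theorem EmbW.close (h : EmbW m) (hn : 0 < n) :
    ∃ c : ℝ, 0 < c ∧ ∀ (k : ℕ) (b b' : Γ), H377.hsn (m b) ≤ k →
      (∀ i j, |m b' i j - m b i j| ≤ (c * ((k : ℝ) + 2) ^ n)⁻¹) →
      H377.hsn (m (b⁻¹ * b')) ≤ 2 + 2 * n := by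
  set nf : ℝ := (n.factorial : ℝ) ^ 2 with hnf
  have hnf1 : 1 ≤ nf := by
    rw [hnf]
    have : (1 : ℝ) ≤ (n.factorial : ℝ) := by exact_mod_cast n.factorial_pos
    nlinarith
  set c : ℝ := (n : ℝ) ^ 2 * ((n : ℝ) ^ 2 * nf) with hc
  have hcn : (1 : ℝ) ≤ n := by exact_mod_cast hn
  have hc1 : 1 ≤ c := by
    rw [hc]
    have h1 : (1 : ℝ) ≤ (n : ℝ) ^ 2 := one_le_pow₀ hcn
    have h2 : (1 : ℝ) ≤ (n : ℝ) ^ 2 * nf := by nlinarith
    nlinarith
  refine ⟨c, by linarith, fun k b b' hb hcl => ?_⟩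
  set K : ℝ := c * ((k : ℝ) + 2) ^ n with hKdef
  have hK : 0 < K := by positivity
  have hclose : H377.hsn (m b' - m b) ≤ (n : ℝ) ^ 2 * (K ^ 2)⁻¹ := by
    calc H377.hsn (m b' - m b)
        = ∑ i, ∑ j, ((m b' - m b) i j) ^ 2 := rfl
      _ ≤ ∑ i : Fin n, ∑ j : Fin n, (K ^ 2)⁻¹ := by
          refine Finset.sum_le_sum fun i _ => Finset.sum_le_sum fun j _ => ?_
          rw [Matrix.sub_apply, ← sq_abs, ← inv_pow]
          exact pow_le_pow_left₀ (abs_nonneg _) (hcl i j) 2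
      _ = (n : ℝ) ^ 2 * (K ^ 2)⁻¹ := by
          simp; ring
  obtain ⟨B, hB1, hB2⟩ : ∃ B : Matrix (Fin n) (Fin n) ℝ, B * m b = 1 ∧
      H377.hsn B ≤ (n : ℝ) ^ 2 * (nf * (H377.hsn (m b) + 1) ^ n) := by
    refine ⟨(m b).det • (m b).adjugate, ?_, ?_⟩
    · rw [Matrix.smul_mul, Matrix.adjugate_mul, smul_smul, ← sq, h.det, one_smul]
    · have : H377.hsn ((m b).det • (m b).adjugate) = H377.hsn (m b).adjugate := by
        simp only [H377.hsn, Matrix.smul_apply, smul_eq_mul, mul_pow, h.det, one_mul]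
      rw [this]
      exact H377.hsn_adj_le _
  have heq : B * m b' - 1 = B * (m b' - m b) := by
    rw [Matrix.mul_sub, hB1]
  have h6 : H377.hsn (B * m b' - 1) ≤ 1 := by
    rw [heq]
    refine (H377.hsn_mul_le _ _).trans ?_
    have hms : (H377.hsn (m b) + 1) ^ n ≤ ((k : ℝ) + 2) ^ n :=
      pow_le_pow_left₀ (by have := H377.hsn_nn (m b); linarith) (by linarith) n
    have hB3 : H377.hsn B ≤ (n : ℝ) ^ 2 * (nf * ((k : ℝ) + 2) ^ n) := by
      refine hB2.trans (mul_le_mul_of_nonneg_left ?_ (by positivity))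
      exact mul_le_mul_of_nonneg_left hms (by positivity)
    have h7 : H377.hsn B * H377.hsn (m b' - m b) ≤
        ((n : ℝ) ^ 2 * (nf * ((k : ℝ) + 2) ^ n)) * ((n : ℝ) ^ 2 * (K ^ 2)⁻¹) :=
      mul_le_mul hB3 hclose (H377.hsn_nn _) (by positivity)
    refine h7.trans ?_
    have h8 : ((n : ℝ) ^ 2 * (nf * ((k : ℝ) + 2) ^ n)) * ((n : ℝ) ^ 2 * (K ^ 2)⁻¹) =
        K * (K ^ 2)⁻¹ := by
      rw [hKdef, hc]; ring
    rw [h8, sq, mul_inv, ← mul_assoc, mul_inv_cancel₀ hK.ne', one_mul]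
    refine inv_le_one_of_one_le₀ ?_
    have h9 : (1 : ℝ) ≤ ((k : ℝ) + 2) ^ n :=
      one_le_pow₀ (by have : (0 : ℝ) ≤ k := Nat.cast_nonneg _; linarith)
    rw [hKdef]; nlinarith
  -- `m (b⁻¹ b')` is `± B m b'`
  have h10 : ∃ ε : ℝ, (ε = 1 ∨ ε = -1) ∧ m b' = ε • (m b * m (b⁻¹ * b')) := by
    have := h.mul b (b⁻¹ * b')
    rw [mul_inv_cancel_left] at this
    rcases this with h | h
    · exact ⟨1, Or.inl rfl, by rw [one_smul]; exact h⟩
    · exact ⟨-1, Or.inr rfl, by rw [neg_smul, one_smul]; exact h⟩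
  obtain ⟨ε, hε, h11⟩ := h10
  have h12 : H377.hsn (m (b⁻¹ * b')) = H377.hsn (B * m b') := by
    rw [h11, Matrix.mul_smul, ← Matrix.mul_assoc, hB1, Matrix.one_mul]
    rcases hε with h | h
    · rw [h, one_smul]
    · rw [h, neg_smul, one_smul, H377.hsn_neg]
  rw [h12]
  have h13 := H377.hsn_le_add (B * m b') 1
  rw [H377.hsn_one] at h13
  linarith

/-- Packing. -/
theorem EmbW.pack (h : EmbW m) (hn : 0 < n) :
    ∃ C0 C : ℝ, 0 < C ∧ ∃ M : ℕ, ∀ k : ℕ, ∃ (X : Type) (_ : Fintype X) (code : Γ → X),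
      (Fintype.card X : ℝ) ≤ C * ((k : ℝ) + 1) ^ M ∧
      ∀ b b', hs (m b) ≤ k → hs (m b') ≤ k → code b = code b' → hs (m (b⁻¹ * b')) ≤ C0 := by
  obtain ⟨c, hc, hcl⟩ := h.close hn
  refine ⟨2 + 2 * n, (2 * (c * 2 ^ n) + 7) ^ (n * n), by positivity, (n + 1) * (n * n),
    fun k => ?_⟩
  set K : ℝ := c * ((k : ℝ) + 2) ^ n with hK
  have hKp : 0 < K := by positivity
  have hk0 : (0 : ℝ) ≤ k := Nat.cast_nonneg k
  set Z : ℕ := ⌈K * ((k : ℝ) + 1)⌉₊ + 1 with hZ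
  have hZ1 : K * ((k : ℝ) + 1) + 1 ≤ Z := by
    rw [hZ]; push_cast; linarith [Nat.le_ceil (K * ((k : ℝ) + 1))]
  have hZ2 : (Z : ℝ) ≤ K * ((k : ℝ) + 1) + 2 := by
    rw [hZ]; push_cast
    linarith [Nat.ceil_lt_add_one (a := K * ((k : ℝ) + 1)) (by positivity)]
  refine ⟨Fin n → Fin n → Fin (2 * Z + 2), inferInstance,
    fun b i j => Fin.ofNat (2 * Z + 2) (⌊K * m b i j⌋ + (Z : ℤ)).toNat, ?_, ?_⟩
  · rw [Fintype.card_fun, Fintype.card_fun, Fintype.card_fin, Fintype.card_fin, ← pow_mul]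
    push_cast
    have h2 : (2 * (Z : ℝ) + 2) ≤ (2 * (c * 2 ^ n) + 7) * ((k : ℝ) + 1) ^ (n + 1) := by
      have h3 : ((k : ℝ) + 2) ^ n ≤ 2 ^ n * ((k : ℝ) + 1) ^ n := by
        rw [← mul_pow]
        exact pow_le_pow_left₀ (by positivity) (by linarith) n
      have h4 : K * ((k : ℝ) + 1) ≤ (c * 2 ^ n) * ((k : ℝ) + 1) ^ (n + 1) := by
        calc K * ((k : ℝ) + 1) = c * (((k : ℝ) + 2) ^ n) * ((k : ℝ) + 1) := by rw [hK]
          _ ≤ c * (2 ^ n * ((k : ℝ) + 1) ^ n) * ((k : ℝ) + 1) := by gcongr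
          _ = _ := by ring
      have h5 : (1 : ℝ) ≤ ((k : ℝ) + 1) ^ (n + 1) := one_le_pow₀ (by linarith)
      nlinarith
    calc (2 * (Z : ℝ) + 2) ^ (n * n) ≤
          ((2 * (c * 2 ^ n) + 7) * ((k : ℝ) + 1) ^ (n + 1)) ^ (n * n) :=
          pow_le_pow_left₀ (by positivity) h2 _
      _ = _ := by rw [mul_pow, ← pow_mul]
  · intro b b' hb hb' hcode
    refine hcl k b b' hb fun i j => ?_
    -- the entries are bounded
    have hent : ∀ b, hs (m b) ≤ k → |K * m b i j| ≤ K * ((k : ℝ) + 1) := by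
      intro b hb
      rw [abs_mul, abs_of_pos hKp]
      refine mul_le_mul_of_nonneg_left ?_ hKp.le
      have h1 : (m b i j) ^ 2 ≤ k := (H377.sq_le_hsn (m b) i j).trans hb
      refine abs_le_of_sq_le_sq (a := m b i j) (b := (k : ℝ) + 1) ?_ (by linarith)
      nlinarith
    have hcode' := congrFun (congrFun hcode i) j
    have key : ∀ b, hs (m b) ≤ k → 0 ≤ ⌊K * m b i j⌋ + (Z : ℤ) ∧
        ⌊K * m b i j⌋ + (Z : ℤ) < 2 * Z + 2 := by
      intro b hb
      have h1 := abs_le.1 (hent b hb)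
      have l1 := Int.floor_le (K * m b i j)
      have l2 := Int.lt_floor_add_one (K * m b i j)
      constructor
      · have : (-(Z : ℤ) : ℝ) ≤ (⌊K * m b i j⌋ : ℝ) := by push_cast; linarith [h1.1]
        have : -(Z : ℤ) ≤ ⌊K * m b i j⌋ := by exact_mod_cast this
        linarith
      · have : (⌊K * m b i j⌋ : ℝ) ≤ ((Z : ℤ) : ℝ) := by push_cast; linarith [h1.2]
        have : ⌊K * m b i j⌋ ≤ (Z : ℤ) := by exact_mod_cast this
        linarith
    obtain ⟨a1, a2⟩ := key b hb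
    obtain ⟨a3, a4⟩ := key b' hb'
    have hfl : ⌊K * m b i j⌋ = ⌊K * m b' i j⌋ := by
      have h1 := congrArg Fin.val hcode'
      simp only [Fin.ofNat] at h1
      rw [Nat.mod_eq_of_lt (by omega), Nat.mod_eq_of_lt (by omega)] at h1
      omega
    have h2 := Int.abs_sub_lt_one_of_floor_eq_floor hfl.symm
    rw [← mul_sub, abs_mul, abs_of_pos hKp] at h2
    rw [← one_div, le_div_iff₀ hKp, mul_comm]
    exact h2.le

/-- **One real factor.** -/
theorem EmbW.gsys (hn : 0 < n) (h : EmbW m) {J : Type} (e : J ↪ ℕ) {R0 : ℝ}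
    (h0 : ∀ l, l + 1 < n → (∀ j, e j ≠ l) → ∀ g, gap l (m g) ≤ R0) :
    GSys (fun j g => gap (e j) (m g)) (fun b => hs (m b)) where
  pos b := hs_pos (h.ne b) hn
  quasi s t := ⟨4 * lcs (m s) + 4 * lcs (m t), fun j g => h.gap_quasi s g t (e j)⟩
  bdd R := by
    refine ⟨n * Real.exp (n * |max R R0|), fun g hg => ?_⟩
    refine hs_le_of_gap' (h.abs_det g) fun l hl => ?_
    by_cases hj : ∃ j, e j = l
    · obtain ⟨j, rfl⟩ := hj
      exact (hg j).trans (le_max_left _ _)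
    · push Not at hj
      exact (h0 l hl hj g).trans (le_max_right _ _)
  pack := h.pack hn
  gauge θ := ⟨{j // j ∈ θ}, inferInstance, _, _, 1, h.gauge hn e h0 θ⟩

end

end Vale.Agent.P092.H515
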