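import Vale.Agent.P092.H160.Basic
import Vale.Agent.P092.H200.InvMean

/-!
P092 (helper515), block SG: a subgroup `K` of `Λ` for which there is no mean on `Λ` invariant under
right multiplication by `K` has a finitely supported probability measure whose right convolution
operator on `ℓ²(Λ)` has norm smaller than one.
-/

open scoped InnerProductSpace
open Filter Topology

namespace Vale.Agent.P092.H515

open Vale.Agent.P092.H160 Vale.Agent.P092.H200

section cut

variable {X : Type}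

open Classical in
/-- restriction of a vector of `ℓ²(X)` to a subset -/
noncomputable def cut (B : Set X) (x : Ell2 X) : Ell2 X :=
  mk2 (fun h => if h ∈ B then x h else 0) (by
    refine Summable.of_nonneg_of_le (fun _ => by positivity) (fun h => ?_) (summable_sq x)
    by_cases hh : h ∈ B
    · simp [hh]
    · simp [hh])

open Classical in
theorem cut_apply (B : Set X) (x : Ell2 X) (h : X) :
    cut B x h = if h ∈ B then x h else 0 := rfl

theorem cut_sub (B : Set X) (x y : Ell2 X) : cut B x - cut B y = cut B (x - y) := by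
  classical
  apply lp.ext
  funext h
  change cut B x h - cut B y h = cut B (x - y) h
  rw [cut_apply, cut_apply, cut_apply]
  split_ifs
  · rfl
  · simp

theorem norm_cut_le (B : Set X) (x : Ell2 X) : ‖cut B x‖ ≤ ‖x‖ := by
  classical
  have h : ‖cut B x‖ ^ 2 ≤ ‖x‖ ^ 2 := by
    rw [norm_sq, norm_sq]
    refine (summable_sq _).tsum_le_tsum (fun h => ?_) (summable_sq _)
    rw [cut_apply]
    split_ifs
    · exact le_rfl
    · simp
  exact (pow_le_pow_iff_left₀ (norm_nonneg _) (norm_nonneg _) two_ne_zero).mp h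

theorem norm_cut_sub_le (B : Set X) (x y : Ell2 X) : |‖cut B x‖ - ‖cut B y‖| ≤ ‖x - y‖ := by
  refine (abs_norm_sub_norm_le _ _).trans ?_
  rw [cut_sub]
  exact norm_cut_le B _

theorem cut_univ (x : Ell2 X) : cut Set.univ x = x := by
  classical
  apply lp.ext
  funext h
  change cut Set.univ x h = x h
  rw [cut_apply]
  simp

theorem norm_cut_union {A B : Set X} (hAB : Disjoint A B) (x : Ell2 X) :
    ‖cut (A ∪ B) x‖ ^ 2 = ‖cut A x‖ ^ 2 + ‖cut B x‖ ^ 2 := by
  classical
  rw [norm_sq, norm_sq, norm_sq, ← (summable_sq _).tsum_add (summable_sq _)]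
  refine tsum_congr (fun h => ?_)
  rw [cut_apply, cut_apply, cut_apply]
  by_cases hA : h ∈ A
  · have hB : h ∉ B := Set.disjoint_left.mp hAB hA
    simp [hA, hB]
  · by_cases hB : h ∈ B
    · simp [hA, hB]
    · simp [hA, hB]

end cut

section mean

variable {Λ : Type} [Group Λ]

theorem norm_cut_rho (A : Set Λ) (v : Λ) (x : Ell2 Λ) :
    ‖cut {w | w * v ∈ A} (rho v x)‖ = ‖cut A x‖ := by
  classical
  have h : ‖cut {w | w * v ∈ A} (rho v x)‖ ^ 2 = ‖cut A x‖ ^ 2 := by
    rw [norm_sq, norm_sq]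
    rw [← Equiv.tsum_eq (Equiv.mulRight v) (fun h => ‖cut A x h‖ ^ 2)]
    refine tsum_congr (fun w => ?_)
    rw [cut_apply, cut_apply, rho_apply, Equiv.coe_mulRight]
    rfl
  exact (pow_left_inj₀ (norm_nonneg _) (norm_nonneg _) two_ne_zero).mp h

/-- almost invariant unit vectors give an invariant mean -/
theorem exists_mean (K : Subgroup Λ)
    (h : ∀ (S : Finset Λ) (ε : ℝ), 0 < ε → ∃ u : Ell2 Λ, ‖u‖ = 1 ∧
      ∀ v ∈ S, v ∈ K → ‖rho v u - u‖ ≤ ε) :
    ∃ m : Set Λ → ℝ, IsInvMean K m := by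
  classical
  have hε : ∀ n : ℕ, (0 : ℝ) < 1 / ((n : ℝ) + 1) := fun n => by positivity
  choose u hu hinv using fun (i : Finset Λ × ℕ) => h i.1 (1 / ((i.2 : ℝ) + 1)) (hε i.2)
  let F : Set Λ → (Finset Λ × ℕ) → ℝ := fun A i => ‖cut A (u i)‖ ^ 2
  have hF0 : ∀ A i, 0 ≤ F A i := fun A i => by positivity
  have hF1 : ∀ A i, F A i ≤ 1 := by
    intro A i
    have h1 : ‖cut A (u i)‖ ≤ 1 := (norm_cut_le A (u i)).trans (hu i).le
    have h2 : ‖cut A (u i)‖ ^ 2 ≤ 1 ^ 2 := by gcongr
    change ‖cut A (u i)‖ ^ 2 ≤ 1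
    linarith
  let U : Ultrafilter (Finset Λ × ℕ) := Ultrafilter.of atTop
  have hU : (U : Filter (Finset Λ × ℕ)) ≤ atTop := Ultrafilter.of_le atTop
  have hlim : ∀ A, ∃ c ∈ Set.Icc (0 : ℝ) 1, Tendsto (F A) (U : Filter _) (𝓝 c) := by
    intro A
    have hc : IsCompact (Set.Icc (0 : ℝ) 1) := isCompact_Icc
    obtain ⟨c, hc1, hc2⟩ := hc.ultrafilter_le_nhds (U.map (F A)) (by
      rw [Filter.le_principal_iff]
      exact Filter.mem_map.mpr (Filter.Eventually.of_forall (fun i => ⟨hF0 A i, hF1 A i⟩)))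
    exact ⟨c, hc1, hc2⟩
  choose m hm hlimm using hlim
  refine ⟨m, ⟨fun A => (hm A).1, ?_, ?_, ?_⟩⟩
  · refine tendsto_nhds_unique (hlimm Set.univ) ?_
    have : F Set.univ = fun _ => (1 : ℝ) := by
      funext i
      change ‖cut Set.univ (u i)‖ ^ 2 = 1
      rw [cut_univ, hu i]; norm_num
    rw [this]
    exact tendsto_const_nhds
  · intro A B hAB
    refine tendsto_nhds_unique (hlimm (A ∪ B)) ?_
    have : F (A ∪ B) = fun i => F A i + F B i := by
      funext i
      exact norm_cut_union hAB (u i)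
    rw [this]
    exact (hlimm A).add (hlimm B)
  · intro A v hv
    refine tendsto_nhds_unique (hlimm {w | w * v ∈ A}) ?_
    have hd : Tendsto (fun i => F {w | w * v ∈ A} i - F A i) (U : Filter _) (𝓝 0) := by
      have hb : ∀ᶠ i : Finset Λ × ℕ in (U : Filter _),
          |F {w | w * v ∈ A} i - F A i| ≤ 2 * (1 / ((i.2 : ℝ) + 1)) := by
        apply hU
        filter_upwards [eventually_ge_atTop (({v}, 0) : Finset Λ × ℕ)] with i hi
        have hvi : v ∈ i.1 := by
          have := hi.1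
          exact this (by simp)
        have h1 : ‖rho v (u i) - u i‖ ≤ 1 / ((i.2 : ℝ) + 1) := hinv i v hvi hv
        have h2 : F A i = ‖cut {w | w * v ∈ A} (rho v (u i))‖ ^ 2 := by
          rw [norm_cut_rho]
        rw [h2]
        change |‖cut {w | w * v ∈ A} (u i)‖ ^ 2 - ‖cut {w | w * v ∈ A} (rho v (u i))‖ ^ 2| ≤ _
        rw [sq_sub_sq, abs_mul]
        have h3 : ‖cut {w | w * v ∈ A} (u i)‖ ≤ 1 := (norm_cut_le _ _).trans (hu i).le
        have h4 : ‖cut {w | w * v ∈ A} (rho v (u i))‖ ≤ 1 := by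
          refine (norm_cut_le _ _).trans ?_
          rw [rho, norm_rei, hu i]
        have h5 : |‖cut {w | w * v ∈ A} (u i)‖ - ‖cut {w | w * v ∈ A} (rho v (u i))‖| ≤
            1 / ((i.2 : ℝ) + 1) := by
          refine (norm_cut_sub_le _ _ _).trans ?_
          rw [norm_sub_rev]; exact h1
        have h6 : |‖cut {w | w * v ∈ A} (u i)‖ + ‖cut {w | w * v ∈ A} (rho v (u i))‖| ≤ 2 := by
          rw [abs_of_nonneg (by positivity)]; linarith
        exact mul_le_mul h6 h5 (abs_nonneg _) (by norm_num)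
      refine squeeze_zero_norm' (a := fun i : Finset Λ × ℕ => 2 * (1 / ((i.2 : ℝ) + 1))) ?_ ?_
      · filter_upwards [hb] with i hi
        simpa [Real.norm_eq_abs] using hi
      · have h7 : Tendsto (fun n : ℕ => 2 * (1 / ((n : ℝ) + 1))) atTop (𝓝 0) := by
          simpa using (tendsto_one_div_add_atTop_nhds_zero_nat (𝕜 := ℝ)).const_mul 2
        have h8 : Tendsto (fun i : Finset Λ × ℕ => i.2) atTop atTop := by
          rw [← prod_atTop_atTop_eq]
          exact tendsto_snd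
        exact (h7.comp h8).mono_left hU
    have := hd.add (hlimm A)
    simpa using this

omit [Group Λ] in
/-- unit vectors whose sum is long are close to each other -/
theorem close_of_sum {H : Type*} [NormedAddCommGroup H] [InnerProductSpace ℂ H] {T : Finset Λ}
    {x : Λ → H} (hx : ∀ v ∈ T, ‖x v‖ = 1) {δ : ℝ} (hδ : 0 ≤ δ) (hδ1 : δ * T.card ≤ 2)
    (hs : (1 - δ) * T.card ≤ ‖∑ v ∈ T, x v‖) {v w : Λ} (hv : v ∈ T) (hw : w ∈ T) :
    ‖x v - x w‖ ^ 2 ≤ 4 * δ * T.card := by
  classical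
  by_cases hvw : v = w
  · rw [hvw, sub_self, norm_zero]
    have : 0 ≤ 4 * δ * (T.card : ℝ) := by positivity
    simpa using this
  have h1 : ∑ s ∈ T, x s = (x v + x w) + ∑ s ∈ (T.erase v).erase w, x s := by
    rw [← Finset.add_sum_erase T x hv,
      ← Finset.add_sum_erase (T.erase v) x (Finset.mem_erase.mpr ⟨fun h => hvw h.symm, hw⟩),
      add_assoc]
  have h2 : ‖∑ s ∈ (T.erase v).erase w, x s‖ ≤ (T.card : ℝ) - 2 := by
    refine (norm_sum_le _ _).trans ?_
    have h3 : ∀ s ∈ (T.erase v).erase w, ‖x s‖ = 1 := fun s hs =>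
      hx s (Finset.mem_of_mem_erase (Finset.mem_of_mem_erase hs))
    rw [Finset.sum_congr rfl h3, Finset.sum_const, nsmul_eq_mul, mul_one,
      Finset.card_erase_of_mem (Finset.mem_erase.mpr ⟨fun h => hvw h.symm, hw⟩),
      Finset.card_erase_of_mem hv]
    have h4 : 2 ≤ T.card := by
      have : ({v, w} : Finset Λ) ⊆ T := by
        intro s hs
        simp only [Finset.mem_insert, Finset.mem_singleton] at hs
        rcases hs with rfl | rfl
        · exact hv
        · exact hw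
      have h5 := Finset.card_le_card this
      rwa [Finset.card_pair hvw] at h5
    rw [Nat.sub_sub, Nat.cast_sub h4]
    norm_num
  have h3 : 2 - δ * T.card ≤ ‖x v + x w‖ := by
    have h5 : ‖∑ s ∈ T, x s‖ ≤ ‖x v + x w‖ + ((T.card : ℝ) - 2) := by
      rw [h1]
      exact (norm_add_le _ _).trans (by gcongr)
    nlinarith
  have h4 : ‖x v + x w‖ ^ 2 + ‖x v - x w‖ ^ 2 = 4 := by
    have := parallelogram_law_with_norm ℂ (x v) (x w)
    rw [hx v hv, hx w hw] at this
    nlinarith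
  have h6 : (2 - δ * T.card) ^ 2 ≤ ‖x v + x w‖ ^ 2 :=
    pow_le_pow_left₀ (by linarith) h3 2
  nlinarith

/-- Block SG: without a `K`-invariant mean there is a finitely supported probability measure on `K`
with spectral gap for the right translations on `ℓ²(Λ)`. -/
theorem spectral_gap (K : Subgroup Λ) (hK : ¬ ∃ m : Set Λ → ℝ, IsInvMean K m) :
    ∃ a : Λ →₀ ℝ, (∀ v, 0 ≤ a v) ∧ ((a.support : Set Λ) ⊆ (K : Set Λ)) ∧
      a.sum (fun _ x => x) = 1 ∧
      ∃ κ : ℝ, 0 ≤ κ ∧ κ < 1 ∧ ∀ ξ : Ell2 Λ,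
        ‖∑ v ∈ a.support, ((a v : ℝ) : ℂ) • rho v ξ‖ ≤ κ * ‖ξ‖ := by
  classical
  by_contra hcon
  push Not at hcon
  apply hK
  apply exists_mean K
  intro S ε hε
  set T : Finset Λ := insert 1 (S.filter (· ∈ K)) with hT
  have hTK : ∀ v ∈ T, v ∈ K := by
    intro v hv
    rw [hT, Finset.mem_insert, Finset.mem_filter] at hv
    rcases hv with rfl | hv
    · exact K.one_mem
    · exact hv.2
  have h1T : (1 : Λ) ∈ T := Finset.mem_insert_self _ _
  have hN : 0 < (T.card : ℝ) := by exact_mod_cast Finset.card_pos.mpr ⟨1, h1T⟩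
  have hN0 : (T.card : ℝ) ≠ 0 := hN.ne'
  let a : Λ →₀ ℝ := Finsupp.onFinset T (fun v => if v ∈ T then (T.card : ℝ)⁻¹ else 0) (by
    intro v hv
    by_contra h
    exact hv (by simp [h]))
  have ha : ∀ v, a v = if v ∈ T then (T.card : ℝ)⁻¹ else 0 := fun v => rfl
  have hsupp : a.support = T := by
    ext v
    rw [Finsupp.mem_support_iff, ha]
    by_cases hv : v ∈ T
    · simp [hv, hN0]
    · simp [hv]
  obtain ⟨δ, hδ0, hδ1, hδ2⟩ : ∃ δ : ℝ, 0 < δ ∧ δ * T.card ≤ 1 ∧ 4 * δ * T.card ≤ ε ^ 2 := by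
    refine ⟨min (1 / T.card) (ε ^ 2 / (4 * T.card)), by positivity, ?_, ?_⟩
    · have := min_le_left (1 / (T.card : ℝ)) (ε ^ 2 / (4 * T.card))
      calc _ ≤ (1 / (T.card : ℝ)) * T.card := by gcongr
        _ = 1 := by field_simp
    · have := min_le_right (1 / (T.card : ℝ)) (ε ^ 2 / (4 * T.card))
      calc _ ≤ 4 * (ε ^ 2 / (4 * T.card)) * T.card := by gcongr
        _ = ε ^ 2 := by field_simp
  have hδ3 : δ ≤ 1 := by
    have h1 : (1 : ℝ) ≤ T.card := by exact_mod_cast Finset.card_pos.mpr ⟨1, h1T⟩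
    nlinarith
  obtain ⟨ξ, hξ⟩ := hcon a (fun v => by rw [ha]; split_ifs <;> positivity)
    (by rw [hsupp]; intro v hv; exact hTK v hv)
    (by
      rw [Finsupp.sum, hsupp, Finset.sum_congr rfl (fun v hv => by rw [ha, if_pos hv]),
        Finset.sum_const, nsmul_eq_mul, mul_inv_cancel₀ hN0])
    (1 - δ) (by linarith) (by linarith)
  have hξ0 : ξ ≠ 0 := by
    intro h
    rw [h] at hξ
    simp at hξ
  have hξn : 0 < ‖ξ‖ := norm_pos_iff.mpr hξ0
  have hsum : ∑ v ∈ a.support, ((a v : ℝ) : ℂ) • rho v ξ =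
      ((T.card : ℂ)⁻¹) • ∑ v ∈ T, rho v ξ := by
    rw [hsupp, Finset.smul_sum]
    refine Finset.sum_congr rfl (fun v hv => ?_)
    rw [ha, if_pos hv]
    push_cast
    rfl
  rw [hsum, norm_smul, norm_inv, Complex.norm_natCast] at hξ
  set u : Ell2 Λ := ((‖ξ‖ : ℂ)⁻¹) • ξ with hu
  have hun : ‖u‖ = 1 := by
    rw [hu, norm_smul, norm_inv, Complex.norm_real, norm_norm, inv_mul_cancel₀ hξn.ne']
  have hrun : ∀ v, ‖rho v u‖ = 1 := fun v => by rw [rho, norm_rei, hun]
  refine ⟨u, hun, fun v hv hvK => ?_⟩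
  have hvT : v ∈ T := Finset.mem_insert_of_mem (Finset.mem_filter.mpr ⟨hv, hvK⟩)
  have hs : (1 - δ) * T.card ≤ ‖∑ v ∈ T, rho v u‖ := by
    have h1 : ∑ v ∈ T, rho v u = ((‖ξ‖ : ℂ)⁻¹) • ∑ v ∈ T, rho v ξ := by
      rw [Finset.smul_sum]
      refine Finset.sum_congr rfl (fun v _ => ?_)
      rw [hu, map_smul]
    rw [h1, norm_smul, norm_inv, Complex.norm_real, norm_norm]
    have h2 : (1 - δ) * ‖ξ‖ * T.card ≤ ‖∑ v ∈ T, rho v ξ‖ := by
      have h3 := hξ.le
      rw [inv_mul_eq_div, le_div_iff₀ hN] at h3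
      exact h3
    rw [inv_mul_eq_div, le_div_iff₀ hξn]
    linarith
  have hc := close_of_sum (x := fun v => rho v u) (T := T) (fun v _ => hrun v) hδ0.le
    (by linarith) hs hvT h1T
  simp only [rho_one, one_apply_eq_self] at hc
  have h5 : ‖rho v u - u‖ ^ 2 ≤ ε ^ 2 := hc.trans hδ2
  exact (pow_le_pow_iff_left₀ (norm_nonneg _) hε.le two_ne_zero).mp h5

end mean

end Vale.Agent.P092.H515
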